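import Mathlib

/-! Finite entropy toolkit (row 55).  `ent P X` only depends on the partition generated by `X`. -/

set_option autoImplicit false
open Finset Real

namespace Crest.Agent.R055

universe u v

/-- a finite probability weight -/
structure IsProb {Ω : Type u} [Fintype Ω] (P : Ω → ℝ) : Prop where
  nonneg : ∀ ω, 0 ≤ P ω
  sum_eq : ∑ ω, P ω = 1

section
variable {Ω : Type u} [Fintype Ω]

open Classical in
/-- probability that `X` takes the same value as at `ω`. -/
noncomputable def cls {S : Type v} (P : Ω → ℝ) (X : Ω → S) (ω : Ω) : ℝ :=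
  ∑ ω', if X ω' = X ω then P ω' else 0

/-- Shannon entropy of the random variable `X` under `P`. -/
noncomputable def ent {S : Type v} (P : Ω → ℝ) (X : Ω → S) : ℝ :=
  ∑ ω, P ω * (- Real.log (cls P X ω))

variable {P : Ω → ℝ} {S : Type v}

lemma cls_nonneg (hP : ∀ ω, 0 ≤ P ω) (X : Ω → S) (ω : Ω) : 0 ≤ cls P X ω := by
  classical
  unfold cls
  apply Finset.sum_nonneg
  intro i _
  split_ifs
  · exact hP i
  · exact le_rfl

lemma le_cls (hP : ∀ ω, 0 ≤ P ω) (X : Ω → S) (ω : Ω) : P ω ≤ cls P X ω := by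
  classical
  unfold cls
  have := Finset.single_le_sum (f := fun ω' => if X ω' = X ω then P ω' else 0)
    (fun i _ => by split_ifs <;> [exact hP i; exact le_rfl]) (Finset.mem_univ ω)
  simpa using this

lemma cls_pos (hP : ∀ ω, 0 ≤ P ω) (X : Ω → S) {ω : Ω} (h : 0 < P ω) : 0 < cls P X ω :=
  lt_of_lt_of_le h (le_cls hP X ω)

lemma cls_le_one (hP : IsProb P) (X : Ω → S) (ω : Ω) : cls P X ω ≤ 1 := by
  classical
  rw [← hP.sum_eq]
  unfold cls
  apply Finset.sum_le_sum
  intro i _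
  split_ifs
  · exact le_rfl
  · exact hP.nonneg i

lemma cls_mono {S' : Type*} (hP : ∀ ω, 0 ≤ P ω) {X : Ω → S} {Y : Ω → S'} {ω : Ω}
    (h : ∀ ω', X ω' = X ω → Y ω' = Y ω) : cls P X ω ≤ cls P Y ω := by
  classical
  unfold cls
  apply Finset.sum_le_sum
  intro i _
  by_cases h1 : X i = X ω
  · simp [h1, h i h1]
  · simp only [h1, if_false]
    split_ifs
    · exact hP i
    · exact le_rfl

lemma cls_congr {S' : Type*} {X : Ω → S} {Y : Ω → S'} {ω : Ω}
    (h : ∀ ω', X ω' = X ω ↔ Y ω' = Y ω) : cls P X ω = cls P Y ω := by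
  classical
  unfold cls
  apply Finset.sum_congr rfl
  intro i _
  simp [h i]

lemma cls_eq_of_eq {X : Ω → S} {ω ω' : Ω} (h : X ω = X ω') : cls P X ω = cls P X ω' := by
  classical
  unfold cls
  rw [h]

lemma ent_congr {S' : Type*} {X : Ω → S} {Y : Ω → S'}
    (h : ∀ ω ω', X ω' = X ω ↔ Y ω' = Y ω) : ent P X = ent P Y := by
  unfold ent
  apply Finset.sum_congr rfl
  intro i _
  rw [cls_congr (h i)]

lemma ent_nonneg (hP : IsProb P) (X : Ω → S) : 0 ≤ ent P X := by
  unfold ent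
  apply Finset.sum_nonneg
  intro i _
  apply mul_nonneg (hP.nonneg i)
  have := Real.log_nonpos (cls_nonneg hP.nonneg X i) (cls_le_one hP X i)
  linarith

/-- monotonicity: `Y` is a function of `X`. -/
lemma ent_mono {S' : Type*} (hP : ∀ ω, 0 ≤ P ω) {X : Ω → S} {Y : Ω → S'}
    (h : ∀ ω ω', X ω' = X ω → Y ω' = Y ω) : ent P Y ≤ ent P X := by
  unfold ent
  apply Finset.sum_le_sum
  intro i _
  rcases (hP i).lt_or_eq with hi | hi
  · apply mul_le_mul_of_nonneg_left _ (hP i)
    have := Real.log_le_log (cls_pos hP X hi) (cls_mono hP (h i))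
    linarith
  · simp [← hi]

lemma sum_div_cls_le (P : Ω → ℝ) (X : Ω → S) (v : S) [DecidableEq S] :
    ∑ ω, (if X ω = v then P ω / cls P X ω else 0) ≤ 1 := by
  classical
  by_cases hne : ∃ ω₀, X ω₀ = v
  · obtain ⟨ω₀, h0⟩ := hne
    have h1 : ∀ ω, (if X ω = v then P ω / cls P X ω else 0)
        = (if X ω = X ω₀ then P ω else 0) / cls P X ω₀ := by
      intro ω
      rw [h0]
      by_cases h : X ω = v
      · simp only [h, if_true]
        rw [cls_eq_of_eq (h.trans h0.symm)]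
      · simp [h]
    simp_rw [h1]
    rw [← Finset.sum_div]
    have h2 : (∑ ω, if X ω = X ω₀ then P ω else 0) = cls P X ω₀ := by
      unfold cls
      apply Finset.sum_congr rfl
      intro i _
      congr
    rw [h2]
    exact div_self_le_one _
  · have hne' : ∀ ω₀, X ω₀ ≠ v := fun ω₀ h => hne ⟨ω₀, h⟩
    simp [hne']

/-- the basic inequality `log x ≤ x - 1` summed. -/
lemma sum_mul_log_le {w : Ω → ℝ} {r : Ω → ℝ} (hw : ∀ ω, 0 ≤ w ω)
    (hr : ∀ ω, 0 < w ω → 0 < r ω) :
    ∑ ω, w ω * Real.log (r ω) ≤ ∑ ω, w ω * r ω - ∑ ω, w ω := by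
  rw [← Finset.sum_sub_distrib]
  apply Finset.sum_le_sum
  intro i _
  rcases (hw i).lt_or_eq with hi | hi
  · have := Real.log_le_sub_one_of_pos (hr i hi)
    nlinarith
  · simp [← hi]

/-- Submodularity of entropy. -/
lemma ent_submod {S₁ S₂ S₃ : Type*} (hP : IsProb P) (X : Ω → S₁) (Y : Ω → S₂) (Z : Ω → S₃) :
    ent P (fun ω => (X ω, Y ω, Z ω)) + ent P Z ≤
      ent P (fun ω => (X ω, Z ω)) + ent P (fun ω => (Y ω, Z ω)) := by
  classical
  set XYZ : Ω → S₁ × S₂ × S₃ := fun ω => (X ω, Y ω, Z ω) with hXYZ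
  set XZ : Ω → S₁ × S₃ := fun ω => (X ω, Z ω) with hXZ
  set YZ : Ω → S₂ × S₃ := fun ω => (Y ω, Z ω) with hYZ
  have h0 := hP.nonneg
  set r : Ω → ℝ := fun ω => cls P XZ ω * cls P YZ ω / (cls P XYZ ω * cls P Z ω) with hr
  have hrpos : ∀ ω, 0 < P ω → 0 < r ω := by
    intro ω hω
    have h1 := cls_pos h0 XZ hω
    have h2 := cls_pos h0 YZ hω
    have h3 := cls_pos h0 XYZ hω
    have h4 := cls_pos h0 Z hω
    simp only [hr]
    positivity
  have key : ∑ ω, P ω * r ω ≤ 1 := by
    -- expand cls XZ and cls YZ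
    have e1 : ∀ ω, P ω * r ω = ∑ ω₁, ∑ ω₂, P ω₁ * P ω₂ *
        (if Z ω₁ = Z ω₂ then (if XYZ ω = (X ω₁, Y ω₂, Z ω₂) then P ω / cls P XYZ ω else 0) / cls P Z ω₂
          else 0) := by
      intro ω
      have : P ω * r ω = (∑ ω₁, if XZ ω₁ = XZ ω then P ω₁ else 0) *
          (∑ ω₂, if YZ ω₂ = YZ ω then P ω₂ else 0) * (P ω / cls P XYZ ω / cls P Z ω) := by
        have hh1 : (∑ ω₁, if XZ ω₁ = XZ ω then P ω₁ else 0) = cls P XZ ω := by
          unfold cls; apply Finset.sum_congr rfl; intro i _; congr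
        have hh2 : (∑ ω₁, if YZ ω₁ = YZ ω then P ω₁ else 0) = cls P YZ ω := by
          unfold cls; apply Finset.sum_congr rfl; intro i _; congr
        rw [hh1, hh2]
        simp only [hr]
        rw [div_div]
        ring
      rw [this, Finset.sum_mul_sum, Finset.sum_mul]
      apply Finset.sum_congr rfl
      intro ω₁ _
      rw [Finset.sum_mul]
      apply Finset.sum_congr rfl
      intro ω₂ _
      by_cases hx : XZ ω₁ = XZ ω
      · by_cases hy : YZ ω₂ = YZ ω
        · simp only [hXZ, hYZ, Prod.mk.injEq] at hx hy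
          have hz : Z ω₁ = Z ω₂ := by rw [hx.2, hy.2]
          have hz' : XYZ ω = (X ω₁, Y ω₂, Z ω₂) := by
            simp only [hXYZ]; rw [hx.1, hy.1, hy.2]
          have hc : cls P Z ω = cls P Z ω₂ := cls_eq_of_eq hy.2.symm
          simp only [hXZ, hYZ, hx.1, hx.2, hy.1, hy.2, hz', if_true, hc]
        · rw [if_neg hy]
          by_cases hz : Z ω₁ = Z ω₂
          · have hne : XYZ ω ≠ (X ω₁, Y ω₂, Z ω₂) := by
              intro hcon
              apply hy
              simp only [hXYZ, Prod.mk.injEq] at hcon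
              simp only [hYZ, Prod.mk.injEq]
              exact ⟨hcon.2.1.symm, hcon.2.2.symm⟩
            simp [hne]
          · rw [if_neg hz]; simp
      · rw [if_neg hx]
        by_cases hz : Z ω₁ = Z ω₂
        · have hne : XYZ ω ≠ (X ω₁, Y ω₂, Z ω₂) := by
            intro hcon
            apply hx
            simp only [hXYZ, Prod.mk.injEq] at hcon
            simp only [hXZ, Prod.mk.injEq]
            exact ⟨hcon.1.symm, hz.trans hcon.2.2.symm⟩
          simp [hne]
        · rw [if_neg hz]; simp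
    simp_rw [e1]
    rw [Finset.sum_comm]
    have e2 : ∀ ω₁, ∑ ω, ∑ ω₂, P ω₁ * P ω₂ *
        (if Z ω₁ = Z ω₂ then (if XYZ ω = (X ω₁, Y ω₂, Z ω₂) then P ω / cls P XYZ ω else 0) / cls P Z ω₂
          else 0) ≤ ∑ ω₂, P ω₁ * P ω₂ * (if Z ω₁ = Z ω₂ then 1 / cls P Z ω₂ else 0) := by
      intro ω₁
      rw [Finset.sum_comm]
      apply Finset.sum_le_sum
      intro ω₂ _
      rw [← Finset.mul_sum]
      apply mul_le_mul_of_nonneg_left _ (mul_nonneg (h0 _) (h0 _))
      by_cases hz : Z ω₁ = Z ω₂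
      · simp only [hz, if_true]
        rw [← Finset.sum_div]
        apply div_le_div_of_nonneg_right _ (cls_nonneg h0 _ _)
        exact sum_div_cls_le P XYZ (X ω₁, Y ω₂, Z ω₂)
      · simp [hz]
    refine le_trans (Finset.sum_le_sum (fun ω₁ _ => e2 ω₁)) ?_
    rw [Finset.sum_comm]
    have e3 : ∀ ω₂, ∑ ω₁, P ω₁ * P ω₂ * (if Z ω₁ = Z ω₂ then 1 / cls P Z ω₂ else 0) ≤ P ω₂ := by
      intro ω₂
      have : ∑ ω₁, P ω₁ * P ω₂ * (if Z ω₁ = Z ω₂ then 1 / cls P Z ω₂ else 0)
          = P ω₂ * (cls P Z ω₂ / cls P Z ω₂) := by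
        have hh1 : (∑ ω₁, if Z ω₁ = Z ω₂ then P ω₁ else 0) = cls P Z ω₂ := by
          unfold cls; apply Finset.sum_congr rfl; intro i _; congr
        nth_rewrite 2 [← hh1]
        rw [Finset.sum_div, Finset.mul_sum]
        apply Finset.sum_congr rfl
        intro i _
        split_ifs <;> ring
      rw [this]
      calc P ω₂ * (cls P Z ω₂ / cls P Z ω₂) ≤ P ω₂ * 1 :=
            mul_le_mul_of_nonneg_left (div_self_le_one _) (h0 _)
        _ = P ω₂ := mul_one _
    calc _ ≤ ∑ ω₂, P ω₂ := Finset.sum_le_sum (fun ω₂ _ => e3 ω₂)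
      _ = 1 := hP.sum_eq
  have h5 := sum_mul_log_le (w := P) (r := r) h0 hrpos
  rw [hP.sum_eq] at h5
  have h6 : ∑ ω, P ω * Real.log (r ω) = ent P XYZ + ent P Z - ent P XZ - ent P YZ := by
    unfold ent
    rw [← Finset.sum_add_distrib, ← Finset.sum_sub_distrib, ← Finset.sum_sub_distrib]
    apply Finset.sum_congr rfl
    intro ω _
    rcases (h0 ω).lt_or_eq with hi | hi
    · have h1 := cls_pos h0 XZ hi
      have h2 := cls_pos h0 YZ hi
      have h3 := cls_pos h0 XYZ hi
      have h4 := cls_pos h0 Z hi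
      simp only [hr]
      rw [Real.log_div (by positivity) (by positivity), Real.log_mul h1.ne' h2.ne',
        Real.log_mul h3.ne' h4.ne']
      ring
    · simp [← hi]
  linarith

end

end Crest.Agent.R055
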