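import Mathlib
import Crest.Agent.R055.Ent

/-! Row 55 (S0076): definitions for the counting lemma (blueprint v2). -/

set_option autoImplicit false
open Finset Real
open scoped Pointwise

namespace Crest.Agent.R055

/-- entropy of a weight -/
noncomputable def hl {S : Type*} [Fintype S] (w : S → ℝ) : ℝ := ∑ s, Real.negMulLog (w s)

/-- symmetrisation of a weight under the action of the finite group `G` (law of `g • Z`). -/
noncomputable def symm (G : Type*) [Group G] [Fintype G] {S : Type*} [MulAction G S]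
    (w : S → ℝ) : S → ℝ := fun s => (∑ g : G, w (g⁻¹ • s)) / (Fintype.card G : ℝ)

/-- `D w = H(gZ) - H(Z) = I(g ; gZ)`. -/
noncomputable def Dv (G : Type*) [Group G] [Fintype G] {S : Type*} [Fintype S] [MulAction G S]
    (w : S → ℝ) : ℝ := hl (symm G w) - hl w

section
variable {E : Type} [Fintype E] [DecidableEq E]

/-- probability weight on subsets of `H` -/
structure IsLaw (H : Finset E) (w : Finset E → ℝ) : Prop where
  prob : IsProb w
  supp : ∀ A, w A ≠ 0 → A ⊆ H

/-- expected cardinality -/
noncomputable def ecard {S : Type*} [Fintype S] (w : S → ℝ) (U : S → Finset E) : ℝ :=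
  ∑ s, w s * ((U s).card : ℝ)

/-- `∑_e P(e ∈ Z)^2` (unnormalised) -/
noncomputable def energy (w : Finset E → ℝ) : ℝ := ∑ e : E, (∑ A, if e ∈ A then w A else 0) ^ 2

/-- `Ψ` is (minus) the minimal value of `D w - l E|Z| - lam * energy w`:
here only the inequality part. -/
def Extremal (G : Type) [Group G] [Fintype G] [MulAction G E] (H : Finset E) (l lam Ψ : ℝ) : Prop :=
  ∀ w : Finset E → ℝ, IsLaw H w →
    lam * energy w ≤ Dv G w - l * ecard w (fun A => A) + Ψ

/-- homogeneous version for unnormalised weights -/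
def ExtremalHom (G : Type) [Group G] [Fintype G] [MulAction G E] (H : Finset E) (l lam Ψ : ℝ) : Prop :=
  ∀ w : Finset E → ℝ, (∀ A, 0 ≤ w A) → (∀ A, w A ≠ 0 → A ⊆ H) →
    lam * (energy w / ∑ A, w A) ≤ Dv G w - l * ecard w (fun A => A) + Ψ * ∑ A, w A

end

/-- A block: a law on a finite `G`-set with an equivariant map to finsets, supported in `H`. -/
structure Blk (G : Type) [Group G] [Fintype G] {E : Type} [Fintype E] [DecidableEq E]
    [MulAction G E] (H : Finset E) where
  T : Type
  [fT : Fintype T]
  [dT : DecidableEq T]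
  [aT : MulAction G T]
  μ : T → ℝ
  prob : IsProb μ
  U : T → Finset E
  equi : ∀ (g : G) (t : T), U (g • t) = g • U t
  supp : ∀ t, μ t ≠ 0 → U t ⊆ H

attribute [instance] Blk.fT Blk.dT Blk.aT

namespace Blk
variable {G : Type} [Group G] [Fintype G] {E : Type} [Fintype E] [DecidableEq E]
    [MulAction G E] {H : Finset E}

/-- two independent blocks -/
noncomputable def prod (B B' : Blk G H) : Blk G H where
  T := B.T × B'.T
  μ := fun x => B.μ x.1 * B'.μ x.2
  prob := by
    constructor
    · intro x; exact mul_nonneg (B.prob.nonneg _) (B'.prob.nonneg _)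
    · rw [Fintype.sum_prod_type]
      simp only
      simp_rw [← Finset.mul_sum, B'.prob.sum_eq, mul_one]
      exact B.prob.sum_eq
  U := fun x => B.U x.1 ∪ B'.U x.2
  equi := by
    intro g x
    change B.U (g • x.1) ∪ B'.U (g • x.2) = g • (B.U x.1 ∪ B'.U x.2)
    rw [B.equi, B'.equi, Finset.smul_finset_union]
  supp := by
    intro x hx
    have h1 : B.μ x.1 ≠ 0 := fun h => hx (by rw [h, zero_mul])
    have h2 : B'.μ x.2 ≠ 0 := fun h => hx (by rw [h, mul_zero])
    exact Finset.union_subset (B.supp _ h1) (B'.supp _ h2)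

/-- `f_1` of the block: `I(g;gB) - l E|U| + Ψ` -/
noncomputable def F (B : Blk G H) (l Ψ : ℝ) : ℝ := Dv G B.μ - l * ecard B.μ B.U + Ψ

/-- law of `β = g • b` -/
noncomputable def law (B : Blk G H) : B.T → ℝ := symm G B.μ

/-- `m = H(K | β)` on two blocks -/
noncomputable def m (B : Blk G H) : ℝ :=
  ent (B.prod B).law (fun x => (B.U x.1 ∩ B.U x.2, x.1)) - ent (B.prod B).law (fun x => x.1)

/-- `k = E|K|` -/
noncomputable def k (B : Blk G H) : ℝ :=
  ecard (B.prod B).law (fun x => B.U x.1 ∩ B.U x.2)

end Blk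

end Crest.Agent.R055
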