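import Mathlib
import Crest.Agent.R055.Defs

/-!
# R055.Extremal: existence of the extremal law and the homogeneous form of extremality
-/

set_option autoImplicit false
set_option linter.unusedSectionVars false
open Finset Real
open scoped Pointwise

namespace Crest.Agent.R055

section
variable {E : Type} [Fintype E] [DecidableEq E]

lemma continuous_hl {S : Type*} [Fintype S] : Continuous (hl : (S → ℝ) → ℝ) := by
  unfold hl
  exact continuous_finsetSum _ fun s _ => Real.continuous_negMulLog.comp (continuous_apply s)

lemma continuous_symm (G : Type*) [Group G] [Fintype G] {S : Type*} [MulAction G S] :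
    Continuous (symm G : (S → ℝ) → (S → ℝ)) := by
  unfold symm
  refine continuous_pi fun s => ?_
  exact (continuous_finsetSum _ fun g _ => continuous_apply (g⁻¹ • s)).div_const _

lemma continuous_Dv (G : Type*) [Group G] [Fintype G] {S : Type*} [Fintype S] [MulAction G S] :
    Continuous (Dv G : (S → ℝ) → ℝ) := by
  unfold Dv
  exact (continuous_hl.comp (continuous_symm G)).sub continuous_hl

lemma continuous_ecard {S : Type*} [Fintype S] (U : S → Finset E) :
    Continuous (fun w : S → ℝ => ecard w U) := by
  unfold ecard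
  exact continuous_finsetSum _ fun s _ => (continuous_apply s).mul continuous_const

lemma continuous_energy : Continuous (energy : (Finset E → ℝ) → ℝ) := by
  unfold energy
  refine continuous_finsetSum _ fun e _ => Continuous.pow ?_ 2
  refine continuous_finsetSum _ fun A _ => ?_
  split_ifs
  · exact continuous_apply A
  · exact continuous_const

lemma isCompact_isLaw (H : Finset E) : IsCompact {w : Finset E → ℝ | IsLaw H w} := by
  have hsub : {w : Finset E → ℝ | IsLaw H w} ⊆ Set.pi Set.univ (fun _ => Set.Icc (0 : ℝ) 1) := by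
    intro w hw A _
    refine ⟨hw.prob.nonneg A, ?_⟩
    rw [← hw.prob.sum_eq]
    exact Finset.single_le_sum (fun i _ => hw.prob.nonneg i) (Finset.mem_univ A)
  refine (isCompact_univ_pi fun _ => isCompact_Icc).of_isClosed_subset ?_ hsub
  have : {w : Finset E → ℝ | IsLaw H w} = {w | ∀ A, 0 ≤ w A} ∩ {w | ∑ A, w A = 1} ∩
      {w | ∀ A, ¬ A ⊆ H → w A = 0} := by
    ext w
    constructor
    · intro hw
      exact ⟨⟨hw.prob.nonneg, hw.prob.sum_eq⟩, fun A hA => by
        by_contra h
        exact hA (hw.supp A h)⟩
    · rintro ⟨⟨h1, h2⟩, h3⟩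
      exact ⟨⟨h1, h2⟩, fun A hA => by
        by_contra h
        exact hA (h3 A h)⟩
  rw [this]
  refine (IsClosed.inter ?_ ?_).inter ?_
  · simp only [Set.ofPred_forall]
    exact isClosed_iInter fun A => isClosed_le continuous_const (continuous_apply A)
  · exact isClosed_eq (continuous_finsetSum _ fun A _ => continuous_apply A) continuous_const
  · simp only [Set.ofPred_forall]
    exact isClosed_iInter fun A => isClosed_iInter fun _ =>
      isClosed_eq (continuous_apply A) continuous_const

/-- the point mass at the empty set -/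
lemma isLaw_empty (H : Finset E) : IsLaw H (fun A => if A = ∅ then (1 : ℝ) else 0) := by
  refine ⟨⟨fun A => by split_ifs <;> norm_num, by simp⟩, fun A hA => ?_⟩
  by_cases h : A = ∅
  · simp [h]
  · simp [h] at hA

variable (G : Type) [Group G] [Fintype G] [MulAction G E]

theorem exists_extremal (H : Finset E) (l lam : ℝ) : ∃ (Ψ : ℝ) (w : Finset E → ℝ), IsLaw H w ∧
    lam * energy w = Dv G w - l * ecard w (fun A => A) + Ψ ∧ Extremal G H l lam Ψ := by
  have hcont : Continuous fun w : Finset E → ℝ =>
      Dv G w - l * ecard w (fun A => A) - lam * energy w :=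
    ((continuous_Dv G).sub (continuous_const.mul (continuous_ecard _))).sub
      (continuous_const.mul continuous_energy)
  obtain ⟨w, hw, hmin⟩ := (isCompact_isLaw H).exists_isMinOn ⟨_, isLaw_empty H⟩
    hcont.continuousOn
  refine ⟨-(Dv G w - l * ecard w (fun A => A) - lam * energy w), w, hw, by ring, ?_⟩
  intro w' hw'
  have h := hmin hw'
  have h' : Dv G w - l * ecard w (fun A => A) - lam * energy w ≤
    Dv G w' - l * ecard w' (fun A => A) - lam * energy w' := h
  linarith

/-! ### homogeneity -/

lemma hl_smul_ext {S : Type*} [Fintype S] (s : ℝ) (w : S → ℝ) :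
    hl (fun x => s * w x) = s * hl w + Real.negMulLog s * ∑ x, w x := by
  unfold hl
  rw [Finset.mul_sum, Finset.mul_sum, ← Finset.sum_add_distrib]
  refine Finset.sum_congr rfl fun x _ => ?_
  rw [Real.negMulLog_mul]
  ring

lemma symm_smul_ext (G : Type*) [Group G] [Fintype G] {S : Type*} [MulAction G S] (s : ℝ)
    (w : S → ℝ) : symm G (fun x => s * w x) = fun x => s * symm G w x := by
  funext x
  unfold symm
  rw [← Finset.mul_sum, mul_div_assoc]

lemma sum_symm_ext (G : Type*) [Group G] [Fintype G] {S : Type*} [Fintype S] [MulAction G S]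
    (w : S → ℝ) : ∑ x, symm G w x = ∑ x, w x := by
  unfold symm
  rw [← Finset.sum_div, Finset.sum_comm]
  have h : ∀ g : G, ∑ x : S, w (g⁻¹ • x) = ∑ x, w x := fun g =>
    Fintype.sum_equiv (MulAction.toPerm g⁻¹) _ _ (fun x => rfl)
  simp only [h, Finset.sum_const, Finset.card_univ, nsmul_eq_mul]
  have : (Fintype.card G : ℝ) ≠ 0 := by
    exact_mod_cast Fintype.card_ne_zero
  field_simp

lemma Dv_smul_ext (G : Type*) [Group G] [Fintype G] {S : Type*} [Fintype S] [MulAction G S] (s : ℝ)
    (w : S → ℝ) : Dv G (fun x => s * w x) = s * Dv G w := by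
  unfold Dv
  rw [symm_smul_ext, hl_smul_ext, hl_smul_ext, sum_symm_ext]
  ring

lemma ecard_smul_ext {S : Type*} [Fintype S] (U : S → Finset E) (s : ℝ) (w : S → ℝ) :
    ecard (fun x => s * w x) U = s * ecard w U := by
  unfold ecard
  rw [Finset.mul_sum]
  exact Finset.sum_congr rfl fun x _ => by ring

lemma energy_smul_ext (s : ℝ) (w : Finset E → ℝ) :
    energy (fun x => s * w x) = s ^ 2 * energy w := by
  unfold energy
  rw [Finset.mul_sum]
  refine Finset.sum_congr rfl fun e _ => ?_
  rw [← mul_pow, Finset.mul_sum]
  congr 1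
  refine Finset.sum_congr rfl fun A _ => ?_
  split_ifs <;> simp

theorem Extremal.hom {H : Finset E} {l lam Ψ : ℝ} (h : Extremal G H l lam Ψ) :
    ExtremalHom G H l lam Ψ := by
  intro w hw hsupp
  set s := ∑ A, w A with hs
  rcases (Finset.sum_nonneg fun A _ => hw A : (0 : ℝ) ≤ ∑ A, w A).eq_or_lt with h0 | hpos
  · have hz : w = fun A => 0 * (1 : ℝ) := by
      funext A
      have := (Finset.sum_eq_zero_iff_of_nonneg fun A _ => hw A).1 h0.symm A (Finset.mem_univ A)
      rw [this]; simp
    have hs0 : s = 0 := by rw [hs, ← h0]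
    have e1 : Dv G w = 0 := by rw [hz, Dv_smul_ext]; simp
    have e2 : ecard w (fun A => A) = 0 := by rw [hz, ecard_smul_ext]; simp
    rw [e1, e2, hs0]
    simp
  · have hspos : 0 < s := hpos
    set v : Finset E → ℝ := fun A => w A / s with hv
    have hwv : w = fun A => s * v A := by
      funext A
      rw [hv]
      field_simp
    have hlaw : IsLaw H v := by
      refine ⟨⟨fun A => div_nonneg (hw A) hspos.le, ?_⟩, fun A hA => hsupp A ?_⟩
      · rw [hv, ← Finset.sum_div, ← hs, div_self hspos.ne']
      · intro h0
        apply hA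
        rw [hv]
        simp [h0]
    have key := h v hlaw
    rw [hwv, Dv_smul_ext, ecard_smul_ext, energy_smul_ext]
    have e3 : s ^ 2 * energy v / s = s * energy v := by
      field_simp
    rw [e3]
    nlinarith

end

end Crest.Agent.R055
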