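import Mathlib

/-!
# R055.Potential: the real-arithmetic endgame of the counting lemma

Parameters `lam = 3`, `rho = 8`, `eps_n = n / 24`, `L = log 8 ≤ 2.08`, `l4 = log 4 ≤ 1.3863`,
`c ≥ 50`.
-/

set_option autoImplicit false

namespace Crest.Agent.R055

theorem potential_step {c L l4 δ m k F F' F'' f3 t1 t2 a b m' k' : ℝ}
    (hc : 50 ≤ c) (hL : L ≤ 2.08) (hl : l4 ≤ 1.3863) (hδ : 0 ≤ δ)
    (h1 : 2 * m - t1 ≤ (1 + 2 / 24) * ((F + F' - f3) + a) + 2 / 24 * F + 2 * (k * L))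
    (h2 : a ≤ 2 * (m - t1))
    (h3 : 3 * m - t1 - t2 ≤ (1 + 3 / 24) * ((F + f3 - F'') + b + (m - t2)) + 3 / 24 * F
      + 3 * (k * L))
    (h4 : b ≤ 2 * (m - t2)) (h5 : t1 ≤ t2)
    (h6 : a + b ≤ m' + l4 * k')
    (h7 : c * k - 2 * m + δ ≤ 2 * F - F') (h7' : c * k' - 2 * m' + δ ≤ 2 * F' - F'')
    (hk : 0 ≤ k) (hk' : 0 ≤ k') (hF : 0 ≤ F) (hF' : 0 ≤ F') (hm : 0 ≤ m) (hm' : 0 ≤ m') :
    2.1 * (1.0555 * m + 1.7675 * (2 * F - F') - 5.778 * F) ≤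
      1.0555 * m' + 1.7675 * (2 * F' - F'') - 5.778 * F' := by
  have e1 : k * L ≤ 2.08 * k := by nlinarith
  have e2 : l4 * k' ≤ 1.3863 * k' := by nlinarith
  have e3 : 50 * k ≤ c * k := by nlinarith
  have e4 : 50 * k' ≤ c * k' := by nlinarith
  linarith

theorem potential_base {c L δ m k F F' : ℝ} (hc : 50 ≤ c) (hL : L ≤ 2.08) (hδ : 0 < δ)
    (h7 : c * k - 2 * m + δ ≤ 2 * F - F')
    (h9 : m ≤ (1 + 1 / 24) * (2 * F - F' + m) + 1 / 24 * F + k * L)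
    (h10 : F = 3 * k) (hk : 0 ≤ k) (hF' : 0 ≤ F') :
    0 < 1.0555 * m + 1.7675 * (2 * F - F') - 5.778 * F := by
  have e1 : k * L ≤ 2.08 * k := by nlinarith
  have e3 : 50 * k ≤ c * k := by nlinarith
  subst h10
  linarith

/-- The endgame: no bounded family of block data satisfies the chain inequalities. -/
theorem potential_contradiction {c L l4 δ M : ℝ} (hc : 50 ≤ c) (hL : L ≤ 2.08)
    (hl : l4 ≤ 1.3863) (hδ : 0 < δ)
    (m k F f3 t1 t2 a b : ℕ → ℝ)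
    (h1 : ∀ j, 2 * m j - t1 j ≤ (1 + 2 / 24) * ((F j + F (j + 1) - f3 j) + a j) + 2 / 24 * F j
      + 2 * (k j * L))
    (h2 : ∀ j, a j ≤ 2 * (m j - t1 j))
    (h3 : ∀ j, 3 * m j - t1 j - t2 j ≤ (1 + 3 / 24) * ((F j + f3 j - F (j + 2)) + b j
      + (m j - t2 j)) + 3 / 24 * F j + 3 * (k j * L))
    (h4 : ∀ j, b j ≤ 2 * (m j - t2 j)) (h5 : ∀ j, t1 j ≤ t2 j)
    (h6 : ∀ j, a j + b j ≤ m (j + 1) + l4 * k (j + 1))
    (h7 : ∀ j, c * k j - 2 * m j + δ ≤ 2 * F j - F (j + 1))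
    (h9 : m 0 ≤ (1 + 1 / 24) * (2 * F 0 - F 1 + m 0) + 1 / 24 * F 0 + k 0 * L)
    (h10 : F 0 = 3 * k 0) (hk : ∀ j, 0 ≤ k j) (hF : ∀ j, 0 ≤ F j) (hm : ∀ j, 0 ≤ m j)
    (hM : ∀ j, m j ≤ M) : False := by
  set P : ℕ → ℝ := fun j => 1.0555 * m j + 1.7675 * (2 * F j - F (j + 1)) - 5.778 * F j with hP
  have hstep : ∀ j, 2.1 * P j ≤ P (j + 1) := fun j =>
    potential_step hc hL hl hδ.le (h1 j) (h2 j) (h3 j) (h4 j) (h5 j) (h6 j) (h7 j) (h7 (j + 1))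
      (hk j) (hk (j + 1)) (hF j) (hF (j + 1)) (hm j) (hm (j + 1))
  have hbase : 0 < P 0 := potential_base hc hL hδ (h7 0) h9 h10 (hk 0) (hF 1)
  have hgrow : ∀ j, 2.1 ^ j * P 0 ≤ P j := by
    intro j
    induction j with
    | zero => simp
    | succ j ih =>
      calc (2.1 : ℝ) ^ (j + 1) * P 0 = 2.1 * (2.1 ^ j * P 0) := by ring
        _ ≤ 2.1 * P j := by gcongr
        _ ≤ P (j + 1) := hstep j
  have hbd : ∀ j, P j ≤ 1.0555 * M := by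
    intro j
    have h1 := hM j
    have h2 := hF j
    have h3 := hF (j + 1)
    simp only [hP]
    linarith
  have hlim := (tendsto_pow_atTop_atTop_of_one_lt (by norm_num : (1 : ℝ) < 2.1))
  obtain ⟨j, hj⟩ := (hlim.eventually_gt_atTop (1.0555 * M / P 0)).exists
  have h := (hgrow j).trans (hbd j)
  have hj' : 1.0555 * M < 2.1 ^ j * P 0 := (div_lt_iff₀ hbase).1 hj
  exact absurd h (not_le.mpr hj')

end Crest.Agent.R055
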