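import Mathlib
import Crest.Agent.R055.Ent
import Crest.Agent.R055.Defs

/-! Row 55 (S0076): exact statements of the modules of the counting lemma (interfaces). -/

set_option autoImplicit false
open Finset Real
open scoped Pointwise

namespace Crest.Agent.R055

variable (G : Type) [Group G] [Fintype G] {E : Type} [Fintype E] [DecidableEq E]
    [MulAction G E] (H : Finset E)

/-- GAIN (module Gain.lean, helper538 proves it from `ExtremalHom`). -/
def GainStmt (l lam rho Ψ : ℝ) : Prop :=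
  ∀ (B B' : Blk G H) (n : ℕ) (K : Fin n → B.T × B'.T → Finset E),
    (∀ i x, K i x ⊆ B.U x.1) →
    (∀ i (g : G) (x : B.T × B'.T), K i (g • x) = g • K i x) →
    (∀ x, (Finset.univ.biUnion fun i => K i x) = B.U x.1 ∩ B'.U x.2) →
    ent (B.prod B').law (fun x : B.T × B'.T => ((fun i => K i x), x.1))
        - ent (B.prod B').law (fun x : B.T × B'.T => x.1) ≤
      (1 + n / (lam * rho)) * (B.F l Ψ + B'.F l Ψ - (B.prod B').F l Ψ
        + (ent (B.prod B').law (fun x : B.T × B'.T => ((fun i => K i x), x.2))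
          - ent (B.prod B').law (fun x : B.T × B'.T => x.2)))
      + n / (lam * rho) * B.F l Ψ
      + Real.log rho * ∑ i, ecard (B.prod B').law (K i)

/-- CHAIN (module Chain.lean): the 4-block Shannon inequalities (1)-(6) and (9) of the blueprint. -/
def ChainStmt (l lam rho Ψ : ℝ) : Prop :=
  ∀ (B : Blk G H), ∃ f3 t1 t2 a b : ℝ,
    -- (1)
    2 * B.m - t1 ≤ (1 + 2 / (lam * rho)) * ((B.F l Ψ + (B.prod B).F l Ψ - f3) + a)
        + 2 / (lam * rho) * B.F l Ψ + 2 * B.k * Real.log rho ∧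
    -- (2)
    a ≤ 2 * (B.m - t1) ∧
    -- (3)
    3 * B.m - t1 - t2 ≤ (1 + 3 / (lam * rho)) *
        ((B.F l Ψ + f3 - ((B.prod B).prod (B.prod B)).F l Ψ) + b + (B.m - t2))
        + 3 / (lam * rho) * B.F l Ψ + 3 * B.k * Real.log rho ∧
    -- (4)
    b ≤ 2 * (B.m - t2) ∧
    -- (5)
    0 ≤ t1 ∧ t1 ≤ t2 ∧
    -- (6)
    a + b ≤ (B.prod B).m + Real.log 4 * (B.prod B).k ∧
    -- (9)
    B.m ≤ (1 + 1 / (lam * rho)) * ((2 * B.F l Ψ - (B.prod B).F l Ψ) + B.m)
        + 1 / (lam * rho) * B.F l Ψ + B.k * Real.log rho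

/-- (7), given the sparse bound; `c = log (1/p) - l`. -/
def SparseGainStmt (l p Ψ : ℝ) : Prop :=
  ∀ (B : Blk G H), (Real.log (1 / p) - l) * B.k - 2 * B.m + (Ψ - Real.log 2) ≤
    2 * B.F l Ψ - (B.prod B).F l Ψ

/-- (8): `lam * k ≤ F`, `0 ≤ m`, `0 ≤ k` and the upper bounds. -/
def BoundsStmt (l lam Ψ : ℝ) : Prop :=
  ∀ (B : Blk G H), lam * B.k ≤ B.F l Ψ ∧ 0 ≤ B.k ∧ 0 ≤ B.m ∧
    B.m ≤ Fintype.card E * Real.log 2 ∧ B.F l Ψ ≤ Real.log (Fintype.card G) + Ψ

end Crest.Agent.R055
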