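import Mathlib
import Crest.Agent.R055.Stmts
import Crest.Agent.R055.Potential
import Crest.Agent.R055.Extremal

/-!
# R055.Assembly: `Ψ ≤ log 2` from the module statements
-/

set_option autoImplicit false
open Finset Real
open scoped Pointwise

namespace Crest.Agent.R055

variable {G : Type} [Group G] [Fintype G] {E : Type} [Fintype E] [DecidableEq E]
    [MulAction G E] {H : Finset E}

/-- iterated squares of a block -/
noncomputable def Blk.iter (B : Blk G H) : ℕ → Blk G H
  | 0 => B
  | j + 1 => (B.iter j).prod (B.iter j)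

lemma log_eight_le : Real.log 8 ≤ 2.08 := by
  have h : (8 : ℝ) = 2 ^ 3 := by norm_num
  rw [h, Real.log_pow]
  have := Real.log_two_lt_d9
  push_cast
  linarith

lemma log_four_le : Real.log 4 ≤ 1.3863 := by
  have h : (4 : ℝ) = 2 ^ 2 := by norm_num
  rw [h, Real.log_pow]
  have := Real.log_two_lt_d9
  push_cast
  linarith

/-- **Endgame**: the chain inequalities force `Ψ ≤ log 2`. -/
theorem psi_le_log_two {l p Ψ : ℝ} (hc : 50 ≤ Real.log (1 / p) - l)
    (hchain : ChainStmt G H l 3 8 Ψ) (hsparse : SparseGainStmt G H l p Ψ)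
    (hbounds : BoundsStmt G H l 3 Ψ) (B₀ : Blk G H) (hB₀ : B₀.F l Ψ = 3 * B₀.k) :
    Ψ ≤ Real.log 2 := by
  by_contra hΨ
  push Not at hΨ
  choose f3 t1 t2 a b h using fun j : ℕ => hchain (B₀.iter j)
  refine potential_contradiction (c := Real.log (1 / p) - l) (L := Real.log 8) (l4 := Real.log 4)
    (δ := Ψ - Real.log 2) (M := Fintype.card E * Real.log 2) hc log_eight_le log_four_le
    (by linarith) (fun j => (B₀.iter j).m) (fun j => (B₀.iter j).k)
    (fun j => (B₀.iter j).F l Ψ) f3 t1 t2 a b ?_ ?_ ?_ ?_ ?_ ?_ ?_ ?_ hB₀ ?_ ?_ ?_ ?_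
  · intro j
    have := (h j).1
    have e : (B₀.iter (j + 1)) = (B₀.iter j).prod (B₀.iter j) := rfl
    simp only [e]
    norm_num at this ⊢
    linarith
  · intro j
    exact (h j).2.1
  · intro j
    have := (h j).2.2.1
    have e : (B₀.iter (j + 2)) = ((B₀.iter j).prod (B₀.iter j)).prod
      ((B₀.iter j).prod (B₀.iter j)) := rfl
    simp only [e]
    norm_num at this ⊢
    linarith
  · intro j
    exact (h j).2.2.2.1
  · intro j
    exact (h j).2.2.2.2.2.1
  · intro j
    exact (h j).2.2.2.2.2.2.1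
  · intro j
    exact hsparse (B₀.iter j)
  · have := (h 0).2.2.2.2.2.2.2
    have e : (B₀.iter 1) = (B₀.iter 0).prod (B₀.iter 0) := rfl
    simp only [e]
    norm_num at this ⊢
    linarith
  · intro j
    exact (hbounds (B₀.iter j)).2.1
  · intro j
    have h1 := (hbounds (B₀.iter j)).1
    have h2 := (hbounds (B₀.iter j)).2.1
    show 0 ≤ (B₀.iter j).F l Ψ
    linarith
  · intro j
    exact (hbounds (B₀.iter j)).2.2.1
  · intro j
    exact (hbounds (B₀.iter j)).2.2.2.1

end Crest.Agent.R055
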