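import Crest.Agent.R055.Count
import Crest.Agent.R055.Defs

/-!
Row 55 (S0076): adapters of `Sparse.lean` / `Count.lean` to the definitions of `Defs.lean`
(helper212).
-/

set_option autoImplicit false

namespace Crest.Agent.R055

open Finset Real
open scoped Pointwise
set_option linter.unusedSectionVars false

variable {G E : Type} [Group G] [Fintype G] [Fintype E] [DecidableEq E] [MulAction G E]

theorem Ch.symm_inv {S : Type*} [MulAction G S] (w : S → ℝ) (h : G) (s : S) :
    symm G w (h • s) = symm G w s := by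
  unfold symm
  congr 1
  refine Fintype.sum_equiv (Equiv.mulLeft h⁻¹) _ _ (fun g => ?_)
  simp only [Equiv.coe_mulLeft, mul_inv_rev, inv_inv, mul_smul]

theorem Ch.symm_ne_zero {S : Type*} [MulAction G S] (w : S → ℝ) (s : S)
    (h : symm G w s ≠ 0) : ∃ g : G, w (g⁻¹ • s) ≠ 0 := by
  by_contra hcon
  push Not at hcon
  apply h
  unfold symm
  rw [Finset.sum_eq_zero (fun g _ => hcon g), zero_div]

theorem Ch.symm_isProb {S : Type*} [Fintype S] [MulAction G S] {w : S → ℝ} (hw : IsProb w) :
    IsProb (symm G w) := by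
  constructor
  · intro s
    unfold symm
    exact div_nonneg (Finset.sum_nonneg (fun g _ => hw.nonneg _)) (by positivity)
  · unfold symm
    rw [← Finset.sum_div, Finset.sum_comm]
    have : ∀ g : G, ∑ s : S, w (g⁻¹ • s) = 1 := by
      intro g
      rw [← hw.sum_eq]
      exact Fintype.sum_equiv (MulAction.toPerm (g⁻¹ : G)) _ _ (fun s => rfl)
    simp only [this, Finset.sum_const, Finset.card_univ, nsmul_eq_mul, mul_one]
    have hG : (0 : ℝ) < Fintype.card G := by exact_mod_cast Fintype.card_pos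
    field_simp

/-- **Sparse bound**, random variable form. -/
theorem ent_sparse {Ω : Type*} [Fintype Ω] [MulAction G Ω] (H : Finset E) (p : ℝ) (hp : 0 < p)
    (hN : ∀ A, A ⊆ H →
      (1 : ℝ) / 2 ≤ ((Finset.univ.image (fun g : G => A.image (fun x => g • x))).card : ℝ)
        * p ^ A.card)
    (P : Ω → ℝ) (hP : IsProb P) (hinv : ∀ (g : G) (ω : Ω), P (g • ω) = P ω)
    (X : Ω → Finset E) (hX : ∀ (g : G) (ω : Ω), X (g • ω) = g • X ω)
    (hs : ∀ ω, P ω ≠ 0 → ∃ g : G, g • X ω ⊆ H) :
    Real.log (1 / p) * ecard P X - Real.log 2 ≤ ent P X := by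
  classical
  set v : Finset E → ℝ := fun S => ∑ ω, if X ω = S then P ω else 0 with hv
  have hv0 : ∀ S, 0 ≤ v S := fun S =>
    Finset.sum_nonneg (fun ω _ => by split_ifs <;> [exact hP.nonneg ω; exact le_rfl])
  have hv1 : ∑ S, v S = 1 := by
    simp only [hv]
    rw [Finset.sum_comm, ← hP.sum_eq]
    apply Finset.sum_congr rfl
    intro ω _
    simp
  have hvinv : ∀ (g : G) (S : Finset E), v (g • S) = v S := by
    intro g S
    simp only [hv]
    refine Fintype.sum_equiv (MulAction.toPerm (g⁻¹ : G)) _ _ (fun ω => ?_)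
    simp only [MulAction.toPerm_apply]
    rw [hinv, hX]
    by_cases h : X ω = g • S
    · rw [if_pos h, if_pos (by rw [h, inv_smul_smul])]
    · rw [if_neg h, if_neg]
      intro h'
      exact h (by rw [← h', smul_inv_smul])
  have hcls : ∀ ω, cls P X ω = v (X ω) := by
    intro ω
    simp only [cls, hv]
    apply Finset.sum_congr rfl
    intro ω' _
    split_ifs <;> rfl
  have key : ∀ ω, Real.log (1 / p) * (P ω * ((X ω).card : ℝ)) - P ω * Real.log 2
      ≤ P ω * (- Real.log (cls P X ω)) := by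
    intro ω
    by_cases h : P ω = 0
    · simp [h]
    · have hpos : 0 < P ω := lt_of_le_of_ne (hP.nonneg ω) (Ne.symm h)
      obtain ⟨g, hg⟩ := hs ω h
      have h2 := hN (g • X ω) hg
      change (1 : ℝ) / 2 ≤ ((Sparse.orb G (g • X ω)).card : ℝ) * p ^ (g • X ω).card at h2
      rw [Sparse.orb_smul, Finset.card_smul_finset] at h2
      have h3 := Sparse.orb_mul_le (G := G) v hv0 hv1 hvinv (X ω)
      have hNpos : (0 : ℝ) < ((Sparse.orb G (X ω)).card : ℝ) := by
        exact_mod_cast Sparse.orb_pos (G := G) (X ω)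
      have hple : 0 < p ^ (X ω).card := pow_pos hp _
      have hclspos : 0 < v (X ω) := by
        rw [← hcls]; exact cls_pos hP.nonneg X hpos
      have h4 : v (X ω) ≤ 2 * p ^ (X ω).card := by
        have : v (X ω) ≤ 1 / ((Sparse.orb G (X ω)).card : ℝ) := by
          rw [le_div_iff₀ hNpos]; linarith
        refine this.trans ?_
        rw [div_le_iff₀ hNpos]
        linarith
      have h5 : Real.log (v (X ω)) ≤ Real.log 2 + (X ω).card * Real.log p := by
        calc Real.log (v (X ω)) ≤ Real.log (2 * p ^ (X ω).card) := Real.log_le_log hclspos h4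
          _ = Real.log 2 + (X ω).card * Real.log p := by
            rw [Real.log_mul (by norm_num) hple.ne', Real.log_pow]
      rw [hcls, one_div, Real.log_inv]
      nlinarith [mul_le_mul_of_nonneg_left h5 hpos.le]
  calc Real.log (1 / p) * ecard P X - Real.log 2
      = ∑ ω, (Real.log (1 / p) * (P ω * ((X ω).card : ℝ)) - P ω * Real.log 2) := by
        rw [Finset.sum_sub_distrib, ← Finset.mul_sum, ← Finset.sum_mul, hP.sum_eq, one_mul, ecard]
    _ ≤ ent P X := Finset.sum_le_sum (fun ω _ => key ω)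

/-- **Sparse bound** for the overlap of two independent blocks. -/
theorem Blk.ent_inter_ge {H : Finset E} (B B' : Blk G H) (p : ℝ) (hp : 0 < p)
    (hN : ∀ A, A ⊆ H →
      (1 : ℝ) / 2 ≤ ((Finset.univ.image (fun g : G => A.image (fun x => g • x))).card : ℝ)
        * p ^ A.card) :
    Real.log (1 / p) * ecard (B.prod B').law (fun x => B.U x.1 ∩ B'.U x.2) - Real.log 2
      ≤ ent (B.prod B').law (fun x => B.U x.1 ∩ B'.U x.2) := by
  apply ent_sparse H p hp hN (B.prod B').law (Ch.symm_isProb (B.prod B').prob)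
    (fun g ω => Ch.symm_inv _ g ω)
  · intro g ω
    change B.U (g • ω.1) ∩ B'.U (g • ω.2) = g • (B.U ω.1 ∩ B'.U ω.2)
    rw [B.equi, B'.equi, Finset.smul_finset_inter]
  · intro ω hω
    obtain ⟨g, hg⟩ := Ch.symm_ne_zero _ ω hω
    refine ⟨g⁻¹, ?_⟩
    have h1 := (B.prod B').supp _ hg
    have h2 : B.U (g⁻¹ • ω.1) ∪ B'.U (g⁻¹ • ω.2) ⊆ H := h1
    rw [B.equi] at h2
    refine (Finset.smul_finset_subset_smul_finset (Finset.inter_subset_left)).trans
      (Finset.subset_union_left.trans h2)

/-- **Final deduction** in terms of `Extremal`. -/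
theorem counting_of_extremal (H : Finset E) (p c lam Ψ : ℝ) (hp : 0 < p) (hlam : 0 ≤ lam)
    (hext : Extremal G H (Real.log (1 / p) - c) lam Ψ) (hΨ : Ψ ≤ Real.log 2) (A : Finset E) :
    ((Finset.univ.filter (fun g : G => A.image (fun x => g • x) ⊆ H)).card : ℝ)
      ≤ 2 * (Real.exp c * p) ^ A.card * (Fintype.card G : ℝ) := by
  apply Sparse.counting_of_min H p c lam hp hlam _ A
  intro w hw0 hw1 hws
  have h := hext w ⟨⟨hw0, hw1⟩, hws⟩
  have h2 : energy w
      = ∑ e : E, (∑ S ∈ Finset.univ.filter (fun S : Finset E => e ∈ S), w S) ^ 2 := by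
    unfold energy
    apply Finset.sum_congr rfl
    intro e _
    rw [Finset.sum_filter]
  rw [h2] at h
  have h3 : Dv G w = ∑ S, Real.negMulLog (Sparse.avg G w S) - ∑ S, Real.negMulLog (w S) := rfl
  have h4 : ecard w (fun A => A) = ∑ S, w S * (S.card : ℝ) := rfl
  rw [h3, h4] at h
  linarith

end Crest.Agent.R055
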