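import Crest.Agent.R055.Reduce

/-! S0076 from the counting lemma with `C = 256 e^50` (or any smaller nonnegative constant). -/

set_option autoImplicit false

namespace Crest.Agent.R055

open Crest.CombinatoricsR.RandomGraph

theorem CountingLemma.mono {C C' : ℝ} (h0 : 0 ≤ C) (h : C ≤ C') (hc : CountingLemma C) :
    CountingLemma C' := by
  intro G E _ _ _ _ _ H p hp hp1 hN A hA
  refine (hc G E H p hp hp1 hN A hA).trans ?_
  have h1 : (C * p) ^ A.card ≤ (C' * p) ^ A.card :=
    pow_le_pow_left₀ (mul_nonneg h0 hp.le) (mul_le_mul_of_nonneg_right h hp.le) _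
  have h2 : (0 : ℝ) ≤ Fintype.card G := Nat.cast_nonneg _
  nlinarith [mul_le_mul_of_nonneg_right h1 h2]

theorem final (hc : CountingLemma (256 * Real.exp 50))
    (n : ℕ) (_hn : 2 ≤ n) (W : Type) [Fintype W] [DecidableEq W] (H : SimpleGraph W)
    [DecidableRel H.Adj] (hW : Fintype.card W ≤ n) (hH : 1 ≤ H.edgeFinset.card)
    (p : ℝ) (hp0 : 0 ≤ p) (hp1 : p ≤ 1)
    (hE : ∀ F : H.Subgraph, (1 : ℝ) / 2 ≤
      Crest.CombinatoricsR.RandomGraph.gnpExpect n p (fun G => (G.copyCount F.coe : ℝ))) :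
    (1 : ℝ) / 2 ≤ Crest.CombinatoricsR.RandomGraph.gnpProb n
      (min 1 (2048 * Real.exp 50 * p * (1 + Real.logb 2 (H.edgeFinset.card : ℝ))))
      {G | H.IsContained G} := by
  have h := reduce (C := 256 * Real.exp 50) (by positivity) hc n W H hW hH p hp0 hp1 hE
  have e : 8 * (256 * Real.exp 50 * p) = 2048 * Real.exp 50 * p := by ring
  rwa [e] at h

end Crest.Agent.R055
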