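import Mathlib
import Crest.Agent.R055.Assembly
import Crest.Agent.R055.CountBlk
import Crest.Agent.R055.Final

/-!
# R055.Assembly2: the counting lemma from the module statements
-/

set_option autoImplicit false
open Finset Real
open scoped Pointwise

namespace Crest.Agent.R055

theorem countingLemma_of
    (hgain : ∀ (G E : Type) [Group G] [Fintype G] [Fintype E] [DecidableEq E] [MulAction G E]
      (H : Finset E) (l Ψ : ℝ), Extremal G H l 3 Ψ → GainStmt G H l 3 8 Ψ)
    (hchain : ∀ (G E : Type) [Group G] [Fintype G] [Fintype E] [DecidableEq E] [MulAction G E]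
      (H : Finset E) (l Ψ : ℝ), GainStmt G H l 3 8 Ψ → ChainStmt G H l 3 8 Ψ)
    (hsparse : ∀ (G E : Type) [Group G] [Fintype G] [Fintype E] [DecidableEq E] [MulAction G E]
      (H : Finset E) (p l Ψ : ℝ), 0 < p → (∀ A : Finset E, A ⊆ H →
      (1 : ℝ) / 2 ≤ ((Finset.univ.image (fun g : G => A.image (fun x => g • x))).card : ℝ)
        * p ^ A.card) → SparseGainStmt G H l p Ψ)
    (hbounds : ∀ (G E : Type) [Group G] [Fintype G] [Fintype E] [DecidableEq E] [MulAction G E]
      (H : Finset E) (l Ψ : ℝ), 0 ≤ l → Extremal G H l 3 Ψ → BoundsStmt G H l 3 Ψ)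
    (hbase : ∀ (G E : Type) [Group G] [Fintype G] [Fintype E] [DecidableEq E] [MulAction G E]
      (H : Finset E) (l Ψ : ℝ) (w : Finset E → ℝ), IsLaw H w →
      3 * energy w = Dv G w - l * ecard w (fun A => A) + Ψ →
      ∃ B₀ : Blk G H, B₀.F l Ψ = 3 * B₀.k) :
    CountingLemma (Real.exp 50) := by
  intro G E _ _ _ _ _ H p hp hp1 hN A hA
  by_cases hl : 0 ≤ Real.log (1 / p) - 50
  · obtain ⟨Ψ, w, hw, heq, hext⟩ := exists_extremal G H (Real.log (1 / p) - 50) 3
    obtain ⟨B₀, hB₀⟩ := hbase G E H _ Ψ w hw heq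
    have hΨ : Ψ ≤ Real.log 2 := psi_le_log_two (p := p) (by linarith)
      (hchain G E H _ Ψ (hgain G E H _ Ψ hext)) (hsparse G E H p _ Ψ hp hN)
      (hbounds G E H _ Ψ hl hext) B₀ hB₀
    exact counting_of_extremal H p 50 3 Ψ hp (by norm_num) hext hΨ A
  · push Not at hl
    have h1 : 1 ≤ Real.exp 50 * p := by
      have h2 : Real.log (1 / p) = - Real.log p := by rw [one_div, Real.log_inv]
      have h3 : p = Real.exp (Real.log p) := (Real.exp_log hp).symm
      rw [h3, ← Real.exp_add]
      exact Real.one_le_exp (by linarith)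
    have h4 : (1 : ℝ) ≤ (Real.exp 50 * p) ^ A.card := one_le_pow₀ h1
    have h5 : ((Finset.univ.filter (fun g : G => A.image (fun x => g • x) ⊆ H)).card : ℝ)
        ≤ Fintype.card G := by
      exact_mod_cast Finset.card_le_univ _
    have h6 : (0 : ℝ) ≤ Fintype.card G := Nat.cast_nonneg _
    nlinarith

end Crest.Agent.R055
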