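import Mathlib
import Crest.Agent.R055.Ent
import Crest.Agent.R055.Defs

/-! Row 55: pushforward of weights, `ent` versus `hl`, symmetrisation, data processing. -/

set_option autoImplicit false
set_option linter.unusedSectionVars false
open Finset Real
open scoped Pointwise

namespace Crest.Agent.R055

open Classical in
/-- push-forward of a weight -/
noncomputable def push {S S' : Type*} [Fintype S] (φ : S → S') (w : S → ℝ) : S' → ℝ :=
  fun s' => ∑ s, if φ s = s' then w s else 0

section basic
variable {S S' S'' : Type*} [Fintype S] [Fintype S'] [Fintype S'']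

lemma push_nonneg {φ : S → S'} {w : S → ℝ} (hw : ∀ s, 0 ≤ w s) (s' : S') : 0 ≤ push φ w s' := by
  classical
  unfold push
  apply Finset.sum_nonneg
  intro i _
  split_ifs
  · exact hw i
  · exact le_rfl

lemma sum_push_mul (φ : S → S') (w : S → ℝ) (f : S' → ℝ) :
    ∑ s', push φ w s' * f s' = ∑ s, w s * f (φ s) := by
  classical
  unfold push
  simp_rw [Finset.sum_mul]
  rw [Finset.sum_comm]
  apply Finset.sum_congr rfl
  intro s _
  rw [Finset.sum_eq_single (φ s)]
  · simp
  · intro b _ hb
    simp [Ne.symm hb]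
  · simp

lemma sum_push (φ : S → S') (w : S → ℝ) : ∑ s', push φ w s' = ∑ s, w s := by
  have := sum_push_mul φ w (fun _ => 1)
  simpa using this

lemma isProb_push {φ : S → S'} {w : S → ℝ} (h : IsProb w) : IsProb (push φ w) :=
  ⟨push_nonneg h.nonneg, by rw [sum_push, h.sum_eq]⟩

omit [Fintype S'] in
lemma cls_eq_push (w : S → ℝ) (X : S → S') (s : S) : cls w X s = push X w (X s) := by
  classical
  unfold cls push
  apply Finset.sum_congr rfl
  intro i _
  congr

lemma ent_eq_hl (w : S → ℝ) (X : S → S') : ent w X = hl (push X w) := by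
  unfold ent hl
  have : ∀ s', Real.negMulLog (push X w s') = push X w s' * (- Real.log (push X w s')) := by
    intro s'; unfold Real.negMulLog; ring
  simp_rw [this]
  rw [sum_push_mul X w (fun s' => - Real.log (push X w s'))]
  simp_rw [cls_eq_push]

lemma push_id (w : S → ℝ) : push (fun s => s) w = w := by
  classical
  funext s
  unfold push
  rw [Finset.sum_eq_single s]
  · simp
  · intro b _ hb; simp [hb]
  · simp

lemma ent_id (w : S → ℝ) : ent w (fun s => s) = hl w := by
  rw [ent_eq_hl, push_id]

lemma push_push (φ : S → S') (φ' : S' → S'') (w : S → ℝ) :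
    push φ' (push φ w) = push (fun s => φ' (φ s)) w := by
  classical
  funext s''
  have h1 : push φ' (push φ w) s'' = ∑ s', push φ w s' * (if φ' s' = s'' then 1 else 0) := by
    conv_lhs => unfold push
    apply Finset.sum_congr rfl
    intro i _
    split_ifs <;> simp [push]
  rw [h1, sum_push_mul]
  unfold push
  apply Finset.sum_congr rfl
  intro i _
  split_ifs <;> simp

/-- entropies are transported by push-forwards -/
lemma ent_push (φ : S → S') (w : S → ℝ) {R : Type*} [Fintype R] (X : S' → R) :
    ent (push φ w) X = ent w (fun s => X (φ s)) := by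
  rw [ent_eq_hl, ent_eq_hl, push_push]

lemma ecard_push {E : Type} (φ : S → S') (w : S → ℝ) (U : S' → Finset E) :
    ecard (push φ w) U = ecard w (fun s => U (φ s)) := by
  unfold ecard
  exact sum_push_mul φ w (fun s' => ((U s').card : ℝ))

end basic

section symm
variable (G : Type*) [Group G] [Fintype G] {S S' : Type*} [Fintype S] [Fintype S']
  [MulAction G S] [MulAction G S']

omit [Fintype S] in
lemma symm_nonneg {w : S → ℝ} (hw : ∀ s, 0 ≤ w s) (s : S) : 0 ≤ symm G w s := by
  unfold symm
  apply div_nonneg _ (Nat.cast_nonneg _)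
  exact Finset.sum_nonneg (fun g _ => hw _)

omit [Fintype S] in
lemma symm_apply_smul (w : S → ℝ) (g : G) (s : S) : symm G w (g • s) = symm G w s := by
  unfold symm
  congr 1
  rw [← Equiv.sum_comp (Equiv.mulLeft g) (fun h => w (h⁻¹ • g • s))]
  apply Finset.sum_congr rfl
  intro h _
  simp [mul_smul]

lemma sum_symm_mul (w : S → ℝ) (f : S → ℝ) (hf : ∀ (g : G) s, f (g • s) = f s) :
    ∑ s, symm G w s * f s = ∑ s, w s * f s := by
  unfold symm
  simp_rw [div_mul_eq_mul_div, ← Finset.sum_div, Finset.sum_mul]
  rw [Finset.sum_comm]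
  have h : ∀ g : G, ∑ s, w (g⁻¹ • s) * f s = ∑ s, w s * f s := by
    intro g
    rw [← Equiv.sum_comp (MulAction.toPerm g) (fun s => w (g⁻¹ • s) * f s)]
    apply Finset.sum_congr rfl
    intro s _
    simp [hf]
  simp_rw [h]
  simp only [Finset.sum_const, Finset.card_univ, nsmul_eq_mul]
  rw [mul_div_cancel_left₀]
  exact Nat.cast_ne_zero.mpr Fintype.card_ne_zero

lemma sum_symm_eq (w : S → ℝ) : ∑ s, symm G w s = ∑ s, w s := by
  have := sum_symm_mul G w (fun _ => 1) (by simp)
  simpa using this

lemma isProb_symm {w : S → ℝ} (h : IsProb w) : IsProb (symm G w) :=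
  ⟨symm_nonneg G h.nonneg, by rw [sum_symm_eq, h.sum_eq]⟩

/-- equivariant maps: push of symm = symm of push -/
lemma push_symm {φ : S → S'} (hφ : ∀ (g : G) s, φ (g • s) = g • φ s) (w : S → ℝ) :
    push φ (symm G w) = symm G (push φ w) := by
  classical
  funext s'
  unfold symm push
  have h1 : ∀ s, (if φ s = s' then (∑ g : G, w (g⁻¹ • s)) / (Fintype.card G : ℝ) else 0)
      = (∑ g : G, if φ s = s' then w (g⁻¹ • s) else 0) / (Fintype.card G : ℝ) := by
    intro s
    split_ifs <;> simp
  simp_rw [h1]
  rw [← Finset.sum_div]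
  congr 1
  rw [Finset.sum_comm]
  apply Finset.sum_congr rfl
  intro g _
  rw [← Equiv.sum_comp (MulAction.toPerm g) (fun s => if φ s = s' then w (g⁻¹ • s) else 0)]
  apply Finset.sum_congr rfl
  intro s _
  simp only [MulAction.toPerm_apply, inv_smul_smul, hφ]
  congr 1
  rw [smul_eq_iff_eq_inv_smul]

omit [Fintype S] in
lemma symm_const_mul (c : ℝ) (w : S → ℝ) : symm G (fun s => c * w s) = fun s => c * symm G w s := by
  funext s
  unfold symm
  rw [← Finset.mul_sum, mul_div_assoc]

lemma hl_const_mul (c : ℝ) (w : S → ℝ) : hl (fun s => c * w s) =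
    c * hl w + Real.negMulLog c * ∑ s, w s := by
  unfold hl
  simp_rw [Real.negMulLog_mul]
  rw [Finset.sum_add_distrib, Finset.mul_sum, Finset.mul_sum]
  rw [add_comm]
  congr 1
  apply Finset.sum_congr rfl
  intro i _
  ring

lemma Dv_const_mul (c : ℝ) (w : S → ℝ) : Dv G (fun s => c * w s) = c * Dv G w := by
  unfold Dv
  rw [symm_const_mul, hl_const_mul c (symm G w), hl_const_mul c w, sum_symm_eq]
  ring

end symm

end Crest.Agent.R055
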