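import Mathlib
import Crest.Agent.R055.Ent
import Crest.Agent.R055.Defs
import Crest.Agent.R055.Law

/-! Row 55: sub-additivity and data processing for `Dv`. -/

set_option autoImplicit false
set_option linter.unusedSectionVars false
open Finset Real
open scoped Pointwise

namespace Crest.Agent.R055

section
variable {Ω : Type*} [Fintype Ω] {P : Ω → ℝ} {S₁ S₂ S₃ : Type*}

/-- entropy of a pair is at most the sum -/
lemma ent_pair_le (hP : IsProb P) (X : Ω → S₁) (Y : Ω → S₂) :
    ent P (fun ω => (X ω, Y ω)) ≤ ent P X + ent P Y := by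
  have h := ent_submod hP X Y (fun _ => ())
  have h1 : ent P (fun _ : Ω => ()) = 0 := by
    unfold ent cls
    simp [hP.sum_eq]
  have h2 : ent P (fun ω => (X ω, Y ω, ())) = ent P (fun ω => (X ω, Y ω)) :=
    ent_congr (by intro ω ω'; simp)
  have h3 : ent P (fun ω => (X ω, ())) = ent P X := ent_congr (by intro ω ω'; simp)
  have h4 : ent P (fun ω => (Y ω, ())) = ent P Y := ent_congr (by intro ω ω'; simp)
  linarith [h, h1, h2, h3, h4]

end

section prod
variable {A B : Type*} [Fintype A] [Fintype B]

lemma push_fst (w : A × B → ℝ) (a : A) : push Prod.fst w a = ∑ b, w (a, b) := by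
  classical
  unfold push
  rw [Fintype.sum_prod_type, Finset.sum_eq_single a]
  · simp
  · intro b _ hb; simp [hb]
  · simp

lemma push_snd (w : A × B → ℝ) (b : B) : push Prod.snd w b = ∑ a, w (a, b) := by
  classical
  unfold push
  rw [Fintype.sum_prod_type_right, Finset.sum_eq_single b]
  · simp
  · intro c _ hc; simp [hc]
  · simp

/-- subadditivity on product spaces -/
lemma hl_prod_le {w : A × B → ℝ} (hw : IsProb w) :
    hl w ≤ hl (fun a => ∑ b, w (a, b)) + hl (fun b => ∑ a, w (a, b)) := by
  have h := ent_pair_le hw (fun x : A × B => x.1) (fun x => x.2)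
  have h1 : ent w (fun x : A × B => (x.1, x.2)) = hl w := by
    rw [← ent_id w]
  have h2 : ent w (fun x : A × B => x.1) = hl (fun a => ∑ b, w (a, b)) := by
    rw [ent_eq_hl]
    congr 1
    funext a
    exact push_fst w a
  have h3 : ent w (fun x : A × B => x.2) = hl (fun b => ∑ a, w (a, b)) := by
    rw [ent_eq_hl]
    congr 1
    funext a
    exact push_snd w a
  rw [h1, h2, h3] at h
  exact h

/-- entropy of a product weight -/
lemma hl_mul {w : A → ℝ} {v : B → ℝ} (hw : ∑ a, w a = 1) (hv : ∑ b, v b = 1) :
    hl (fun x : A × B => w x.1 * v x.2) = hl w + hl v := by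
  unfold hl
  rw [Fintype.sum_prod_type]
  simp_rw [Real.negMulLog_mul, Finset.sum_add_distrib, ← Finset.mul_sum, ← Finset.sum_mul]
  rw [hv, hw]
  simp

end prod

section dp
variable (G : Type*) [Group G] [Fintype G] {S S' : Type*} [Fintype S] [Fintype S']
  [MulAction G S] [MulAction G S']

/-- uniform weight on the group -/
noncomputable def unifG : G → ℝ := fun _ => 1 / (Fintype.card G : ℝ)

lemma sum_unifG : ∑ g : G, unifG G g = 1 := by
  unfold unifG
  simp

lemma unifG_nonneg (g : G) : 0 ≤ unifG G g := by
  unfold unifG; positivity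

lemma symm_eq_push (w : S → ℝ) :
    symm G w = push (fun x : G × S => x.1 • x.2) (fun x : G × S => unifG G x.1 * w x.2) := by
  classical
  funext s
  unfold symm push unifG
  rw [Fintype.sum_prod_type, Finset.sum_div]
  apply Finset.sum_congr rfl
  intro g _
  rw [Finset.sum_eq_single (g⁻¹ • s)]
  · simp only [smul_inv_smul, if_true]; ring
  · intro b _ hb
    rw [if_neg]
    intro h
    exact hb (by rw [← h, inv_smul_smul])
  · simp

/-- data processing, probability version -/
lemma Dv_push_le_of_prob {φ : S → S'} (hφ : ∀ (g : G) s, φ (g • s) = g • φ s) {w : S → ℝ}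
    (hw : IsProb w) : Dv G (push φ w) ≤ Dv G w := by
  classical
  set P : G × S → ℝ := fun x => unifG G x.1 * w x.2 with hPdef
  have hP : IsProb P := by
    constructor
    · intro x; exact mul_nonneg (unifG_nonneg G _) (hw.nonneg _)
    · rw [Fintype.sum_prod_type]
      simp only [hPdef]
      simp_rw [← Finset.mul_sum, hw.sum_eq, mul_one]
      exact sum_unifG G
  -- submodularity with X = g • s, Y = g, Z = φ (g • s)
  have h := ent_submod hP (fun x : G × S => x.1 • x.2) (fun x => x.1) (fun x => φ (x.1 • x.2))
  -- (g•s, g, φ(g•s)) ~ (g, s)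
  have e1 : ent P (fun x : G × S => (x.1 • x.2, x.1, φ (x.1 • x.2))) = hl (unifG G) + hl w := by
    rw [← hl_mul (sum_unifG G) hw.sum_eq, ← ent_id P]
    apply ent_congr
    rintro ⟨g, s⟩ ⟨g', s'⟩
    constructor
    · intro h
      simp only [Prod.mk.injEq] at h
      obtain ⟨h1, h2, -⟩ := h
      subst h2
      simp only [Prod.mk.injEq, true_and]
      exact smul_left_cancel _ h1
    · intro h
      simp only [Prod.mk.injEq] at h
      obtain ⟨h1, h2⟩ := h
      subst h1; subst h2; rfl
  have e2 : ent P (fun x : G × S => φ (x.1 • x.2)) = hl (symm G (push φ w)) := by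
    rw [← push_symm G hφ, symm_eq_push, ent_eq_hl, push_push]
  have e3 : ent P (fun x : G × S => (x.1 • x.2, φ (x.1 • x.2))) = hl (symm G w) := by
    rw [symm_eq_push, ← ent_eq_hl]
    apply ent_congr
    intro x y
    constructor
    · intro h; exact (Prod.mk.inj h).1
    · intro h; simp only [Prod.mk.injEq]; exact ⟨h, by rw [h]⟩
  have e4 : ent P (fun x : G × S => (x.1, φ (x.1 • x.2))) = hl (unifG G) + hl (push φ w) := by
    have : ent P (fun x : G × S => (x.1, φ (x.1 • x.2))) = ent P (fun x : G × S => (x.1, φ x.2)) := by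
      apply ent_congr
      rintro ⟨g, s⟩ ⟨g', s'⟩
      simp only [Prod.mk.injEq]
      constructor
      · rintro ⟨h1, h2⟩
        subst h1
        refine ⟨rfl, ?_⟩
        rw [hφ, hφ] at h2
        exact smul_left_cancel _ h2
      · rintro ⟨h1, h2⟩
        subst h1
        refine ⟨rfl, ?_⟩
        rw [hφ, hφ, h2]
    rw [this, ent_eq_hl]
    have hp : push (fun x : G × S => (x.1, φ x.2)) P
        = fun y : G × S' => unifG G y.1 * push φ w y.2 := by
      funext y
      obtain ⟨g, s'⟩ := y
      simp only [push, hPdef]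
      rw [Fintype.sum_prod_type, Finset.sum_eq_single g]
      · rw [Finset.mul_sum]
        apply Finset.sum_congr rfl
        intro s _
        simp only [Prod.mk.injEq, true_and]
        split_ifs <;> simp
      · intro b _ hb
        simp [hb]
      · simp
    rw [hp, hl_mul (sum_unifG G) (by rw [sum_push, hw.sum_eq])]
  unfold Dv
  rw [e1, e2, e3, e4] at h
  linarith

/-- data processing for unnormalised weights -/
lemma Dv_push_le {φ : S → S'} (hφ : ∀ (g : G) s, φ (g • s) = g • φ s) {w : S → ℝ}
    (hw : ∀ s, 0 ≤ w s) : Dv G (push φ w) ≤ Dv G w := by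
  classical
  rcases (Finset.sum_nonneg (fun s _ => hw s)).lt_or_eq with hW | hW
  · set W := ∑ s, w s with hWdef
    have h1 : w = fun s => W * (W⁻¹ * w s) := by
      funext s
      rw [← mul_assoc, mul_inv_cancel₀ hW.ne', one_mul]
    have hp : IsProb (fun s => W⁻¹ * w s) := by
      constructor
      · intro s; exact mul_nonneg (inv_nonneg.mpr hW.le) (hw s)
      · rw [← Finset.mul_sum, ← hWdef, inv_mul_cancel₀ hW.ne']
    have h2 := Dv_push_le_of_prob G hφ hp
    have h3 : push φ w = fun s' => W * push φ (fun s => W⁻¹ * w s) s' := by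
      funext s'
      conv_lhs => rw [h1]
      unfold push
      rw [Finset.mul_sum]
      apply Finset.sum_congr rfl
      intro s _
      split_ifs <;> simp
    rw [h3, Dv_const_mul]
    conv_rhs => rw [h1]
    rw [Dv_const_mul]
    exact mul_le_mul_of_nonneg_left h2 hW.le
  · have h0 : w = fun _ => 0 := by
      funext s
      exact (Finset.sum_eq_zero_iff_of_nonneg (fun s _ => hw s)).mp hW.symm s (Finset.mem_univ s)
    have h3 : push φ w = fun _ => 0 := by
      funext s'
      unfold push
      simp [h0]
    rw [h3, h0]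
    simp [Dv, symm, hl]

end dp

end Crest.Agent.R055
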