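import Mathlib
import Crest.Agent.R055.Stmts
import Crest.Agent.R055.DataProc
import Crest.Agent.R055.Count

/-!
# R055.Bounds: the elementary bounds `BoundsStmt` and the base block (helper919)
-/

set_option autoImplicit false
set_option linter.unusedSectionVars false
open Finset Real
open scoped Pointwise

namespace Crest.Agent.R055

namespace Bd

lemma ecard_nonneg {S : Type*} [Fintype S] {E : Type} {w : S → ℝ} (hw : ∀ s, 0 ≤ w s)
    (U : S → Finset E) : 0 ≤ ecard w U :=
  Finset.sum_nonneg fun s _ => mul_nonneg (hw s) (Nat.cast_nonneg _)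

/-- entropy is at most the logarithm of the number of values -/
lemma hl_le_log_card {S : Type*} [Fintype S] {w : S → ℝ} (hw : IsProb w) :
    hl w ≤ Real.log (Fintype.card S) := by
  have h := Sparse.entropy_le_log_card w hw.nonneg hw.sum_eq Finset.univ
    (fun a _ => Finset.mem_univ a)
  simpa [hl, Finset.card_univ] using h

lemma ent_le_log_card {Ω S : Type*} [Fintype Ω] [Fintype S] {P : Ω → ℝ} (hP : IsProb P)
    (X : Ω → S) : ent P X ≤ Real.log (Fintype.card S) := by
  rw [ent_eq_hl]
  exact hl_le_log_card (isProb_push hP)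

lemma hl_unifG (G : Type*) [Group G] [Fintype G] :
    hl (unifG G) = Real.log (Fintype.card G) := by
  have hG : (Fintype.card G : ℝ) ≠ 0 := by exact_mod_cast Fintype.card_ne_zero
  unfold hl unifG
  simp only [Finset.sum_const, Finset.card_univ, nsmul_eq_mul, Real.negMulLog, one_div,
    Real.log_inv]
  field_simp

/-- `I(g ; gZ) ≤ log |G|` -/
lemma Dv_le_log_card (G : Type*) [Group G] [Fintype G] {S : Type*} [Fintype S] [MulAction G S]
    {w : S → ℝ} (hw : IsProb w) : Dv G w ≤ Real.log (Fintype.card G) := by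
  have hP : IsProb (fun x : G × S => unifG G x.1 * w x.2) := by
    constructor
    · intro x; exact mul_nonneg (unifG_nonneg G _) (hw.nonneg _)
    · rw [Fintype.sum_prod_type]
      simp only
      simp_rw [← Finset.mul_sum, hw.sum_eq, mul_one]
      exact sum_unifG G
  have h1 : hl (symm G w) ≤ hl (unifG G) + hl w := by
    rw [symm_eq_push, ← ent_eq_hl, ← hl_mul (sum_unifG G) hw.sum_eq,
      ← ent_id (fun x : G × S => unifG G x.1 * w x.2)]
    apply ent_mono hP.nonneg
    intro x y h
    rw [h]
  rw [hl_unifG] at h1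
  unfold Dv
  linarith

/-- energy of a push-forward -/
lemma energy_push {E : Type} [Fintype E] [DecidableEq E] {T : Type} [Fintype T]
    (U : T → Finset E) (μ : T → ℝ) :
    energy (push U μ) = ∑ x : T × T, μ x.1 * μ x.2 * ((U x.1 ∩ U x.2).card : ℝ) := by
  classical
  have h1 : ∀ e : E, (∑ A, if e ∈ A then push U μ A else 0)
      = ∑ t, μ t * (if e ∈ U t then 1 else 0) := by
    intro e
    rw [← sum_push_mul U μ (fun A => if e ∈ A then (1 : ℝ) else 0)]
    apply Finset.sum_congr rfl
    intro A _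
    split_ifs <;> simp
  unfold energy
  simp_rw [h1]
  rw [Fintype.sum_prod_type]
  have h2 : ∀ t t' : T, ((U t ∩ U t').card : ℝ)
      = ∑ e : E, (if e ∈ U t then (1 : ℝ) else 0) * (if e ∈ U t' then 1 else 0) := by
    intro t t'
    rw [Finset.card_eq_sum_ones, Nat.cast_sum]
    rw [← Finset.sum_filter_add_sum_filter_not Finset.univ (fun e => e ∈ U t ∩ U t')]
    have h3 : Finset.univ.filter (fun e => e ∈ U t ∩ U t') = U t ∩ U t' := by
      ext e; simp
    rw [h3]
    have h4 : ∑ e ∈ U t ∩ U t', (if e ∈ U t then (1 : ℝ) else 0) * (if e ∈ U t' then 1 else 0)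
        = ∑ e ∈ U t ∩ U t', ((1 : ℕ) : ℝ) := by
      apply Finset.sum_congr rfl
      intro e he
      rw [Finset.mem_inter] at he
      simp [he.1, he.2]
    have h5 : ∑ e ∈ Finset.univ.filter (fun e => ¬ e ∈ U t ∩ U t'),
        (if e ∈ U t then (1 : ℝ) else 0) * (if e ∈ U t' then 1 else 0) = 0 := by
      apply Finset.sum_eq_zero
      intro e he
      rw [Finset.mem_filter, Finset.mem_inter] at he
      by_cases ha : e ∈ U t
      · have hb : e ∉ U t' := fun hb => he.2 ⟨ha, hb⟩
        simp [hb]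
      · simp [ha]
    rw [h4, h5, add_zero]
  simp_rw [h2, sq, Finset.sum_mul_sum, Finset.mul_sum]
  rw [Finset.sum_comm]
  apply Finset.sum_congr rfl
  intro t _
  rw [Finset.sum_comm]
  apply Finset.sum_congr rfl
  intro t' _
  apply Finset.sum_congr rfl
  intro e _
  ring

end Bd

section
variable {G : Type} [Group G] [Fintype G] {E : Type} [Fintype E] [DecidableEq E]
    [MulAction G E] {H : Finset E}

lemma Bd.k_eq (B : Blk G H) : B.k = energy (push B.U B.μ) := by
  rw [Bd.energy_push]
  unfold Blk.k Blk.law ecard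
  rw [sum_symm_mul G (B.prod B).μ (fun x : B.T × B.T => ((B.U x.1 ∩ B.U x.2).card : ℝ))]
  · rfl
  · intro g x
    change ((B.U (g • x.1) ∩ B.U (g • x.2)).card : ℝ) = _
    rw [B.equi, B.equi, ← Finset.smul_finset_inter, Finset.card_smul_finset]

lemma Bd.isLaw_push (B : Blk G H) : IsLaw H (push B.U B.μ) := by
  classical
  refine ⟨isProb_push B.prob, fun A hA => ?_⟩
  by_contra hcon
  apply hA
  unfold push
  apply Finset.sum_eq_zero
  intro t _
  split_ifs with h
  · by_contra hne
    exact hcon (h ▸ B.supp t hne)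
  · rfl

lemma Bd.m_nonneg (B : Blk G H) : 0 ≤ B.m := by
  have h := ent_mono (P := (B.prod B).law) (symm_nonneg G (B.prod B).prob.nonneg)
    (X := fun x : (B.prod B).T => (B.U x.1 ∩ B.U x.2, x.1)) (Y := fun x : (B.prod B).T => x.1)
    (fun x y h => (Prod.mk.inj h).2)
  exact sub_nonneg.mpr h

lemma Bd.m_le (B : Blk G H) : B.m ≤ Fintype.card E * Real.log 2 := by
  have hP : IsProb (B.prod B).law := isProb_symm G (B.prod B).prob
  have h1 : ent (B.prod B).law (fun x : (B.prod B).T => (B.U x.1 ∩ B.U x.2, x.1)) ≤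
      ent (B.prod B).law (fun x : (B.prod B).T => B.U x.1 ∩ B.U x.2)
        + ent (B.prod B).law (fun x : (B.prod B).T => x.1) :=
    ent_pair_le hP _ _
  have h2 : ent (B.prod B).law (fun x : (B.prod B).T => B.U x.1 ∩ B.U x.2)
      ≤ Real.log (Fintype.card (Finset E)) := Bd.ent_le_log_card hP _
  have h3 : Real.log (Fintype.card (Finset E)) = Fintype.card E * Real.log 2 := by
    rw [Fintype.card_finset]
    push_cast
    rw [Real.log_pow]
  rw [h3] at h2
  have h4 : ent (B.prod B).law (fun x : (B.prod B).T => (B.U x.1 ∩ B.U x.2, x.1))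
      - ent (B.prod B).law (fun x : (B.prod B).T => x.1) ≤ Fintype.card E * Real.log 2 := by
    linarith
  exact h4

end

/-- the module `BoundsStmt` -/
theorem bounds (G E : Type) [Group G] [Fintype G] [Fintype E] [DecidableEq E] [MulAction G E]
    (H : Finset E) (l lam Ψ : ℝ) (hl0 : 0 ≤ l) (hext : Extremal G H l lam Ψ) :
    BoundsStmt G H l lam Ψ := by
  intro B
  have hk : lam * B.k ≤ B.F l Ψ := by
    rw [Bd.k_eq]
    have h := hext _ (Bd.isLaw_push B)
    have h2 : Dv G (push B.U B.μ) ≤ Dv G B.μ := Dv_push_le G B.equi B.prob.nonneg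
    rw [ecard_push] at h
    unfold Blk.F
    have h3 : ecard B.μ (fun s => B.U s) = ecard B.μ B.U := rfl
    linarith
  refine ⟨hk, ?_, Bd.m_nonneg B, Bd.m_le B, ?_⟩
  · unfold Blk.k
    exact Bd.ecard_nonneg (symm_nonneg G (B.prod B).prob.nonneg) _
  · unfold Blk.F
    have h1 := Bd.Dv_le_log_card G B.prob
    have h2 : 0 ≤ ecard B.μ B.U := Bd.ecard_nonneg B.prob.nonneg _
    nlinarith

/-- the base block -/
theorem base_block (G E : Type) [Group G] [Fintype G] [Fintype E] [DecidableEq E]
    [MulAction G E] (H : Finset E) (l lam Ψ : ℝ) (w : Finset E → ℝ) (hw : IsLaw H w)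
    (heq : lam * energy w = Dv G w - l * ecard w (fun A => A) + Ψ) :
    ∃ B₀ : Blk G H, B₀.F l Ψ = lam * B₀.k := by
  refine ⟨{ T := Finset E, μ := w, prob := hw.prob, U := fun A => A,
            equi := fun g t => rfl, supp := hw.supp }, ?_⟩
  rw [Bd.k_eq]
  unfold Blk.F
  simp only
  rw [push_id, heq]

end Crest.Agent.R055
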