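import Mathlib
import Crest.Prelude.Def_RandomGraph

/-!
# Row 55 (S0076): translation between graphs and the abstract group action statement

`Perm (Fin n)` acts on `EdgeSlot n`.  The statement S0076 follows from the abstract statement
about a finite group acting on a finite set.
-/

set_option autoImplicit false
set_option linter.unusedSectionVars false

open Finset
open Crest.CombinatoricsR.RandomGraph Crest.FinProb

namespace Crest.Agent.R055.Bridge

/-! ### Bernoulli weights -/

theorem bernoulliWeight_nonneg {ι : Type*} [Fintype ι] {p : ℝ} (hp0 : 0 ≤ p) (hp1 : p ≤ 1)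
    (ω : ι → Bool) : 0 ≤ bernoulliWeight p ω := by
  unfold bernoulliWeight
  refine Finset.prod_nonneg fun i _ => ?_
  split_ifs
  · exact hp0
  · linarith

/-- The probability that all coins of `B` show `true` is `p ^ |B|`. -/
theorem sum_weight_subset {ι : Type*} [Fintype ι] [DecidableEq ι] (p : ℝ) (B : Finset ι) :
    ∑ ω : ι → Bool, bernoulliWeight p ω * (if ∀ e ∈ B, ω e = true then 1 else 0) = p ^ B.card := by
  classical
  have h1 : ∀ ω : ι → Bool, bernoulliWeight p ω * (if ∀ e ∈ B, ω e = true then 1 else 0) =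
      ∏ i, ((if ω i then p else 1 - p) * (if i ∈ B then (if ω i then 1 else 0) else 1)) := by
    intro ω
    rw [Finset.prod_mul_distrib]
    unfold bernoulliWeight
    congr 1
    by_cases h : ∀ e ∈ B, ω e = true
    · rw [if_pos h]
      symm
      apply Finset.prod_eq_one
      intro i _
      by_cases hi : i ∈ B
      · simp [hi, h i hi]
      · simp [hi]
    · rw [if_neg h]
      symm
      push Not at h
      obtain ⟨e, he, hω⟩ := h
      apply Finset.prod_eq_zero (Finset.mem_univ e)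
      simp [he, hω]
  simp_rw [h1]
  have h2 := Finset.prod_univ_sum (fun _ : ι => (Finset.univ : Finset Bool))
    (fun i b => (if b then p else 1 - p) * (if i ∈ B then (if b then (1 : ℝ) else 0) else 1))
  rw [Fintype.piFinset_univ] at h2
  rw [← h2]
  have h3 : ∀ i : ι, ∑ b : Bool, ((if b then p else 1 - p) *
      (if i ∈ B then (if b then (1 : ℝ) else 0) else 1)) = if i ∈ B then p else 1 := by
    intro i
    by_cases hi : i ∈ B <;> simp [hi]
  simp_rw [h3]
  rw [Finset.prod_ite_mem, Finset.univ_inter, Finset.prod_const]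

theorem bernoulliProb_mono {ι : Type*} [Fintype ι] [DecidableEq ι] {p : ℝ} (hp0 : 0 ≤ p)
    (hp1 : p ≤ 1) {S T : Set (ι → Bool)} (h : S ⊆ T) : bernoulliProb p S ≤ bernoulliProb p T := by
  unfold bernoulliProb
  apply Finset.sum_le_sum_of_subset_of_nonneg
  · intro ω hω
    simp only [Finset.mem_filter, Finset.mem_univ, true_and] at hω ⊢
    exact h hω
  · intro ω _ _
    exact bernoulliWeight_nonneg hp0 hp1 ω

/-! ### The action on edge slots -/

/-- Permutations of the vertices act on the edge slots. -/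
instance permAction (n : ℕ) : MulAction (Equiv.Perm (Fin n)) (EdgeSlot n) where
  smul g z := ⟨z.1.map g, fun h => z.2 ((Sym2.isDiag_map g.injective).mp h)⟩
  one_smul z := by
    apply Subtype.ext
    change z.1.map (⇑(1 : Equiv.Perm (Fin n))) = z.1
    rw [Equiv.Perm.coe_one, Sym2.map_id, id]
  mul_smul g h z := by
    apply Subtype.ext
    change z.1.map (⇑(g * h)) = (z.1.map h).map g
    rw [Sym2.map_map, Equiv.Perm.coe_mul]

theorem smul_val {n : ℕ} (g : Equiv.Perm (Fin n)) (z : EdgeSlot n) : (g • z).1 = z.1.map g := rfl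

theorem graphOf_adj {n : ℕ} (ω : EdgeSlot n → Bool) (a b : Fin n) :
    (graphOf ω).Adj a b ↔ ∃ h : ¬ (s(a, b)).IsDiag, ω ⟨s(a, b), h⟩ = true := by
  unfold graphOf
  rw [SimpleGraph.fromEdgeSet_adj]
  constructor
  · rintro ⟨h1, _⟩
    exact h1
  · rintro ⟨h, h1⟩
    exact ⟨⟨h, h1⟩, fun e => h (Sym2.mk_isDiag_iff.mpr e)⟩

section Main

variable {n : ℕ} {W : Type} [Fintype W] [DecidableEq W] (H : SimpleGraph W) [DecidableRel H.Adj]
  (φ : W ↪ Fin n)

open Classical in
/-- The edges of the copy of `H` given by `φ`. -/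
noncomputable def H0 : Finset (EdgeSlot n) :=
  Finset.univ.filter (fun z : EdgeSlot n => ∃ e ∈ H.edgeSet, e.map φ = z.1)

theorem mem_H0 {z : EdgeSlot n} : z ∈ H0 H φ ↔ ∃ e ∈ H.edgeSet, e.map φ = z.1 := by
  simp [H0]

theorem card_H0 : (H0 H φ).card = H.edgeFinset.card := by
  symm
  refine Finset.card_bij (fun e he => ⟨e.map φ, fun h => ?_⟩) ?_ ?_ ?_
  · exact H.not_isDiag_of_mem_edgeFinset he ((Sym2.isDiag_map φ.injective).mp h)
  · intro e he
    rw [mem_H0]
    exact ⟨e, SimpleGraph.mem_edgeFinset.mp he, rfl⟩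
  · intro e he e' he' h
    exact Sym2.map.injective φ.injective (congrArg Subtype.val h)
  · intro z hz
    rw [mem_H0] at hz
    obtain ⟨e, he, hez⟩ := hz
    exact ⟨e, SimpleGraph.mem_edgeFinset.mpr he, Subtype.ext hez⟩

/-- The subgraph of `H` whose edges are given by `A`, without isolated vertices. -/
def subOf (A : Finset (EdgeSlot n)) (hA : A ⊆ H0 H φ) : H.Subgraph where
  verts := {w | ∃ w', ∃ h : ¬ (s(φ w, φ w')).IsDiag, (⟨s(φ w, φ w'), h⟩ : EdgeSlot n) ∈ A}
  Adj a b := ∃ h : ¬ (s(φ a, φ b)).IsDiag, (⟨s(φ a, φ b), h⟩ : EdgeSlot n) ∈ A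
  adj_sub := by
    rintro a b ⟨h, hab⟩
    have h1 := hA hab
    rw [mem_H0] at h1
    obtain ⟨e, he, hez⟩ := h1
    have h2 : e.map φ = (s(a, b)).map φ := hez
    have h3 := Sym2.map.injective φ.injective h2
    rw [h3] at he
    exact he
  edge_vert := by
    rintro v w ⟨h, hvw⟩
    exact ⟨w, h, hvw⟩
  symm := by
    constructor
    rintro a b ⟨h, hab⟩
    have e : s(φ a, φ b) = s(φ b, φ a) := Sym2.eq_swap
    refine ⟨by rw [← e]; exact h, ?_⟩
    have : (⟨s(φ b, φ a), by rw [← e]; exact h⟩ : EdgeSlot n) = ⟨s(φ a, φ b), h⟩ :=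
      Subtype.ext e.symm
    rw [this]; exact hab

theorem subOf_adj (A : Finset (EdgeSlot n)) (hA : A ⊆ H0 H φ) (a b : W) :
    (subOf H φ A hA).Adj a b ↔ ∃ h : ¬ (s(φ a, φ b)).IsDiag, (⟨s(φ a, φ b), h⟩ : EdgeSlot n) ∈ A :=
  Iff.rfl

open Classical in
/-- Edge slots of a subgraph. -/
noncomputable def slots {X : SimpleGraph (Fin n)} (K : X.Subgraph) : Finset (EdgeSlot n) :=
  Finset.univ.filter (fun z : EdgeSlot n => z.1 ∈ K.edgeSet)

theorem mem_slots {X : SimpleGraph (Fin n)} (K : X.Subgraph) (z : EdgeSlot n) :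
    z ∈ slots K ↔ z.1 ∈ K.edgeSet := by
  simp [slots]

open Classical in
/-- Every copy of `subOf A` has as set of slots an image of `A`. -/
theorem slots_mem_orbit {A : Finset (EdgeSlot n)} (hA : A ⊆ H0 H φ) {X : SimpleGraph (Fin n)}
    (K : X.Subgraph) (ψ : (subOf H φ A hA).coe ≃g K.coe) :
    slots K ∈ Finset.univ.image (fun g : Equiv.Perm (Fin n) => A.image (fun x => g • x)) := by
  -- the partial bijection
  let F := subOf H φ A hA
  let e1 : {x : Fin n // ∃ w ∈ F.verts, φ w = x} ≃ {x : Fin n // x ∈ K.verts} :=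
    (Equiv.Set.image φ F.verts φ.injective).symm.trans ψ.toEquiv
  let g : Equiv.Perm (Fin n) := e1.extendSubtype
  have hg : ∀ w : F.verts, g (φ w) = (ψ w : Fin n) := by
    intro w
    have h1 : ∃ w' ∈ F.verts, φ w' = φ w := ⟨w, w.2, rfl⟩
    rw [show g (φ w) = e1 ⟨φ w, h1⟩ from e1.extendSubtype_apply_of_mem _ h1]
    change ((ψ ((Equiv.Set.image φ F.verts φ.injective).symm ⟨φ w, h1⟩)) : Fin n) = _
    have : (Equiv.Set.image φ F.verts φ.injective).symm ⟨φ w, h1⟩ = w := by
      rw [Equiv.symm_apply_eq]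
      rfl
    rw [this]
  rw [Finset.mem_image]
  refine ⟨g, Finset.mem_univ _, ?_⟩
  ext z
  rw [mem_slots, Finset.mem_image]
  constructor
  · rintro ⟨a, ha, rfl⟩
    have ha0 := hA ha
    rw [mem_H0] at ha0
    obtain ⟨e, he, hea⟩ := ha0
    induction e using Sym2.ind with
    | _ u v =>
      rw [Sym2.map_mk] at hea
      have hd : ¬ (s(φ u, φ v)).IsDiag := by rw [hea]; exact a.2
      have haa : (⟨s(φ u, φ v), hd⟩ : EdgeSlot n) = a := Subtype.ext hea
      have hadj : F.Adj u v := ⟨hd, by rw [haa]; exact ha⟩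
      have hu : u ∈ F.verts := F.edge_vert hadj
      have hv : v ∈ F.verts := F.edge_vert hadj.symm
      have h2 : K.coe.Adj (ψ ⟨u, hu⟩) (ψ ⟨v, hv⟩) := by
        rw [ψ.map_adj_iff]
        exact hadj
      rw [← haa, smul_val, Sym2.map_mk, hg ⟨u, hu⟩, hg ⟨v, hv⟩]
      exact h2
  · intro hz
    obtain ⟨z, hzd⟩ := z
    induction z using Sym2.ind with
    | _ x y =>
      have hxy : K.Adj x y := hz
      have hx : x ∈ K.verts := K.edge_vert hxy
      have hy : y ∈ K.verts := K.edge_vert hxy.symm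
      have h2 : F.coe.Adj (ψ.symm ⟨x, hx⟩) (ψ.symm ⟨y, hy⟩) := by
        rw [ψ.symm.map_adj_iff]
        exact hxy
      obtain ⟨hd, h3⟩ : F.Adj (ψ.symm ⟨x, hx⟩ : W) (ψ.symm ⟨y, hy⟩ : W) := h2
      refine ⟨_, h3, ?_⟩
      apply Subtype.ext
      rw [smul_val, Sym2.map_mk, hg, hg, ψ.apply_symm_apply, ψ.apply_symm_apply]

theorem slots_subset {ω : EdgeSlot n → Bool} (K : (graphOf ω).Subgraph) :
    ∀ e ∈ slots K, ω e = true := by
  rintro ⟨z, hz⟩ he
  rw [mem_slots] at he
  induction z using Sym2.ind with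
  | _ x y =>
    have h1 : (graphOf ω).Adj x y := K.adj_sub he
    rw [graphOf_adj] at h1
    exact h1.2

/-- A copy of a graph without isolated vertices is determined by its slots. -/
theorem slots_inj {A : Finset (EdgeSlot n)} (hA : A ⊆ H0 H φ) {X : SimpleGraph (Fin n)}
    (K L : X.Subgraph) (ψ : Nonempty ((subOf H φ A hA).coe ≃g K.coe))
    (ψ' : Nonempty ((subOf H φ A hA).coe ≃g L.coe)) (h : slots K = slots L) : K = L := by
  have hadj : ∀ a b, K.Adj a b ↔ L.Adj a b := by
    intro a b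
    by_cases hd : (s(a, b)).IsDiag
    · rw [Sym2.mk_isDiag_iff] at hd
      subst hd
      exact ⟨fun h => absurd (K.adj_sub h) (X.irrefl), fun h => absurd (L.adj_sub h) (X.irrefl)⟩
    · have h1 := Finset.ext_iff.mp h ⟨s(a, b), hd⟩
      rw [mem_slots, mem_slots] at h1
      exact h1
  have hv : ∀ (M : X.Subgraph), Nonempty ((subOf H φ A hA).coe ≃g M.coe) →
      ∀ x, x ∈ M.verts ↔ ∃ y, M.Adj x y := by
    rintro M ⟨ψ⟩ x
    constructor
    · intro hx
      have h1 := (ψ.symm ⟨x, hx⟩).2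
      obtain ⟨w', hd, hw'⟩ := h1
      have h2 : (subOf H φ A hA).Adj (ψ.symm ⟨x, hx⟩ : W) w' := ⟨hd, hw'⟩
      have hw2 : w' ∈ (subOf H φ A hA).verts := (subOf H φ A hA).edge_vert h2.symm
      have h3 : M.coe.Adj (ψ (ψ.symm ⟨x, hx⟩)) (ψ ⟨w', hw2⟩) := by
        rw [ψ.map_adj_iff]
        exact h2
      rw [ψ.apply_symm_apply] at h3
      exact ⟨_, h3⟩
    · rintro ⟨y, hy⟩
      exact M.edge_vert hy
  refine SimpleGraph.Subgraph.ext ?_ ?_
  · ext x
    rw [hv K ψ x, hv L ψ' x]
    simp only [hadj]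
  · funext a b
    exact propext (hadj a b)

open Classical in
theorem copyCount_le {A : Finset (EdgeSlot n)} (hA : A ⊆ H0 H φ) (ω : EdgeSlot n → Bool) :
    (graphOf ω).copyCount (subOf H φ A hA).coe ≤
      ((Finset.univ.image (fun g : Equiv.Perm (Fin n) => A.image (fun x => g • x))).filter
        (fun B => ∀ e ∈ B, ω e = true)).card := by
  unfold SimpleGraph.copyCount
  refine Finset.card_le_card_of_injOn (fun K => slots K) ?_ ?_
  · intro K hK
    have hK' := (Finset.mem_filter.mp (Finset.mem_coe.mp hK)).2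
    obtain ⟨ψ⟩ := hK'
    exact Finset.mem_coe.mpr (Finset.mem_filter.mpr ⟨slots_mem_orbit H φ hA K ψ, slots_subset K⟩)
  · intro K hK L hL h
    exact slots_inj H φ hA K L (Finset.mem_filter.mp (Finset.mem_coe.mp hK)).2
      (Finset.mem_filter.mp (Finset.mem_coe.mp hL)).2 h

open Classical in
theorem expect_le {A : Finset (EdgeSlot n)} (hA : A ⊆ H0 H φ) {p : ℝ} (hp0 : 0 ≤ p)
    (hp1 : p ≤ 1) :
    gnpExpect n p (fun G => (G.copyCount (subOf H φ A hA).coe : ℝ)) ≤
      ((Finset.univ.image (fun g : Equiv.Perm (Fin n) => A.image (fun x => g • x))).card : ℝ) *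
        p ^ A.card := by
  unfold gnpExpect
  set O := Finset.univ.image (fun g : Equiv.Perm (Fin n) => A.image (fun x => g • x)) with hO
  calc ∑ ω : EdgeSlot n → Bool, bernoulliWeight p ω *
        ((graphOf ω).copyCount (subOf H φ A hA).coe : ℝ)
      ≤ ∑ ω : EdgeSlot n → Bool, bernoulliWeight p ω *
        ∑ B ∈ O, (if ∀ e ∈ B, ω e = true then (1 : ℝ) else 0) := by
        refine Finset.sum_le_sum fun ω _ => ?_
        refine mul_le_mul_of_nonneg_left ?_ (bernoulliWeight_nonneg hp0 hp1 ω)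
        rw [Finset.sum_boole]
        exact_mod_cast copyCount_le H φ hA ω
    _ = ∑ B ∈ O, ∑ ω : EdgeSlot n → Bool, bernoulliWeight p ω *
        (if ∀ e ∈ B, ω e = true then (1 : ℝ) else 0) := by
        rw [Finset.sum_comm]
        refine Finset.sum_congr rfl fun ω _ => ?_
        rw [Finset.mul_sum]
    _ = ∑ B ∈ O, p ^ A.card := by
        refine Finset.sum_congr rfl fun B hB => ?_
        rw [sum_weight_subset]
        obtain ⟨g, _, rfl⟩ := Finset.mem_image.mp hB
        rw [Finset.card_image_of_injective _ (MulAction.injective g)]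
    _ = (O.card : ℝ) * p ^ A.card := by
        rw [Finset.sum_const, nsmul_eq_mul]

/-- If some image of `H0` consists of open slots then the graph contains `H`. -/
theorem isContained_of_smul {ω : EdgeSlot n → Bool} (g : Equiv.Perm (Fin n))
    (h : ∀ e ∈ H0 H φ, ω (g • e) = true) : H.IsContained (graphOf ω) := by
  refine ⟨⟨⟨fun w => g (φ w), ?_⟩, ?_⟩⟩
  · intro a b hab
    rw [graphOf_adj]
    have hd : ¬ (s(φ a, φ b)).IsDiag := by
      rw [Sym2.mk_isDiag_iff]
      exact fun e => hab.ne (φ.injective e)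
    have h1 : (⟨s(φ a, φ b), hd⟩ : EdgeSlot n) ∈ H0 H φ := by
      rw [mem_H0]
      exact ⟨s(a, b), hab, rfl⟩
    have h2 := h _ h1
    have h3 : ¬ (s(g (φ a), g (φ b))).IsDiag := by
      rw [Sym2.mk_isDiag_iff]
      exact fun e => hab.ne (φ.injective (g.injective e))
    exact ⟨h3, h2⟩
  · exact g.injective.comp φ.injective

end Main

/-- S0076 follows from the abstract statement for the action of `Perm (Fin n)` on `EdgeSlot n`. -/
theorem S0076_of_abstract
    (habs : ∀ (G E : Type) [Group G] [Fintype G] [Fintype E] [DecidableEq E] [MulAction G E]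
      (H : Finset E), H.Nonempty → ∀ p : ℝ, 0 ≤ p → p ≤ 1 →
      (∀ A : Finset E, A ⊆ H → (1 : ℝ) / 2 ≤
        ((Finset.univ.image (fun g : G => A.image (fun x => g • x))).card : ℝ) * p ^ A.card) →
      (1 : ℝ) / 2 ≤ bernoulliProb
        (min 1 (2048 * Real.exp 50 * p * (1 + Real.logb 2 (H.card : ℝ))))
        {ω : E → Bool | ∃ g : G, ∀ e ∈ H, ω (g • e) = true})
    (n : ℕ) (_hn : 2 ≤ n) (W : Type) [Fintype W] [DecidableEq W] (H : SimpleGraph W)
    [DecidableRel H.Adj] (hW : Fintype.card W ≤ n) (hH : 1 ≤ H.edgeFinset.card)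
    (p : ℝ) (hp0 : 0 ≤ p) (hp1 : p ≤ 1)
    (hE : ∀ F : H.Subgraph, (1 : ℝ) / 2 ≤
      gnpExpect n p (fun G => (G.copyCount F.coe : ℝ))) :
    (1 : ℝ) / 2 ≤ gnpProb n
      (min 1 (2048 * Real.exp 50 * p * (1 + Real.logb 2 (H.edgeFinset.card : ℝ))))
      {G | H.IsContained G} := by
  have hne : Nonempty (W ↪ Fin n) :=
    Function.Embedding.nonempty_of_card_le (by rw [Fintype.card_fin]; exact hW)
  obtain ⟨φ⟩ := hne
  have h1 := habs (Equiv.Perm (Fin n)) (EdgeSlot n) (H0 H φ)
    (Finset.card_pos.mp (by rw [card_H0]; exact hH)) p hp0 hp1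
    (fun A hA => (hE (subOf H φ A hA)).trans (by convert expect_le H φ hA hp0 hp1))
  rw [card_H0] at h1
  refine h1.trans ?_
  unfold gnpProb
  refine bernoulliProb_mono ?_ (min_le_left _ _) ?_
  · refine le_min zero_le_one ?_
    have h2 : (0 : ℝ) ≤ Real.logb 2 (H.edgeFinset.card : ℝ) :=
      Real.logb_nonneg (by norm_num) (by exact_mod_cast hH)
    positivity
  · rintro ω ⟨g, hg⟩
    exact isContained_of_smul H φ g hg

end Crest.Agent.R055.Bridge
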