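import Crest.Agent.R055.Push
import Crest.Agent.R055.Stmts

/-!
Row 55 (S0076): the 4-block Shannon inequalities (`ChainStmt` from `GainStmt`) (helper212).
-/

set_option autoImplicit false

namespace Crest.Agent.R055.Ch

open Finset Real
open scoped Pointwise
set_option linter.unusedSectionVars false

/-! ### conditional entropy -/

section cent
variable {Ω : Type*} [Fintype Ω] {P : Ω → ℝ} {S S' S'' S''' : Type*}

/-- conditional entropy `H(X | Y)` -/
noncomputable def cent (P : Ω → ℝ) (X : Ω → S) (Y : Ω → S') : ℝ :=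
  ent P (fun ω => (X ω, Y ω)) - ent P Y

theorem cent_congr {X : Ω → S} {Y : Ω → S'} {X' : Ω → S''} {Y' : Ω → S'''}
    (hY : ∀ ω ω', Y ω' = Y ω ↔ Y' ω' = Y' ω)
    (hX : ∀ ω ω', Y ω' = Y ω → (X ω' = X ω ↔ X' ω' = X' ω)) :
    cent P X Y = cent P X' Y' := by
  unfold cent
  rw [ent_congr hY]
  congr 1
  apply ent_congr
  intro ω ω'
  simp only [Prod.mk.injEq]
  constructor
  · rintro ⟨h1, h2⟩
    exact ⟨(hX ω ω' h2).mp h1, (hY ω ω').mp h2⟩
  · rintro ⟨h1, h2⟩
    have h3 := (hY ω ω').mpr h2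
    exact ⟨(hX ω ω' h3).mpr h1, h3⟩

/-- conditioning on more reduces entropy -/
theorem cent_anti (hP : IsProb P) (X : Ω → S) {Y : Ω → S'} {Z : Ω → S''}
    (h : ∀ ω ω', Y ω' = Y ω → Z ω' = Z ω) : cent P X Y ≤ cent P X Z := by
  have h1 := ent_submod hP X Y Z
  have h2 : ent P (fun ω => (X ω, Y ω, Z ω)) = ent P (fun ω => (X ω, Y ω)) := by
    apply ent_congr
    intro ω ω'
    simp only [Prod.mk.injEq]
    constructor
    · rintro ⟨a, b, _⟩; exact ⟨a, b⟩
    · rintro ⟨a, b⟩; exact ⟨a, b, h _ _ b⟩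
  have h3 : ent P (fun ω => (Y ω, Z ω)) = ent P Y := by
    apply ent_congr
    intro ω ω'
    simp only [Prod.mk.injEq]
    constructor
    · rintro ⟨a, _⟩; exact a
    · intro a; exact ⟨a, h _ _ a⟩
  unfold cent
  rw [h2, h3] at h1
  linarith

/-- monotonicity in the first variable -/
theorem cent_mono (hP : IsProb P) {X : Ω → S} {X' : Ω → S''} (Y : Ω → S')
    (h : ∀ ω ω', Y ω' = Y ω → X' ω' = X' ω → X ω' = X ω) : cent P X Y ≤ cent P X' Y := by
  unfold cent
  have : ent P (fun ω => (X ω, Y ω)) ≤ ent P (fun ω => (X' ω, Y ω)) := by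
    apply ent_mono hP.nonneg
    intro ω ω' hh
    simp only [Prod.mk.injEq] at hh ⊢
    exact ⟨h _ _ hh.2 hh.1, hh.2⟩
  linarith

/-- chain rule -/
theorem cent_chain (X : Ω → S) (X' : Ω → S'') (Y : Ω → S') :
    cent P (fun ω => (X ω, X' ω)) Y = cent P X Y + cent P X' (fun ω => (X ω, Y ω)) := by
  unfold cent
  have : ent P (fun ω => ((X ω, X' ω), Y ω)) = ent P (fun ω => (X' ω, X ω, Y ω)) := by
    apply ent_congr
    intro ω ω'
    simp only [Prod.mk.injEq]
    tauto
  rw [this]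
  ring

theorem cent_subadd (hP : IsProb P) (X : Ω → S) (X' : Ω → S'') (Y : Ω → S') :
    cent P (fun ω => (X ω, X' ω)) Y ≤ cent P X Y + cent P X' Y := by
  rw [cent_chain]
  have := cent_anti hP X' (Y := fun ω => (X ω, Y ω)) (Z := Y)
    (by intro ω ω' h; simp only [Prod.mk.injEq] at h; exact h.2)
  linarith

/-- **marking bound**: a subset of a known finite set `W` costs at most `log 2` per element. -/
theorem cent_mark (hP : IsProb P) {E : Type*} [Fintype E] [DecidableEq E]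
    (X : Ω → S) (W A : Ω → Finset E)
    (hW : ∀ ω ω', X ω' = X ω → W ω' = W ω) (hA : ∀ ω, A ω ⊆ W ω) :
    cent P A X ≤ Real.log 2 * ∑ ω, P ω * ((W ω).card : ℝ) := by
  classical
  have h0 := hP.nonneg
  set AX : Ω → Finset E × S := fun ω => (A ω, X ω) with hAX
  set r : Ω → ℝ := fun ω => cls P X ω / (cls P AX ω * 2 ^ (W ω).card) with hr
  have hrpos : ∀ ω, 0 < P ω → 0 < r ω := by
    intro ω hω
    have h1 := cls_pos h0 X hω
    have h3 := cls_pos h0 AX hω
    simp only [hr]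
    positivity
  have key : ∑ ω, P ω * r ω ≤ 1 := by
    have e1 : ∀ ω, P ω * r ω = ∑ ω', P ω' / 2 ^ (W ω').card *
        ∑ T ∈ (W ω').powerset, (if AX ω = (T, X ω') then P ω / cls P AX ω else 0) := by
      intro ω
      have hh : ∀ ω', (P ω' / 2 ^ (W ω').card *
        ∑ T ∈ (W ω').powerset, (if AX ω = (T, X ω') then P ω / cls P AX ω else 0))
          = (if X ω' = X ω then P ω' else 0) * (P ω / (cls P AX ω * 2 ^ (W ω).card)) := by
        intro ω'
        by_cases hx : X ω' = X ω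
        · rw [if_pos hx]
          have hW' : W ω' = W ω := hW _ _ hx
          have h5 : (∑ T ∈ (W ω').powerset, (if AX ω = (T, X ω') then P ω / cls P AX ω else 0))
              = P ω / cls P AX ω := by
            rw [Finset.sum_eq_single (A ω)]
            · rw [if_pos (by simp [hAX, hx])]
            · intro T _ hT
              rw [if_neg]
              intro hcon
              simp only [hAX, Prod.mk.injEq] at hcon
              exact hT hcon.1.symm
            · intro hcon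
              exact absurd (Finset.mem_powerset.mpr (hW' ▸ hA ω)) hcon
          rw [h5, hW']
          ring
        · rw [if_neg hx]
          have h5 : (∑ T ∈ (W ω').powerset, (if AX ω = (T, X ω') then P ω / cls P AX ω else 0))
              = 0 := by
            apply Finset.sum_eq_zero
            intro T _
            rw [if_neg]
            intro hcon
            simp only [hAX, Prod.mk.injEq] at hcon
            exact hx hcon.2.symm
          rw [h5]; ring
      simp only [hh]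
      rw [← Finset.sum_mul]
      have h6 : (∑ ω', if X ω' = X ω then P ω' else 0) = cls P X ω := by
        unfold cls; apply Finset.sum_congr rfl; intro i _; congr
      rw [h6]
      simp only [hr]
      ring
    simp only [e1]
    rw [Finset.sum_comm]
    have e2 : ∀ ω', ∑ ω, P ω' / 2 ^ (W ω').card *
        ∑ T ∈ (W ω').powerset, (if AX ω = (T, X ω') then P ω / cls P AX ω else 0) ≤ P ω' := by
      intro ω'
      rw [← Finset.mul_sum, Finset.sum_comm]
      have e3 : ∑ T ∈ (W ω').powerset, ∑ ω, (if AX ω = (T, X ω') then P ω / cls P AX ω else 0)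
          ≤ 2 ^ (W ω').card := by
        calc _ ≤ ∑ T ∈ (W ω').powerset, (1 : ℝ) :=
              Finset.sum_le_sum (fun T _ => sum_div_cls_le P AX (T, X ω'))
          _ = 2 ^ (W ω').card := by simp [Finset.card_powerset]
      have h7 : (0 : ℝ) < 2 ^ (W ω').card := by positivity
      calc _ ≤ P ω' / 2 ^ (W ω').card * 2 ^ (W ω').card :=
            mul_le_mul_of_nonneg_left e3 (div_nonneg (h0 _) h7.le)
        _ = P ω' := by field_simp
    calc _ ≤ ∑ ω', P ω' := Finset.sum_le_sum (fun ω' _ => e2 ω')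
      _ = 1 := hP.sum_eq
  have h5 := sum_mul_log_le (w := P) (r := r) h0 hrpos
  rw [hP.sum_eq] at h5
  have h6 : ∑ ω, P ω * Real.log (r ω)
      = cent P A X - Real.log 2 * ∑ ω, P ω * ((W ω).card : ℝ) := by
    unfold cent ent
    rw [Finset.mul_sum, ← Finset.sum_sub_distrib, ← Finset.sum_sub_distrib]
    apply Finset.sum_congr rfl
    intro ω _
    rcases (h0 ω).lt_or_eq with hi | hi
    · have h1 := cls_pos h0 X hi
      have h3 := cls_pos h0 AX hi
      simp only [hr]
      rw [Real.log_div (by positivity) (by positivity), Real.log_mul h3.ne' (by positivity),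
        Real.log_pow]
      ring
    · simp [← hi]
  linarith

end cent

/-! ### the n-block law -/

section blocks

variable {G E : Type} [Group G] [Fintype G] [Fintype E] [DecidableEq E] [MulAction G E]
  {H : Finset E}

/-- law of `n` independent copies of the block `B`, symmetrised. -/
noncomputable def pw (B : Blk G H) (n : ℕ) : (Fin n → B.T) → ℝ := symm G (piW B.μ n)

theorem pw_isProb (B : Blk G H) (n : ℕ) : IsProb (pw B n) :=
  symm_isProb (piW_isProb B.prob n)

theorem pw_push (B : Blk G H) {k n : ℕ} (σ : Fin k → Fin n) (hσ : Function.Injective σ) :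
    IsPush (pw B n) (pw B k) (fun x => x ∘ σ) :=
  IsPush.symm (fun _ _ => rfl) (piW_push B.prob σ hσ)

/-- reassociation equivalences -/
def e2 (T : Type) : (Fin 2 → T) ≃ T × T where
  toFun x := (x 0, x 1)
  invFun p := ![p.1, p.2]
  left_inv x := by funext i; fin_cases i <;> rfl
  right_inv _ := rfl

def e3 (T : Type) : (Fin 3 → T) ≃ T × (T × T) where
  toFun x := (x 0, (x 1, x 2))
  invFun p := ![p.1, p.2.1, p.2.2]
  left_inv x := by funext i; fin_cases i <;> rfl
  right_inv _ := rfl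

def e4 (T : Type) : (Fin 4 → T) ≃ T × (T × (T × T)) where
  toFun x := (x 0, (x 1, (x 2, x 3)))
  invFun p := ![p.1, p.2.1, p.2.2.1, p.2.2.2]
  left_inv x := by funext i; fin_cases i <;> rfl
  right_inv _ := rfl

def e22 (T : Type) : (Fin 4 → T) ≃ (T × T) × (T × T) where
  toFun x := ((x 0, x 1), (x 2, x 3))
  invFun p := ![p.1.1, p.1.2, p.2.1, p.2.2]
  left_inv x := by funext i; fin_cases i <;> rfl
  right_inv _ := rfl

theorem push_e2 (B : Blk G H) : IsPush (pw B 2) (B.prod B).law (e2 B.T) := by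
  apply IsPush.symm (fun _ _ => rfl)
  apply IsPush.of_equiv
  intro x
  change B.μ (x 0) * B.μ (x 1) = ∏ i, B.μ (x i)
  rw [Fin.prod_univ_two]

theorem push_e3 (B : Blk G H) : IsPush (pw B 3) (B.prod (B.prod B)).law (e3 B.T) := by
  apply IsPush.symm (fun _ _ => rfl)
  apply IsPush.of_equiv
  intro x
  change B.μ (x 0) * (B.μ (x 1) * B.μ (x 2)) = ∏ i, B.μ (x i)
  rw [Fin.prod_univ_three]; ring

theorem push_e4 (B : Blk G H) :
    IsPush (pw B 4) (B.prod (B.prod (B.prod B))).law (e4 B.T) := by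
  apply IsPush.symm (fun _ _ => rfl)
  apply IsPush.of_equiv
  intro x
  change B.μ (x 0) * (B.μ (x 1) * (B.μ (x 2) * B.μ (x 3))) = ∏ i, B.μ (x i)
  rw [Fin.prod_univ_four]; ring

theorem push_e22 (B : Blk G H) :
    IsPush (pw B 4) ((B.prod B).prod (B.prod B)).law (e22 B.T) := by
  apply IsPush.symm (fun _ _ => rfl)
  apply IsPush.of_equiv
  intro x
  change (B.μ (x 0) * B.μ (x 1)) * (B.μ (x 2) * B.μ (x 3)) = ∏ i, B.μ (x i)
  rw [Fin.prod_univ_four]; ring

/-- `F` is invariant under equivariant equivalences. -/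
theorem F_congr (B B' : Blk G H) (e : B.T ≃ B'.T) (he : ∀ (g : G) (t : B.T), e (g • t) = g • e t)
    (hμ : ∀ t, B'.μ (e t) = B.μ t) (hU : ∀ t, B'.U (e t) = B.U t) (l Ψ : ℝ) :
    B.F l Ψ = B'.F l Ψ := by
  have h1 : hl B.μ = hl B'.μ := by
    unfold hl
    exact Fintype.sum_equiv e _ _ (fun t => by rw [hμ])
  have h2 : ∀ t, symm G B'.μ (e t) = symm G B.μ t := by
    intro t
    unfold symm
    congr 1
    apply Finset.sum_congr rfl
    intro g _
    rw [← he, hμ]
  have h3 : hl (symm G B.μ) = hl (symm G B'.μ) := by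
    unfold hl
    exact Fintype.sum_equiv e _ _ (fun t => by rw [h2])
  have h4 : ecard B.μ B.U = ecard B'.μ B'.U := by
    unfold ecard
    exact Fintype.sum_equiv e _ _ (fun t => by rw [hμ, hU])
  unfold Blk.F Dv
  rw [h1, h3, h4]

theorem F_four (B : Blk G H) (l Ψ : ℝ) :
    (B.prod (B.prod (B.prod B))).F l Ψ = ((B.prod B).prod (B.prod B)).F l Ψ := by
  apply F_congr _ _ ((Equiv.prodAssoc B.T B.T (B.T × B.T)).symm)
  · intro g t; rfl
  · intro t
    change (B.μ t.1 * B.μ t.2.1) * (B.μ t.2.2.1 * B.μ t.2.2.2)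
      = B.μ t.1 * (B.μ t.2.1 * (B.μ t.2.2.1 * B.μ t.2.2.2))
    ring
  · intro t
    change (B.U t.1 ∪ B.U t.2.1) ∪ (B.U t.2.2.1 ∪ B.U t.2.2.2)
      = B.U t.1 ∪ (B.U t.2.1 ∪ (B.U t.2.2.1 ∪ B.U t.2.2.2))
    rw [Finset.union_assoc]

/-- overlap -/
def KK (B : Blk G H) {n : ℕ} (i j : Fin n) (x : Fin n → B.T) : Finset E := B.U (x i) ∩ B.U (x j)

/-- `c1 = H(K01 | β0)` -/
noncomputable def c1 (B : Blk G H) : ℝ := cent (pw B 2) (KK B 0 1) (fun x => x 0)
/-- `c2 = H(K01 | β0 β2)` -/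
noncomputable def c2 (B : Blk G H) : ℝ := cent (pw B 3) (KK B 0 1) (fun x => (x 0, x 2))
/-- `c3 = H(K01 | β0 β2 β3)` -/
noncomputable def c3 (B : Blk G H) : ℝ := cent (pw B 4) (KK B 0 1) (fun x => (x 0, x 2, x 3))

theorem cent_push {Ω Ω' : Type*} [Fintype Ω] [Fintype Ω'] {P : Ω → ℝ} {P' : Ω' → ℝ} {q : Ω → Ω'}
    (h : IsPush P P' q) {S S' : Type*} (X : Ω' → S) (Y : Ω' → S') :
    cent P' X Y = cent P (fun ω => X (q ω)) (fun ω => Y (q ω)) := by
  unfold cent
  rw [h.ent, h.ent]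

theorem c1_eq (B : Blk G H) (i j : Fin 4) (h : Function.Injective ![i, j]) :
    cent (pw B 4) (KK B i j) (fun x => x i) = c1 B := by
  unfold c1
  rw [cent_push (pw_push B ![i, j] h)]
  rfl

theorem c2_eq (B : Blk G H) (i j k : Fin 4) (h : Function.Injective ![i, j, k]) :
    cent (pw B 4) (KK B i j) (fun x => (x i, x k)) = c2 B := by
  unfold c2
  rw [cent_push (pw_push B ![i, j, k] h)]
  rfl

theorem c3_eq (B : Blk G H) (i j k l : Fin 4) (h : Function.Injective ![i, j, k, l]) :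
    cent (pw B 4) (KK B i j) (fun x => (x i, x k, x l)) = c3 B := by
  exact (cent_push (pw_push B ![i, j, k, l] h) (KK B 0 1) (fun x => (x 0, x 2, x 3))).symm

theorem m_eq (B : Blk G H) : B.m = c1 B := by
  exact cent_push (push_e2 B) (fun x : B.T × B.T => B.U x.1 ∩ B.U x.2)
    (fun x : B.T × B.T => x.1)

theorem k_eq (B : Blk G H) (i j : Fin 4) (h : Function.Injective ![i, j]) :
    B.k = ecard (pw B 4) (KK B i j) := by
  exact ((push_e2 B).ecard (fun x : B.T × B.T => B.U x.1 ∩ B.U x.2)).trans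
    ((pw_push B ![i, j] h).ecard (KK B 0 1))

theorem q2 (B : Blk G H) (i j : Fin 4) (h : Function.Injective ![i, j]) :
    IsPush (pw B 4) (B.prod B).law (fun x => ((x i, x j) : B.T × B.T)) :=
  (pw_push B ![i, j] h).comp (push_e2 B)

theorem q3 (B : Blk G H) (i j k : Fin 4) (h : Function.Injective ![i, j, k]) :
    IsPush (pw B 4) (B.prod (B.prod B)).law (fun x => ((x i, (x j, x k)) : B.T × (B.T × B.T))) :=
  (pw_push B ![i, j, k] h).comp (push_e3 B)

theorem q4 (B : Blk G H) (i j k l : Fin 4) (h : Function.Injective ![i, j, k, l]) :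
    IsPush (pw B 4) (B.prod (B.prod (B.prod B))).law
      (fun x => ((x i, (x j, (x k, x l))) : B.T × (B.T × (B.T × B.T)))) :=
  (pw_push B ![i, j, k, l] h).comp (push_e4 B)

theorem gain1 {l lam rho Ψ : ℝ} (hg : GainStmt G H l lam rho Ψ) (B : Blk G H) :
    c1 B ≤ (1 + 1 / (lam * rho)) * ((2 * B.F l Ψ - (B.prod B).F l Ψ) + c1 B)
      + 1 / (lam * rho) * B.F l Ψ + B.k * Real.log rho := by
  have h := hg B B 1 (fun _ x => B.U x.1 ∩ B.U x.2)
    (fun _ x => Finset.inter_subset_left)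
    (fun _ g x => by
      change B.U (g • x.1) ∩ B.U (g • x.2) = _
      rw [B.equi, B.equi, Finset.smul_finset_inter])
    (fun x => by ext e; simp)
  have e1 : cent (B.prod B).law (fun (x : B.T × B.T) (_ : Fin 1) => B.U x.1 ∩ B.U x.2)
      (fun x : B.T × B.T => x.1) = c1 B := by
    refine (cent_push (q2 B 0 1 (by decide)) _ _).trans ?_
    rw [← c1_eq B 0 1 (by decide)]
    exact cent_congr (fun _ _ => Iff.rfl)
      (fun ω ω' _ => ⟨fun h => congrFun h 0, fun h => funext fun _ => h⟩)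
  have e2 : cent (B.prod B).law (fun (x : B.T × B.T) (_ : Fin 1) => B.U x.1 ∩ B.U x.2)
      (fun x : B.T × B.T => x.2) = c1 B := by
    refine (cent_push (q2 B 0 1 (by decide)) _ _).trans ?_
    rw [← c1_eq B 1 0 (by decide)]
    refine cent_congr (fun _ _ => Iff.rfl)
      (fun ω ω' _ => ⟨fun h => ?_, fun h => funext fun _ => ?_⟩)
    · have := congrFun h 0
      unfold KK
      rw [Finset.inter_comm, this, Finset.inter_comm]
    · unfold KK at h
      change B.U (ω' 0) ∩ B.U (ω' 1) = B.U (ω 0) ∩ B.U (ω 1)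
      rw [Finset.inter_comm, h, Finset.inter_comm]
  have h' : cent (B.prod B).law (fun (x : B.T × B.T) (_ : Fin 1) => B.U x.1 ∩ B.U x.2)
      (fun x : B.T × B.T => x.1) ≤ (1 + ((1 : ℕ) : ℝ) / (lam * rho)) *
        (B.F l Ψ + B.F l Ψ - (B.prod B).F l Ψ +
        cent (B.prod B).law (fun (x : B.T × B.T) (_ : Fin 1) => B.U x.1 ∩ B.U x.2)
          (fun x : B.T × B.T => x.2)) + ((1 : ℕ) : ℝ) / (lam * rho) * B.F l Ψ
        + Real.log rho * ∑ _i : Fin 1, B.k := h
  rw [e1, e2] at h'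
  simp only [Nat.cast_one, Finset.univ_unique, Finset.sum_const, Finset.card_singleton,
    one_smul] at h'
  calc c1 B ≤ _ := h'
    _ = _ := by ring

theorem gain2 {l lam rho Ψ : ℝ} (hg : GainStmt G H l lam rho Ψ) (B : Blk G H) :
    cent (pw B 4) (fun x => (KK B 2 0 x, KK B 2 1 x)) (fun x => x 2)
      ≤ (1 + 2 / (lam * rho)) * ((B.F l Ψ + (B.prod B).F l Ψ - (B.prod (B.prod B)).F l Ψ)
        + cent (pw B 4) (fun x => (KK B 2 0 x, KK B 2 1 x)) (fun x => (x 0, x 1)))
      + 2 / (lam * rho) * B.F l Ψ + 2 * B.k * Real.log rho := by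
  set K : Fin 2 → B.T × (B.T × B.T) → Finset E :=
    fun i x => (![B.U x.1 ∩ B.U x.2.1, B.U x.1 ∩ B.U x.2.2] : Fin 2 → Finset E) i with hK
  have h := hg B (B.prod B) 2 K
    (fun i x => by
      fin_cases i
      · exact Finset.inter_subset_left
      · exact Finset.inter_subset_left)
    (fun i g x => by
      fin_cases i
      · change B.U (g • x.1) ∩ B.U (g • x.2.1) = g • (B.U x.1 ∩ B.U x.2.1)
        rw [B.equi, B.equi, Finset.smul_finset_inter]
      · change B.U (g • x.1) ∩ B.U (g • x.2.2) = g • (B.U x.1 ∩ B.U x.2.2)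
        rw [B.equi, B.equi, Finset.smul_finset_inter])
    (fun x => by
      change _ = B.U x.1 ∩ (B.U x.2.1 ∪ B.U x.2.2)
      ext e
      simp only [Finset.mem_biUnion, Finset.mem_univ, true_and, Fin.exists_fin_two, hK,
        Finset.mem_inter, Finset.mem_union, Matrix.cons_val_zero, Matrix.cons_val_one]
      tauto)
  have hcg : ∀ {S : Type} (Y : (Fin 4 → B.T) → S),
      cent (pw B 4) (fun x i => K i (x 2, (x 0, x 1))) Y
        = cent (pw B 4) (fun x => (KK B 2 0 x, KK B 2 1 x)) Y := by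
    intro S Y
    refine cent_congr (fun _ _ => Iff.rfl) (fun ω ω' _ => ?_)
    constructor
    · intro hh
      exact Prod.ext (congrFun hh 0) (congrFun hh 1)
    · intro hh
      simp only [Prod.mk.injEq] at hh
      funext i
      fin_cases i
      · exact hh.1
      · exact hh.2
  have e1 : cent (B.prod (B.prod B)).law (fun (x : B.T × (B.T × B.T)) (i : Fin 2) => K i x)
      (fun x : B.T × (B.T × B.T) => x.1)
      = cent (pw B 4) (fun x => (KK B 2 0 x, KK B 2 1 x)) (fun x => x 2) :=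
    (cent_push (q3 B 2 0 1 (by decide)) _ _).trans (hcg _)
  have e2 : cent (B.prod (B.prod B)).law (fun (x : B.T × (B.T × B.T)) (i : Fin 2) => K i x)
      (fun x : B.T × (B.T × B.T) => x.2)
      = cent (pw B 4) (fun x => (KK B 2 0 x, KK B 2 1 x)) (fun x => (x 0, x 1)) :=
    (cent_push (q3 B 2 0 1 (by decide)) _ _).trans (hcg _)
  have e3 : ∑ i : Fin 2, ecard (B.prod (B.prod B)).law (K i) = 2 * B.k := by
    rw [Fin.sum_univ_two]
    have a1 : ecard (B.prod (B.prod B)).law (K 0) = B.k :=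
      ((q3 B 2 0 1 (by decide)).ecard _).trans (k_eq B 2 0 (by decide)).symm
    have a2 : ecard (B.prod (B.prod B)).law (K 1) = B.k :=
      ((q3 B 2 0 1 (by decide)).ecard _).trans (k_eq B 2 1 (by decide)).symm
    rw [a1, a2]; ring
  have h' : cent (B.prod (B.prod B)).law (fun (x : B.T × (B.T × B.T)) (i : Fin 2) => K i x)
      (fun x : B.T × (B.T × B.T) => x.1) ≤ (1 + ((2 : ℕ) : ℝ) / (lam * rho)) *
        (B.F l Ψ + (B.prod B).F l Ψ - (B.prod (B.prod B)).F l Ψ +
        cent (B.prod (B.prod B)).law (fun (x : B.T × (B.T × B.T)) (i : Fin 2) => K i x)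
          (fun x : B.T × (B.T × B.T) => x.2)) + ((2 : ℕ) : ℝ) / (lam * rho) * B.F l Ψ
        + Real.log rho * ∑ i : Fin 2, ecard (B.prod (B.prod B)).law (K i) := h
  rw [e1, e2, e3] at h'
  simp only [Nat.cast_ofNat] at h'
  linarith

theorem gain3 {l lam rho Ψ : ℝ} (hg : GainStmt G H l lam rho Ψ) (B : Blk G H) :
    cent (pw B 4) (fun x => (KK B 3 0 x, KK B 3 1 x, KK B 3 2 x)) (fun x => x 3)
      ≤ (1 + 3 / (lam * rho)) * ((B.F l Ψ + (B.prod (B.prod B)).F l Ψ
          - ((B.prod B).prod (B.prod B)).F l Ψ)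
        + cent (pw B 4) (fun x => (KK B 3 0 x, KK B 3 1 x, KK B 3 2 x)) (fun x => (x 0, x 1, x 2)))
      + 3 / (lam * rho) * B.F l Ψ + 3 * B.k * Real.log rho := by
  set K : Fin 3 → B.T × (B.T × (B.T × B.T)) → Finset E :=
    fun i x => (![B.U x.1 ∩ B.U x.2.1, B.U x.1 ∩ B.U x.2.2.1, B.U x.1 ∩ B.U x.2.2.2]
      : Fin 3 → Finset E) i with hK
  have h := hg B (B.prod (B.prod B)) 3 K
    (fun i x => by
      fin_cases i
      · exact Finset.inter_subset_left
      · exact Finset.inter_subset_left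
      · exact Finset.inter_subset_left)
    (fun i g x => by
      fin_cases i
      · change B.U (g • x.1) ∩ B.U (g • x.2.1) = g • (B.U x.1 ∩ B.U x.2.1)
        rw [B.equi, B.equi, Finset.smul_finset_inter]
      · change B.U (g • x.1) ∩ B.U (g • x.2.2.1) = g • (B.U x.1 ∩ B.U x.2.2.1)
        rw [B.equi, B.equi, Finset.smul_finset_inter]
      · change B.U (g • x.1) ∩ B.U (g • x.2.2.2) = g • (B.U x.1 ∩ B.U x.2.2.2)
        rw [B.equi, B.equi, Finset.smul_finset_inter])
    (fun x => by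
      change _ = B.U x.1 ∩ (B.U x.2.1 ∪ (B.U x.2.2.1 ∪ B.U x.2.2.2))
      ext e
      simp only [Finset.mem_biUnion, Finset.mem_univ, true_and, Fin.exists_fin_succ, hK,
        Finset.mem_inter, Finset.mem_union, Matrix.cons_val_zero, Matrix.cons_val_succ,
        IsEmpty.exists_iff, or_false]
      tauto)
  have hcg : ∀ {S : Type} (Y : (Fin 4 → B.T) → S),
      cent (pw B 4) (fun x i => K i (x 3, (x 0, (x 1, x 2)))) Y
        = cent (pw B 4) (fun x => (KK B 3 0 x, KK B 3 1 x, KK B 3 2 x)) Y := by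
    intro S Y
    refine cent_congr (fun _ _ => Iff.rfl) (fun ω ω' _ => ?_)
    constructor
    · intro hh
      exact Prod.ext (congrFun hh 0) (Prod.ext (congrFun hh 1) (congrFun hh 2))
    · intro hh
      simp only [Prod.mk.injEq] at hh
      funext i
      fin_cases i
      · exact hh.1
      · exact hh.2.1
      · exact hh.2.2
  have e1 : cent (B.prod (B.prod (B.prod B))).law
      (fun (x : B.T × (B.T × (B.T × B.T))) (i : Fin 3) => K i x)
      (fun x : B.T × (B.T × (B.T × B.T)) => x.1)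
      = cent (pw B 4) (fun x => (KK B 3 0 x, KK B 3 1 x, KK B 3 2 x)) (fun x => x 3) :=
    (cent_push (q4 B 3 0 1 2 (by decide)) _ _).trans (hcg _)
  have e2 : cent (B.prod (B.prod (B.prod B))).law
      (fun (x : B.T × (B.T × (B.T × B.T))) (i : Fin 3) => K i x)
      (fun x : B.T × (B.T × (B.T × B.T)) => x.2)
      = cent (pw B 4) (fun x => (KK B 3 0 x, KK B 3 1 x, KK B 3 2 x)) (fun x => (x 0, x 1, x 2)) :=
    (cent_push (q4 B 3 0 1 2 (by decide)) _ _).trans (hcg _)
  have e3 : ∑ i : Fin 3, ecard (B.prod (B.prod (B.prod B))).law (K i) = 3 * B.k := by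
    rw [Fin.sum_univ_three]
    have a1 : ecard (B.prod (B.prod (B.prod B))).law (K 0) = B.k :=
      ((q4 B 3 0 1 2 (by decide)).ecard _).trans (k_eq B 3 0 (by decide)).symm
    have a2 : ecard (B.prod (B.prod (B.prod B))).law (K 1) = B.k :=
      ((q4 B 3 0 1 2 (by decide)).ecard _).trans (k_eq B 3 1 (by decide)).symm
    have a3 : ecard (B.prod (B.prod (B.prod B))).law (K 2) = B.k :=
      ((q4 B 3 0 1 2 (by decide)).ecard _).trans (k_eq B 3 2 (by decide)).symm
    rw [a1, a2, a3]; ring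
  have h' : cent (B.prod (B.prod (B.prod B))).law
      (fun (x : B.T × (B.T × (B.T × B.T))) (i : Fin 3) => K i x)
      (fun x : B.T × (B.T × (B.T × B.T)) => x.1) ≤ (1 + ((3 : ℕ) : ℝ) / (lam * rho)) *
        (B.F l Ψ + (B.prod (B.prod B)).F l Ψ - (B.prod (B.prod (B.prod B))).F l Ψ +
        cent (B.prod (B.prod (B.prod B))).law
          (fun (x : B.T × (B.T × (B.T × B.T))) (i : Fin 3) => K i x)
          (fun x : B.T × (B.T × (B.T × B.T)) => x.2)) + ((3 : ℕ) : ℝ) / (lam * rho) * B.F l Ψ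
        + Real.log rho * ∑ i : Fin 3, ecard (B.prod (B.prod (B.prod B))).law (K i) := h
  rw [e1, e2, e3, F_four] at h'
  simp only [Nat.cast_ofNat] at h'
  linarith

theorem KK_comm (B : Blk G H) {n : ℕ} (i j : Fin n) (x : Fin n → B.T) :
    KK B i j x = KK B j i x := Finset.inter_comm _ _

theorem KK_congr (B : Blk G H) {n : ℕ} (i j : Fin n) {x y : Fin n → B.T} (h1 : y i = x i)
    (h2 : y j = x j) : KK B i j y = KK B i j x := by
  unfold KK; rw [h1, h2]

/-- the big overlap of blocks `(0,1)` and `(2,3)` -/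
def KB (B : Blk G H) (x : Fin 4 → B.T) : Finset E :=
  (B.U (x 0) ∪ B.U (x 1)) ∩ (B.U (x 2) ∪ B.U (x 3))

theorem m_sq (B : Blk G H) :
    (B.prod B).m = cent (pw B 4) (KB B) (fun x => (x 0, x 1)) :=
  cent_push (push_e22 B)
    (fun x : (B.T × B.T) × (B.T × B.T) => (B.U x.1.1 ∪ B.U x.1.2) ∩ (B.U x.2.1 ∪ B.U x.2.2))
    (fun x : (B.T × B.T) × (B.T × B.T) => x.1)

theorem k_sq (B : Blk G H) : (B.prod B).k = ecard (pw B 4) (KB B) :=
  (push_e22 B).ecard
    (fun x : (B.T × B.T) × (B.T × B.T) => (B.U x.1.1 ∪ B.U x.1.2) ∩ (B.U x.2.1 ∪ B.U x.2.2))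

theorem ineq6 (B : Blk G H) :
    cent (pw B 4) (fun x => (KK B 2 0 x, KK B 2 1 x)) (fun x => (x 0, x 1))
      + cent (pw B 4) (fun x => (KK B 3 0 x, KK B 3 1 x)) (fun x => (x 0, x 1, x 2))
      ≤ (B.prod B).m + Real.log 4 * (B.prod B).k := by
  have hP := pw_isProb B 4
  -- b ≤ cent (K30,K31) ((K20,K21),(x0,x1))
  have h1 : cent (pw B 4) (fun x => (KK B 3 0 x, KK B 3 1 x)) (fun x => (x 0, x 1, x 2))
      ≤ cent (pw B 4) (fun x => (KK B 3 0 x, KK B 3 1 x))
        (fun x => ((KK B 2 0 x, KK B 2 1 x), (x 0, x 1))) := by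
    apply cent_anti hP
    intro ω ω' h
    simp only [Prod.mk.injEq] at h ⊢
    obtain ⟨h0, h1, h2⟩ := h
    exact ⟨⟨KK_congr B 2 0 h2 h0, KK_congr B 2 1 h2 h1⟩, h0, h1⟩
  have h2 := cent_chain (P := pw B 4) (fun x => (KK B 2 0 x, KK B 2 1 x))
    (fun x => (KK B 3 0 x, KK B 3 1 x)) (fun x => (x 0, x 1))
  -- all four given (x0,x1) ≤ (KB, A, A') given (x0,x1)
  have h3 : cent (pw B 4) (fun x => ((KK B 2 0 x, KK B 2 1 x), (KK B 3 0 x, KK B 3 1 x)))
      (fun x => (x 0, x 1))
      ≤ cent (pw B 4) (fun x => (KB B x, (B.U (x 2) ∩ KB B x, B.U (x 3) ∩ KB B x)))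
        (fun x => (x 0, x 1)) := by
    apply cent_mono hP
    intro ω ω' hY hX
    simp only [Prod.mk.injEq] at hY hX ⊢
    obtain ⟨y0, y1⟩ := hY
    obtain ⟨x0, x1, x2⟩ := hX
    have key : ∀ (i : Fin 4) (x : Fin 4 → B.T), (i = 2 ∨ i = 3) →
        KK B i 0 x = (B.U (x i) ∩ KB B x) ∩ B.U (x 0) ∧
        KK B i 1 x = (B.U (x i) ∩ KB B x) ∩ B.U (x 1) := by
      intro i x hi
      unfold KK KB
      constructor
      · ext e
        simp only [Finset.mem_inter, Finset.mem_union]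
        rcases hi with rfl | rfl <;> tauto
      · ext e
        simp only [Finset.mem_inter, Finset.mem_union]
        rcases hi with rfl | rfl <;> tauto
    rw [(key 2 ω' (Or.inl rfl)).1, (key 2 ω' (Or.inl rfl)).2, (key 3 ω' (Or.inr rfl)).1,
      (key 3 ω' (Or.inr rfl)).2, (key 2 ω (Or.inl rfl)).1, (key 2 ω (Or.inl rfl)).2,
      (key 3 ω (Or.inr rfl)).1, (key 3 ω (Or.inr rfl)).2, x1, x2, y0, y1]
    exact ⟨⟨rfl, rfl⟩, rfl, rfl⟩
  have h4 := cent_chain (P := pw B 4) (KB B)
    (fun x => (B.U (x 2) ∩ KB B x, B.U (x 3) ∩ KB B x)) (fun x => (x 0, x 1))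
  have h5 := cent_subadd hP (fun x => B.U (x 2) ∩ KB B x) (fun x => B.U (x 3) ∩ KB B x)
    (fun x => (KB B x, (x 0, x 1)))
  have h6 := cent_mark hP (fun x => (KB B x, (x 0, x 1))) (KB B) (fun x => B.U (x 2) ∩ KB B x)
    (by intro ω ω' h; simp only [Prod.mk.injEq] at h; exact h.1)
    (fun ω => Finset.inter_subset_right)
  have h7 := cent_mark hP (fun x => (KB B x, (x 0, x 1))) (KB B) (fun x => B.U (x 3) ∩ KB B x)
    (by intro ω ω' h; simp only [Prod.mk.injEq] at h; exact h.1)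
    (fun ω => Finset.inter_subset_right)
  have h8 : ∑ ω, pw B 4 ω * ((KB B ω).card : ℝ) = (B.prod B).k := by
    rw [k_sq]; rfl
  rw [h8] at h6 h7
  have h9 : Real.log 4 = 2 * Real.log 2 := by
    rw [show (4 : ℝ) = 2 ^ 2 by norm_num, Real.log_pow]; norm_num
  rw [m_sq, h9]
  linarith

/-- **The 4-block Shannon inequalities.** -/
theorem chain {l lam rho Ψ : ℝ} (hlr : 0 < lam * rho) (hg : GainStmt G H l lam rho Ψ) :
    ChainStmt G H l lam rho Ψ := by
  intro B
  have hP := pw_isProb B 4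
  have hm := m_eq B
  have swap : ∀ (i j : Fin 4) {S : Type} (Y : (Fin 4 → B.T) → S),
      cent (pw B 4) (KK B i j) Y = cent (pw B 4) (KK B j i) Y := by
    intro i j S Y
    refine cent_congr (fun _ _ => Iff.rfl) (fun ω ω' _ => ?_)
    rw [KK_comm B i j, KK_comm B i j]
  -- two elementary values
  have v210 : cent (pw B 4) (KK B 2 1) (fun x => (x 2, x 0)) = c2 B := c2_eq B 2 1 0 (by decide)
  refine ⟨(B.prod (B.prod B)).F l Ψ, B.m - c2 B, B.m - c3 B,
    cent (pw B 4) (fun x => (KK B 2 0 x, KK B 2 1 x)) (fun x => (x 0, x 1)),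
    cent (pw B 4) (fun x => (KK B 3 0 x, KK B 3 1 x)) (fun x => (x 0, x 1, x 2)),
    ?_, ?_, ?_, ?_, ?_, ?_, ?_, ?_⟩
  · -- (1)
    have h1 := gain2 hg B
    have h2 := cent_chain (P := pw B 4) (KK B 2 0) (KK B 2 1) (fun x => x 2)
    have h3 : cent (pw B 4) (KK B 2 1) (fun x => (x 2, x 0))
        ≤ cent (pw B 4) (KK B 2 1) (fun x => (KK B 2 0 x, x 2)) := by
      apply cent_anti hP
      intro ω ω' h
      simp only [Prod.mk.injEq] at h ⊢
      exact ⟨KK_congr B 2 0 h.1 h.2, h.1⟩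
    have h4 := c1_eq B 2 0 (by decide)
    linarith
  · -- (2)
    have h1 := cent_subadd hP (KK B 2 0) (KK B 2 1) (fun x => (x 0, x 1))
    have h2 : cent (pw B 4) (KK B 2 0) (fun x => (x 0, x 1)) = c2 B := by
      rw [swap 2 0, c2_eq B 0 2 1 (by decide)]
    have h3 : cent (pw B 4) (KK B 2 1) (fun x => (x 0, x 1)) = c2 B := by
      rw [swap 2 1, ← c2_eq B 1 2 0 (by decide)]
      refine cent_congr (fun ω ω' => ?_) (fun _ _ _ => Iff.rfl)
      simp only [Prod.mk.injEq]; tauto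
    linarith
  · -- (3)
    have h1 := gain3 hg B
    have h2 := cent_chain (P := pw B 4) (KK B 3 0) (fun x => (KK B 3 1 x, KK B 3 2 x))
      (fun x => x 3)
    have h3 := cent_chain (P := pw B 4) (KK B 3 1) (KK B 3 2) (fun x => (KK B 3 0 x, x 3))
    have h4 : cent (pw B 4) (KK B 3 1) (fun x => (x 3, x 0))
        ≤ cent (pw B 4) (KK B 3 1) (fun x => (KK B 3 0 x, x 3)) := by
      apply cent_anti hP
      intro ω ω' h
      simp only [Prod.mk.injEq] at h ⊢
      exact ⟨KK_congr B 3 0 h.1 h.2, h.1⟩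
    have h5 : cent (pw B 4) (KK B 3 2) (fun x => (x 3, x 0, x 1))
        ≤ cent (pw B 4) (KK B 3 2) (fun x => (KK B 3 1 x, (KK B 3 0 x, x 3))) := by
      apply cent_anti hP
      intro ω ω' h
      simp only [Prod.mk.injEq] at h ⊢
      exact ⟨KK_congr B 3 1 h.1 h.2.2, KK_congr B 3 0 h.1 h.2.1, h.1⟩
    have h6 := c1_eq B 3 0 (by decide)
    have h7 := c2_eq B 3 1 0 (by decide)
    have h8 := c3_eq B 3 2 0 1 (by decide)
    -- upper bound
    have h9 : cent (pw B 4) (fun x => (KK B 3 0 x, KK B 3 1 x, KK B 3 2 x))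
        (fun x => (x 0, x 1, x 2))
        = cent (pw B 4) (fun x => ((KK B 3 0 x, KK B 3 1 x), KK B 3 2 x))
        (fun x => (x 0, x 1, x 2)) := by
      refine cent_congr (fun _ _ => Iff.rfl) (fun ω ω' _ => ?_)
      simp only [Prod.mk.injEq]; tauto
    have h10 := cent_subadd hP (fun x => (KK B 3 0 x, KK B 3 1 x)) (KK B 3 2)
      (fun x => (x 0, x 1, x 2))
    have h11 : cent (pw B 4) (KK B 3 2) (fun x => (x 0, x 1, x 2)) = c3 B := by
      rw [swap 3 2, ← c3_eq B 2 3 0 1 (by decide)]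
      refine cent_congr (fun ω ω' => ?_) (fun _ _ _ => Iff.rfl)
      simp only [Prod.mk.injEq]; tauto
    rw [h9] at h1
    have hcoef : (0 : ℝ) ≤ 1 + 3 / (lam * rho) := by positivity
    have h12 : cent (pw B 4) (fun x => ((KK B 3 0 x, KK B 3 1 x), KK B 3 2 x))
        (fun x => (x 0, x 1, x 2))
        ≤ cent (pw B 4) (fun x => (KK B 3 0 x, KK B 3 1 x)) (fun x => (x 0, x 1, x 2)) + c3 B := by
      rw [← h11]; exact h10
    have h13 := mul_le_mul_of_nonneg_left h12 hcoef
    have h14 : c1 B + c2 B + c3 B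
        ≤ cent (pw B 4) (fun x => (KK B 3 0 x, KK B 3 1 x, KK B 3 2 x)) (fun x => x 3) := by
      linarith
    have h15 : 3 * B.m - (B.m - c2 B) - (B.m - c3 B) = c1 B + c2 B + c3 B := by
      rw [hm]; ring
    rw [h15]
    have h16 : B.m - (B.m - c3 B) = c3 B := by ring
    rw [h16]
    linarith [h1, h13, h14]
  · -- (4)
    have h1 := cent_subadd hP (KK B 3 0) (KK B 3 1) (fun x => (x 0, x 1, x 2))
    have h2 : cent (pw B 4) (KK B 3 0) (fun x => (x 0, x 1, x 2)) = c3 B := by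
      rw [swap 3 0, c3_eq B 0 3 1 2 (by decide)]
    have h3 : cent (pw B 4) (KK B 3 1) (fun x => (x 0, x 1, x 2)) = c3 B := by
      rw [swap 3 1, ← c3_eq B 1 3 0 2 (by decide)]
      refine cent_congr (fun ω ω' => ?_) (fun _ _ _ => Iff.rfl)
      simp only [Prod.mk.injEq]; tauto
    linarith
  · -- 0 ≤ t1
    have h1 : cent (pw B 4) (KK B 0 1) (fun x => (x 0, x 2))
        ≤ cent (pw B 4) (KK B 0 1) (fun x => x 0) := by
      apply cent_anti hP
      intro ω ω' h
      simp only [Prod.mk.injEq] at h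
      exact h.1
    have h2 := c1_eq B 0 1 (by decide)
    have h3 := c2_eq B 0 1 2 (by decide)
    linarith
  · -- t1 ≤ t2
    have h1 : cent (pw B 4) (KK B 0 1) (fun x => (x 0, x 2, x 3))
        ≤ cent (pw B 4) (KK B 0 1) (fun x => (x 0, x 2)) := by
      apply cent_anti hP
      intro ω ω' h
      simp only [Prod.mk.injEq] at h ⊢
      exact ⟨h.1, h.2.1⟩
    have h2 := c2_eq B 0 1 2 (by decide)
    have h3 := c3_eq B 0 1 2 3 (by decide)
    linarith
  · -- (6)
    exact ineq6 B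
  · -- (9)
    rw [hm]
    exact gain1 hg B

end blocks

end Crest.Agent.R055.Ch
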