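import Mathlib

/-!
# R055 / Energy : the energy lemma (blueprint v2 of helper538, proof idea helper521)

For a joint law `Q` of `(b, y)` with `y` a tuple of subsets of `U b`:
`H(y) - 2 I(b;y) ≤ log ρ · E ∑|y_i| + (n/ρ) · E_y ∑_e P(e ∈ U b | y)²`.
-/

set_option autoImplicit false

namespace Crest.Agent.R055

open Finset Real

/-- Gibbs' inequality, one term. -/
lemma mul_log_sub_le {w q : ℝ} (hw : 0 ≤ w) (hq : 0 ≤ q) (h : w ≠ 0 → q ≠ 0) :
    w * (log q - log w) ≤ q - w := by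
  rcases hw.eq_or_lt with h0 | h0
  · rw [← h0]; simpa using hq
  · have hq0 : 0 < q := lt_of_le_of_ne hq (Ne.symm (h h0.ne'))
    have h1 : log (q / w) ≤ q / w - 1 := log_le_sub_one_of_pos (by positivity)
    rw [log_div hq0.ne' h0.ne'] at h1
    have h2 := mul_le_mul_of_nonneg_left h1 h0.le
    have h3 : w * (q / w - 1) = q - w := by field_simp
    linarith

/-- sum over tuples of subsets of `V` of `∏ ρ^{-|y_i|}`. -/
lemma sum_tuples_pow {E : Type*} [Fintype E] [DecidableEq E] (n : ℕ) (V : Finset E) (x : ℝ) :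
    ∑ y : Fin n → Finset E, (if ∀ i, y i ⊆ V then ∏ i, x ^ (y i).card else 0) =
      (1 + x) ^ (n * V.card) := by
  classical
  rw [← Finset.sum_filter]
  have h1 : (Finset.univ.filter fun y : Fin n → Finset E => ∀ i, y i ⊆ V) =
      Fintype.piFinset fun _ : Fin n => V.powerset := by
    ext y
    simp [Fintype.mem_piFinset]
  rw [h1, ← Finset.prod_univ_sum (fun _ : Fin n => V.powerset) (fun _ s => x ^ s.card)]
  have h2 : ∑ s ∈ V.powerset, x ^ s.card = (1 + x) ^ V.card := by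
    rw [Finset.sum_powerset_apply_card (fun k => x ^ k), add_comm (1 : ℝ) x, add_pow]
    refine Finset.sum_congr rfl fun k _ => ?_
    simp [nsmul_eq_mul, mul_comm]
  rw [Finset.prod_const, h2, Finset.card_univ, Fintype.card_fin, ← pow_mul, mul_comm]

section energy
variable {T E : Type*} [Fintype T] [Fintype E] [DecidableEq E] {n : ℕ}

/-- The energy lemma: `H(y) - 2 I(b;y) ≤ log ρ · E ∑|y_i| + (n/ρ) · κ`. -/
theorem energy_lemma (U : T → Finset E) (Q : T → (Fin n → Finset E) → ℝ)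
    (hQ0 : ∀ b y, 0 ≤ Q b y) (hQ1 : ∑ b, ∑ y, Q b y = 1)
    (hsupp : ∀ b y, Q b y ≠ 0 → ∀ i, y i ⊆ U b) (ρ : ℝ) (hρ : 0 < ρ) :
    2 * ∑ b, ∑ y, negMulLog (Q b y) - 2 * ∑ b, negMulLog (∑ y, Q b y)
        - ∑ y, negMulLog (∑ b, Q b y) ≤
      Real.log ρ * ∑ b, ∑ y, Q b y * ∑ i, ((y i).card : ℝ) +
        n / ρ * ∑ y, ∑ e, (∑ b, if e ∈ U b then Q b y else 0) ^ 2 / ∑ b, Q b y := by
  classical
  set Qb : T → ℝ := fun b => ∑ y, Q b y with hQb
  set Qy : (Fin n → Finset E) → ℝ := fun y => ∑ b, Q b y with hQy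
  have hQb0 : ∀ b, 0 ≤ Qb b := fun b => Finset.sum_nonneg fun y _ => hQ0 b y
  have hQy0 : ∀ y, 0 ≤ Qy y := fun y => Finset.sum_nonneg fun b _ => hQ0 b y
  have hQb_pos : ∀ b y, Q b y ≠ 0 → 0 < Qb b := fun b y h =>
    lt_of_lt_of_le (lt_of_le_of_ne (hQ0 b y) (Ne.symm h))
      (Finset.single_le_sum (f := fun y => Q b y) (fun y _ => hQ0 b y) (Finset.mem_univ y))
  have hQy_pos : ∀ b y, Q b y ≠ 0 → 0 < Qy y := fun b y h =>
    lt_of_lt_of_le (lt_of_le_of_ne (hQ0 b y) (Ne.symm h))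
      (Finset.single_le_sum (f := fun b => Q b y) (fun b _ => hQ0 b y) (Finset.mem_univ b))
  have hQyz : ∀ b y, Qy y = 0 → Q b y = 0 := fun b y h => by
    by_contra hne
    exact absurd h (hQy_pos b y hne).ne'
  set w : T → T → (Fin n → Finset E) → ℝ := fun b1 b2 y => Q b1 y * Q b2 y / Qy y with hw
  have hw0 : ∀ b1 b2 y, 0 ≤ w b1 b2 y := fun b1 b2 y =>
    div_nonneg (mul_nonneg (hQ0 _ _) (hQ0 _ _)) (hQy0 _)
  -- marginalisation of `w`
  have hwm : ∀ b1 y, ∑ b2, w b1 b2 y = Q b1 y := by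
    intro b1 y
    simp only [hw]
    rw [← Finset.sum_div, ← Finset.mul_sum]
    by_cases h : Qy y = 0
    · rw [hQyz b1 y h]; simp
    · exact mul_div_cancel_right₀ _ h
  have hwsymm : ∀ b1 b2 y, w b1 b2 y = w b2 b1 y := by
    intro b1 b2 y; simp only [hw]; rw [mul_comm (Q b1 y)]
  -- the comparison function
  set x : ℝ := 1 / ρ with hx
  have hx0 : 0 < x := by positivity
  set q : T → T → (Fin n → Finset E) → ℝ := fun b1 b2 y =>
    Qb b1 * Qb b2 / (1 + x) ^ (n * (U b1 ∩ U b2).card) *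
      (if ∀ i, y i ⊆ U b1 ∩ U b2 then ∏ i, x ^ (y i).card else 0) with hq
  have hq0 : ∀ b1 b2 y, 0 ≤ q b1 b2 y := by
    intro b1 b2 y
    simp only [hq]
    refine mul_nonneg (div_nonneg (mul_nonneg (hQb0 _) (hQb0 _)) (by positivity)) ?_
    split_ifs
    · exact Finset.prod_nonneg fun i _ => by positivity
    · exact le_rfl
  have hwne : ∀ b1 b2 y, w b1 b2 y ≠ 0 → Q b1 y ≠ 0 ∧ Q b2 y ≠ 0 := by
    intro b1 b2 y h
    constructor
    · intro h1; apply h; simp only [hw]; rw [h1]; simp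
    · intro h1; apply h; simp only [hw]; rw [h1]; simp
  have hcond : ∀ b1 b2 y, w b1 b2 y ≠ 0 → ∀ i, y i ⊆ U b1 ∩ U b2 := by
    intro b1 b2 y h i
    exact Finset.subset_inter (hsupp b1 y (hwne b1 b2 y h).1 i) (hsupp b2 y (hwne b1 b2 y h).2 i)
  have hqne : ∀ b1 b2 y, w b1 b2 y ≠ 0 → 0 < q b1 b2 y := by
    intro b1 b2 y h
    simp only [hq]
    rw [if_pos (hcond b1 b2 y h)]
    have h1 := hQb_pos b1 y (hwne b1 b2 y h).1
    have h2 := hQb_pos b2 y (hwne b1 b2 y h).2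
    positivity
  have hterm : ∀ b1 b2 y, w b1 b2 y * (Real.log (q b1 b2 y) - Real.log (w b1 b2 y)) ≤
      q b1 b2 y - w b1 b2 y := fun b1 b2 y =>
    mul_log_sub_le (hw0 _ _ _) (hq0 _ _ _) fun h => (hqne b1 b2 y h).ne'
  -- total masses
  have hqsum : ∑ b1, ∑ b2, ∑ y, q b1 b2 y = 1 := by
    have h1 : ∀ b1 b2, ∑ y, q b1 b2 y = Qb b1 * Qb b2 := by
      intro b1 b2
      simp only [hq]
      rw [← Finset.mul_sum, sum_tuples_pow]
      have : (1 + x) ^ (n * (U b1 ∩ U b2).card) ≠ 0 := by positivity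
      field_simp
    simp only [h1]
    have h2 : ∑ b, Qb b = 1 := hQ1
    simp only [← Finset.mul_sum, h2, mul_one]
  have hwsum : ∑ b1, ∑ b2, ∑ y, w b1 b2 y = 1 := by
    have h1 : ∀ b1, ∑ b2, ∑ y, w b1 b2 y = ∑ y, Q b1 y := by
      intro b1
      rw [Finset.sum_comm]
      exact Finset.sum_congr rfl fun y _ => hwm b1 y
    simp only [h1]
    exact hQ1
  -- Gibbs
  have hG : ∑ b1, ∑ b2, ∑ y, w b1 b2 y * (Real.log (q b1 b2 y) - Real.log (w b1 b2 y)) ≤ 0 := by
    calc ∑ b1, ∑ b2, ∑ y, w b1 b2 y * (Real.log (q b1 b2 y) - Real.log (w b1 b2 y))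
        ≤ ∑ b1, ∑ b2, ∑ y, (q b1 b2 y - w b1 b2 y) :=
          Finset.sum_le_sum fun b1 _ => Finset.sum_le_sum fun b2 _ =>
            Finset.sum_le_sum fun y _ => hterm b1 b2 y
      _ = 0 := by
          simp only [Finset.sum_sub_distrib]
          rw [hqsum, hwsum, sub_self]
  -- expansion of the logarithms
  set α : T → (Fin n → Finset E) → ℝ := fun b y => Real.log (Qb b) - Real.log (Q b y) with hα
  set β : (Fin n → Finset E) → ℝ := fun y =>
    Real.log (Qy y) - Real.log ρ * ∑ i, ((y i).card : ℝ) with hβ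
  set γ : T → T → ℝ := fun b1 b2 =>
    (n : ℝ) * ((U b1 ∩ U b2).card : ℝ) * Real.log (1 + x) with hγ
  have hexp : ∀ b1 b2 y, w b1 b2 y * (Real.log (q b1 b2 y) - Real.log (w b1 b2 y)) =
      w b1 b2 y * (α b1 y + α b2 y + β y - γ b1 b2) := by
    intro b1 b2 y
    by_cases h : w b1 b2 y = 0
    · rw [h]; simp
    · congr 1
      have hb1 := (hwne b1 b2 y h).1
      have hb2 := (hwne b1 b2 y h).2
      have e1 : Real.log (w b1 b2 y) =
          Real.log (Q b1 y) + Real.log (Q b2 y) - Real.log (Qy y) := by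
        simp only [hw]
        rw [Real.log_div (mul_ne_zero hb1 hb2) (hQy_pos b1 y hb1).ne', Real.log_mul hb1 hb2]
      have e2 : Real.log (∏ i, x ^ (y i).card) = - (Real.log ρ * ∑ i, ((y i).card : ℝ)) := by
        rw [Real.log_prod (fun i _ => (pow_pos hx0 _).ne')]
        simp only [Real.log_pow, hx, one_div, Real.log_inv]
        rw [← Finset.sum_mul]
        ring
      have hQ1' := (hQb_pos b1 y hb1).ne'
      have hQ2' := (hQb_pos b2 y hb2).ne'
      have h1x : (1 + x) ^ (n * (U b1 ∩ U b2).card) ≠ 0 := by positivity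
      have hprod : ∏ i, x ^ (y i).card ≠ 0 := Finset.prod_ne_zero_iff.2 fun i _ => (pow_pos hx0 _).ne'
      have e3 : Real.log (q b1 b2 y) = Real.log (Qb b1) + Real.log (Qb b2)
          - γ b1 b2 - Real.log ρ * ∑ i, ((y i).card : ℝ) := by
        simp only [hq]
        rw [if_pos (hcond b1 b2 y h), Real.log_mul (div_ne_zero (mul_ne_zero hQ1' hQ2') h1x) hprod,
          Real.log_div (mul_ne_zero hQ1' hQ2') h1x, Real.log_mul hQ1' hQ2', e2, Real.log_pow]
        simp only [hγ]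
        push_cast
        ring
      rw [e1, e3]
      simp only [hα, hβ]
      ring
  simp only [hexp] at hG
  -- evaluate the sum
  have hA1 : ∑ b1, ∑ b2, ∑ y, w b1 b2 y * α b1 y = ∑ b, ∑ y, Q b y * α b y := by
    refine Finset.sum_congr rfl fun b1 _ => ?_
    rw [Finset.sum_comm]
    refine Finset.sum_congr rfl fun y _ => ?_
    rw [← Finset.sum_mul, hwm]
  have hA2 : ∑ b1, ∑ b2, ∑ y, w b1 b2 y * α b2 y = ∑ b, ∑ y, Q b y * α b y := by
    rw [Finset.sum_comm, ← hA1]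
    refine Finset.sum_congr rfl fun b1 _ => Finset.sum_congr rfl fun b2 _ =>
      Finset.sum_congr rfl fun y _ => ?_
    rw [hwsymm b2 b1 y]
  have hB : ∑ b1, ∑ b2, ∑ y, w b1 b2 y * β y = ∑ b, ∑ y, Q b y * β y := by
    refine Finset.sum_congr rfl fun b1 _ => ?_
    rw [Finset.sum_comm]
    refine Finset.sum_congr rfl fun y _ => ?_
    rw [← Finset.sum_mul, hwm]
  have hsplit : ∑ b1, ∑ b2, ∑ y, w b1 b2 y * (α b1 y + α b2 y + β y - γ b1 b2) =
      2 * ∑ b, ∑ y, Q b y * α b y + ∑ b, ∑ y, Q b y * β y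
        - ∑ b1, ∑ b2, ∑ y, w b1 b2 y * γ b1 b2 := by
    have : ∀ b1 b2 y, w b1 b2 y * (α b1 y + α b2 y + β y - γ b1 b2) =
        w b1 b2 y * α b1 y + w b1 b2 y * α b2 y + w b1 b2 y * β y - w b1 b2 y * γ b1 b2 := by
      intro b1 b2 y; ring
    simp only [this, Finset.sum_add_distrib, Finset.sum_sub_distrib]
    rw [hA1, hA2, hB]
    ring
  rw [hsplit] at hG
  -- entropies
  have hE1 : ∑ b, ∑ y, Q b y * α b y =
      ∑ b, ∑ y, negMulLog (Q b y) - ∑ b, negMulLog (Qb b) := by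
    simp only [hα, mul_sub, Finset.sum_sub_distrib, negMulLog]
    have h1 : ∀ b, ∑ y, Q b y * Real.log (Qb b) = Qb b * Real.log (Qb b) := fun b => by
      rw [← Finset.sum_mul]
    simp only [h1, neg_mul, Finset.sum_neg_distrib]
    ring
  have hE2 : ∑ b, ∑ y, Q b y * β y =
      - ∑ y, negMulLog (Qy y) - Real.log ρ * ∑ b, ∑ y, Q b y * ∑ i, ((y i).card : ℝ) := by
    simp only [hβ, mul_sub, Finset.sum_sub_distrib, negMulLog]
    have h1 : ∑ b, ∑ y, Q b y * Real.log (Qy y) = ∑ y, Qy y * Real.log (Qy y) := by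
      rw [Finset.sum_comm]
      refine Finset.sum_congr rfl fun y _ => ?_
      rw [← Finset.sum_mul]
    have h2 : ∑ b, ∑ y, Q b y * (Real.log ρ * ∑ i, ((y i).card : ℝ)) =
        Real.log ρ * ∑ b, ∑ y, Q b y * ∑ i, ((y i).card : ℝ) := by
      simp only [Finset.mul_sum]
      refine Finset.sum_congr rfl fun b _ => Finset.sum_congr rfl fun y _ =>
        Finset.sum_congr rfl fun i _ => ?_
      ring
    rw [h1, h2]
    simp only [neg_mul, Finset.sum_neg_distrib, neg_neg]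
  -- the energy term
  have hκ : ∑ b1, ∑ b2, ∑ y, w b1 b2 y * ((U b1 ∩ U b2).card : ℝ) =
      ∑ y, ∑ e, (∑ b, if e ∈ U b then Q b y else 0) ^ 2 / Qy y := by
    have h1 : ∀ b1 b2, ((U b1 ∩ U b2).card : ℝ) =
        ∑ e, (if e ∈ U b1 then (1 : ℝ) else 0) * (if e ∈ U b2 then 1 else 0) := by
      intro b1 b2
      rw [Finset.card_eq_sum_ones, Nat.cast_sum, ← Finset.sum_filter_add_sum_filter_not
        (Finset.univ : Finset E) (fun e => e ∈ U b1 ∩ U b2)]
      have h2 : ∑ e ∈ Finset.univ.filter (fun e => ¬ e ∈ U b1 ∩ U b2),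
          (if e ∈ U b1 then (1 : ℝ) else 0) * (if e ∈ U b2 then 1 else 0) = 0 := by
        refine Finset.sum_eq_zero fun e he => ?_
        rw [Finset.mem_filter, Finset.mem_inter, not_and_or] at he
        rcases he.2 with h | h <;> simp [h]
      rw [h2, add_zero]
      have h3 : (Finset.univ.filter fun e => e ∈ U b1 ∩ U b2) = U b1 ∩ U b2 := by
        ext e; simp
      rw [h3]
      refine Finset.sum_congr rfl fun e he => ?_
      rw [Finset.mem_inter] at he
      simp [he.1, he.2]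
    have h4 : ∀ y, ∑ b1, ∑ b2, w b1 b2 y * ((U b1 ∩ U b2).card : ℝ) =
        ∑ e, (∑ b, if e ∈ U b then Q b y else 0) ^ 2 / Qy y := by
      intro y
      simp only [h1, Finset.mul_sum]
      have h5 : ∀ e, (∑ b, if e ∈ U b then Q b y else 0) ^ 2 / Qy y =
          ∑ b1, ∑ b2, w b1 b2 y * ((if e ∈ U b1 then (1 : ℝ) else 0) *
            (if e ∈ U b2 then 1 else 0)) := by
        intro e
        rw [sq, Finset.sum_mul_sum, Finset.sum_div]
        refine Finset.sum_congr rfl fun b1 _ => ?_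
        rw [Finset.sum_div]
        refine Finset.sum_congr rfl fun b2 _ => ?_
        simp only [hw]
        split_ifs <;> simp
      simp only [h5]
      calc ∑ b1, ∑ b2, ∑ e, w b1 b2 y * ((if e ∈ U b1 then (1 : ℝ) else 0) *
            (if e ∈ U b2 then 1 else 0))
          = ∑ b1, ∑ e, ∑ b2, w b1 b2 y * ((if e ∈ U b1 then (1 : ℝ) else 0) *
            (if e ∈ U b2 then 1 else 0)) := Finset.sum_congr rfl fun b1 _ => Finset.sum_comm
        _ = _ := Finset.sum_comm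
    calc ∑ b1, ∑ b2, ∑ y, w b1 b2 y * ((U b1 ∩ U b2).card : ℝ)
        = ∑ b1, ∑ y, ∑ b2, w b1 b2 y * ((U b1 ∩ U b2).card : ℝ) :=
          Finset.sum_congr rfl fun b1 _ => Finset.sum_comm
      _ = ∑ y, ∑ b1, ∑ b2, w b1 b2 y * ((U b1 ∩ U b2).card : ℝ) := Finset.sum_comm
      _ = _ := Finset.sum_congr rfl fun y _ => h4 y
  set κ : ℝ := ∑ y, ∑ e, (∑ b, if e ∈ U b then Q b y else 0) ^ 2 / Qy y with hκdef
  have hκ0 : 0 ≤ κ := Finset.sum_nonneg fun y _ => Finset.sum_nonneg fun e _ =>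
    div_nonneg (sq_nonneg _) (hQy0 y)
  have hΓ : ∑ b1, ∑ b2, ∑ y, w b1 b2 y * γ b1 b2 = n * Real.log (1 + x) * κ := by
    rw [← hκ]
    simp only [Finset.mul_sum, hγ]
    refine Finset.sum_congr rfl fun b1 _ => Finset.sum_congr rfl fun b2 _ =>
      Finset.sum_congr rfl fun y _ => ?_
    ring
  have hlog : Real.log (1 + x) ≤ x := by
    have := Real.log_le_sub_one_of_pos (show (0 : ℝ) < 1 + x by positivity)
    linarith
  have hfin : (n : ℝ) * Real.log (1 + x) * κ ≤ n / ρ * κ := by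
    refine mul_le_mul_of_nonneg_right ?_ hκ0
    have h1 := mul_le_mul_of_nonneg_left hlog (Nat.cast_nonneg (α := ℝ) n)
    refine h1.trans (le_of_eq ?_)
    simp only [hx]
    ring
  rw [hΓ, hE1, hE2] at hG
  linarith

end energy

end Crest.Agent.R055
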