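import Mathlib
import Crest.Agent.R055.Ent
import Crest.Agent.R055.Defs

/-! Row 55: transport of entropies along push-forwards, product/coordinate selections of blocks,
conditional Gibbs inequality, marking bound, `hl`, `log card`. -/

set_option autoImplicit false
open Finset Real
open scoped Pointwise

namespace Crest.Agent.R055

/-! ### Push-forwards of weights -/

open Classical in
/-- `φ` pushes the weight `P'` forward to `P`. -/
def Pushes {Ω' Ω : Type*} [Fintype Ω'] (φ : Ω' → Ω) (P' : Ω' → ℝ) (P : Ω → ℝ) : Prop :=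
  ∀ ω, (∑ ω', if φ ω' = ω then P' ω' else 0) = P ω

lemma Pushes.of_dec {Ω' Ω : Type*} [Fintype Ω'] [DecidableEq Ω] {φ : Ω' → Ω} {P' : Ω' → ℝ}
    {P : Ω → ℝ} (h : ∀ ω, (∑ ω', if φ ω' = ω then P' ω' else 0) = P ω) : Pushes φ P' P := by
  intro ω
  rw [← h ω]
  apply Finset.sum_congr rfl
  intro i _
  congr

namespace Pushes

variable {Ω' Ω Ω₀ : Type*} [Fintype Ω'] [Fintype Ω] {φ : Ω' → Ω} {P' : Ω' → ℝ} {P : Ω → ℝ}

lemma sum_mul (h : Pushes φ P' P) (f : Ω → ℝ) :
    ∑ ω', P' ω' * f (φ ω') = ∑ ω, P ω * f ω := by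
  classical
  have h1 : ∀ ω, P ω * f ω = ∑ ω', if φ ω' = ω then P' ω' * f (φ ω') else 0 := by
    intro ω
    rw [← h ω, Finset.sum_mul]
    apply Finset.sum_congr rfl
    intro i _
    by_cases hi : φ i = ω
    · simp [hi]
    · simp [hi]
  simp_rw [h1]
  rw [Finset.sum_comm]
  apply Finset.sum_congr rfl
  intro i _
  simp

lemma sum_eq (h : Pushes φ P' P) : ∑ ω', P' ω' = ∑ ω, P ω := by
  have := h.sum_mul (fun _ => 1)
  simpa using this

lemma comp {ρ : Ω → Ω₀} {P₀ : Ω₀ → ℝ} (h : Pushes φ P' P) (h₀ : Pushes ρ P P₀) :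
    Pushes (fun ω' => ρ (φ ω')) P' P₀ := by
  classical
  intro ω₀
  rw [← h₀ ω₀]
  have := h.sum_mul (fun ω => if ρ ω = ω₀ then (1 : ℝ) else 0)
  simp only [mul_ite, mul_one, mul_zero] at this
  convert this using 1

lemma nonneg (h : Pushes φ P' P) (h' : ∀ ω', 0 ≤ P' ω') (ω : Ω) : 0 ≤ P ω := by
  classical
  rw [← h ω]
  apply Finset.sum_nonneg
  intro i _
  split_ifs
  · exact h' i
  · exact le_rfl

lemma isProb (h : Pushes φ P' P) (h' : IsProb P') : IsProb P :=
  ⟨h.nonneg h'.nonneg, by rw [← h.sum_eq, h'.sum_eq]⟩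

lemma cls_eq {S : Type*} (h : Pushes φ P' P) (X : Ω → S) (ω' : Ω') :
    cls P' (fun w => X (φ w)) ω' = cls P X (φ ω') := by
  classical
  have := h.sum_mul (fun ω => if X ω = X (φ ω') then (1 : ℝ) else 0)
  simp only [mul_ite, mul_one, mul_zero] at this
  unfold cls
  convert this using 1

/-- entropy of a function of the push-forward. -/
lemma ent_eq {S : Type*} (h : Pushes φ P' P) (X : Ω → S) :
    ent P' (fun w => X (φ w)) = ent P X := by
  unfold ent
  rw [← h.sum_mul (fun ω => - Real.log (cls P X ω))]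
  apply Finset.sum_congr rfl
  intro i _
  rw [h.cls_eq]

/-- a flexible version of `ent_eq`: the variables only have to generate the same partition. -/
lemma ent_eq' {S S' : Type*} (h : Pushes φ P' P) (X : Ω → S) (Y : Ω' → S')
    (hXY : ∀ ω₁ ω₂, X (φ ω₂) = X (φ ω₁) ↔ Y ω₂ = Y ω₁) : ent P' Y = ent P X := by
  rw [← h.ent_eq X]
  exact ent_congr (fun a b => (hXY a b).symm)

lemma ecard_eq {E : Type} (h : Pushes φ P' P) (U : Ω → Finset E) :
    ecard P' (fun w => U (φ w)) = ecard P U :=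
  h.sum_mul (fun ω => ((U ω).card : ℝ))

lemma id : Pushes (fun ω : Ω => ω) P P := by
  classical
  intro ω
  rw [Finset.sum_ite_eq' Finset.univ ω P]
  simp

lemma of_equiv (e : Ω' ≃ Ω) (h : ∀ ω', P (e ω') = P' ω') : Pushes e P' P := by
  classical
  intro ω
  rw [Finset.sum_eq_single (e.symm ω)]
  · simp [← h]
  · intro b _ hb
    rw [if_neg]
    intro hcon
    apply hb
    rw [← hcon]
    simp
  · intro hcon
    exact absurd (Finset.mem_univ _) hcon

end Pushes

/-! ### the entropy is `hl` of the law -/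

section hl

variable {Ω : Type*} [Fintype Ω] {S : Type*} [Fintype S] {P : Ω → ℝ}

lemma ent_self (P : Ω → ℝ) : ent P (fun ω => ω) = hl P := by
  classical
  unfold ent hl cls
  apply Finset.sum_congr rfl
  intro i _
  have : (∑ ω', if ω' = i then P ω' else 0) = P i := by simp
  rw [Real.negMulLog]
  have h2 : (∑ ω', @ite ℝ (ω' = i) (Classical.propDecidable _) (P ω') 0) = P i := by
    rw [← this]
  rw [h2]
  ring

lemma Pushes.ent_eq_hl {X : Ω → S} {w : S → ℝ} (h : Pushes X P w) : ent P X = hl w := by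
  rw [← ent_self w, ← h.ent_eq (fun s => s)]

open Classical in
/-- the law of a random variable -/
noncomputable def lawOf (P : Ω → ℝ) (X : Ω → S) : S → ℝ :=
  fun s => ∑ ω, if X ω = s then P ω else 0

lemma pushes_lawOf (P : Ω → ℝ) (X : Ω → S) : Pushes X P (lawOf P X) := fun _ => rfl

lemma ent_eq_hl_lawOf (P : Ω → ℝ) (X : Ω → S) : ent P X = hl (lawOf P X) :=
  (pushes_lawOf P X).ent_eq_hl

lemma lawOf_isProb (h : IsProb P) (X : Ω → S) : IsProb (lawOf P X) :=
  (pushes_lawOf P X).isProb h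

/-- injective relabelling does not change `hl` -/
lemma hl_equiv {Ω' : Type*} [Fintype Ω'] (e : Ω' ≃ Ω) (P : Ω → ℝ) :
    hl (fun w => P (e w)) = hl P := by
  unfold hl
  exact Equiv.sum_comp e (fun w => Real.negMulLog (P w))

end hl

/-! ### conditional Gibbs inequality, bounds by counting -/

section gibbs

variable {Ω : Type*} [Fintype Ω] {P : Ω → ℝ}

/-- Conditional Gibbs inequality: for any conditional sub-probability `q (· | z)`,
`H(X | Z) ≤ E[- log q(X | Z)]`. -/
lemma cond_gibbs {S R : Type*} [Fintype S] (hP : IsProb P) (X : Ω → S) (Z : Ω → R)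
    (q : S → R → ℝ) (hq0 : ∀ ω s, 0 ≤ q s (Z ω)) (hq : ∀ ω, ∑ s, q s (Z ω) ≤ 1)
    (hpos : ∀ ω, 0 < P ω → 0 < q (X ω) (Z ω)) :
    ent P (fun ω => (X ω, Z ω)) - ent P Z ≤ ∑ ω, P ω * (- Real.log (q (X ω) (Z ω))) := by
  classical
  have h0 := hP.nonneg
  set XZ : Ω → S × R := fun ω => (X ω, Z ω) with hXZ
  set r : Ω → ℝ := fun ω => q (X ω) (Z ω) * cls P Z ω / cls P XZ ω with hr
  have hrpos : ∀ ω, 0 < P ω → 0 < r ω := by
    intro ω hω
    have h1 := cls_pos h0 XZ hω
    have h2 := cls_pos h0 Z hω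
    have h3 := hpos ω hω
    simp only [hr]
    positivity
  have key : ∑ ω, P ω * r ω ≤ 1 := by
    have e1 : ∀ ω, P ω * r ω = ∑ ω', P ω' *
        ((∑ s, if (s, Z ω') = XZ ω then q s (Z ω') else 0) * (P ω / cls P XZ ω)) := by
      intro ω
      have hh : (∑ ω', if Z ω' = Z ω then P ω' else 0) = cls P Z ω := by
        unfold cls; apply Finset.sum_congr rfl; intro i _; congr
      have : P ω * r ω = (∑ ω', if Z ω' = Z ω then P ω' else 0) *
          (q (X ω) (Z ω) * (P ω / cls P XZ ω)) := by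
        rw [hh]
        simp only [hr]
        ring
      rw [this, Finset.sum_mul]
      apply Finset.sum_congr rfl
      intro ω' _
      by_cases hz : Z ω' = Z ω
      · simp only [hz, if_true, hXZ, Prod.mk.injEq, and_true]
        simp
      · simp only [hz, if_false, hXZ, Prod.mk.injEq, and_false]
        simp
    simp_rw [e1]
    rw [Finset.sum_comm]
    simp_rw [← Finset.mul_sum]
    have e2 : ∀ ω', ∑ ω, (∑ s, if (s, Z ω') = XZ ω then q s (Z ω') else 0) * (P ω / cls P XZ ω)
        ≤ 1 := by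
      intro ω'
      simp_rw [Finset.sum_mul]
      rw [Finset.sum_comm]
      refine le_trans (Finset.sum_le_sum (fun s _ => ?_)) (hq ω')
      have : ∑ ω, (if (s, Z ω') = XZ ω then q s (Z ω') else 0) * (P ω / cls P XZ ω)
          = q s (Z ω') * ∑ ω, (if XZ ω = (s, Z ω') then P ω / cls P XZ ω else 0) := by
        rw [Finset.mul_sum]
        apply Finset.sum_congr rfl
        intro ω _
        by_cases h : XZ ω = (s, Z ω')
        · rw [if_pos h, if_pos h.symm]
        · rw [if_neg h, if_neg (fun h' => h h'.symm)]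
          simp
      rw [this]
      exact mul_le_of_le_one_right (hq0 ω' s) (sum_div_cls_le P XZ (s, Z ω'))
    calc _ ≤ ∑ ω', P ω' * 1 :=
          Finset.sum_le_sum (fun ω' _ => mul_le_mul_of_nonneg_left (e2 ω') (h0 ω'))
      _ = 1 := by simp [hP.sum_eq]
  have h5 := sum_mul_log_le (w := P) (r := r) h0 hrpos
  rw [hP.sum_eq] at h5
  have h6 : ∑ ω, P ω * Real.log (r ω) =
      ent P XZ - ent P Z - ∑ ω, P ω * (- Real.log (q (X ω) (Z ω))) := by
    unfold ent
    rw [← Finset.sum_sub_distrib, ← Finset.sum_sub_distrib]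
    apply Finset.sum_congr rfl
    intro ω _
    rcases (h0 ω).lt_or_eq with hi | hi
    · have h1 := cls_pos h0 XZ hi
      have h2 := cls_pos h0 Z hi
      have h3 := hpos ω hi
      simp only [hr]
      rw [Real.log_div (by positivity) h1.ne', Real.log_mul h3.ne' h2.ne']
      ring
    · simp [← hi]
  linarith

lemma cls_const {R : Type*} (hP : IsProb P) (z : R) (ω : Ω) : cls P (fun _ => z) ω = 1 := by
  classical
  unfold cls
  simp [hP.sum_eq]

lemma ent_const {R : Type*} (hP : IsProb P) (z : R) : ent P (fun _ : Ω => z) = 0 := by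
  unfold ent
  simp [cls_const hP z]

/-- Gibbs' inequality. -/
lemma gibbs {S : Type*} [Fintype S] (hP : IsProb P) (X : Ω → S) (q : S → ℝ)
    (hq0 : ∀ s, 0 ≤ q s) (hq : ∑ s, q s ≤ 1) (hpos : ∀ ω, 0 < P ω → 0 < q (X ω)) :
    ent P X ≤ ∑ ω, P ω * (- Real.log (q (X ω))) := by
  have h := cond_gibbs hP X (fun _ => ()) (fun s _ => q s) (fun _ s => hq0 s) (fun _ => hq) hpos
  rw [ent_const hP] at h
  have h2 : ent P (fun ω => (X ω, ())) = ent P X := ent_congr (by intro a b; simp)
  rw [h2] at h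
  linarith

/-- `H(X | Z) ≤ E log N(Z)` if `X` takes values in a finite set `A (Z)` of size `≤ N(Z)`. -/
lemma cond_ent_le_card {S R : Type*} [Fintype S] (hP : IsProb P) (X : Ω → S) (Z : Ω → R)
    (A : R → Finset S) (hA : ∀ ω, 0 < P ω → X ω ∈ A (Z ω)) :
    ent P (fun ω => (X ω, Z ω)) - ent P Z ≤ ∑ ω, P ω * Real.log ((A (Z ω)).card : ℝ) := by
  classical
  refine le_trans (cond_gibbs hP X Z (fun s z => if s ∈ A z then 1 / ((A z).card : ℝ) else 0)
    ?_ ?_ ?_) (le_of_eq ?_)
  · intro ω s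
    split_ifs
    · positivity
    · exact le_rfl
  · intro ω
    rw [← Finset.sum_filter]
    rw [Finset.filter_mem_eq_inter, Finset.univ_inter, Finset.sum_const, nsmul_eq_mul]
    rw [mul_one_div]
    exact div_self_le_one _
  · intro ω hω
    have h := hA ω hω
    simp only [h, if_true]
    have : 0 < (A (Z ω)).card := Finset.card_pos.mpr ⟨_, h⟩
    positivity
  · apply Finset.sum_congr rfl
    intro ω _
    rcases (hP.nonneg ω).lt_or_eq with hi | hi
    · have h := hA ω hi
      simp only [h, if_true]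
      rw [Real.log_div one_ne_zero, Real.log_one]
      · ring
      · have : 0 < (A (Z ω)).card := Finset.card_pos.mpr ⟨_, h⟩
        positivity
    · simp [← hi]

lemma ent_le_log_card' {S : Type*} [Fintype S] (hP : IsProb P) (X : Ω → S) (A : Finset S)
    (hA : ∀ ω, 0 < P ω → X ω ∈ A) : ent P X ≤ Real.log (A.card : ℝ) := by
  have h := cond_ent_le_card hP X (fun _ => ()) (fun _ => A) hA
  rw [ent_const hP] at h
  have h2 : ent P (fun ω => (X ω, ())) = ent P X := ent_congr (by intro a b; simp)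
  rw [h2, ← Finset.sum_mul, hP.sum_eq] at h
  linarith

lemma ent_le_log_card {S : Type*} [Fintype S] (hP : IsProb P) (X : Ω → S) :
    ent P X ≤ Real.log (Fintype.card S : ℝ) :=
  ent_le_log_card' hP X Finset.univ (fun _ _ => Finset.mem_univ _)

/-- `H(X | Z) ≤ log 2 * E|K(Z)|` for a random subset `X ⊆ K(Z)`. -/
lemma cond_ent_subset {E : Type} [Fintype E] [DecidableEq E] {R : Type*} (hP : IsProb P)
    (X : Ω → Finset E) (Z : Ω → R) (K : R → Finset E) (hX : ∀ ω, 0 < P ω → X ω ⊆ K (Z ω)) :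
    ent P (fun ω => (X ω, Z ω)) - ent P Z ≤ Real.log 2 * ecard P (fun ω => K (Z ω)) := by
  refine le_trans (cond_ent_le_card hP X Z (fun z => (K z).powerset)
    (fun ω hω => Finset.mem_powerset.mpr (hX ω hω))) (le_of_eq ?_)
  unfold ecard
  rw [Finset.mul_sum]
  apply Finset.sum_congr rfl
  intro ω _
  rw [Finset.card_powerset]
  push_cast
  rw [Real.log_pow]
  ring

/-- the marking bound: two random subsets of `K(Z)` cost at most `log 4 * E|K|`. -/
lemma marking {E : Type} [Fintype E] [DecidableEq E] {R : Type*} (hP : IsProb P)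
    (X₁ X₂ : Ω → Finset E) (Z : Ω → R) (K : R → Finset E)
    (h1 : ∀ ω, 0 < P ω → X₁ ω ⊆ K (Z ω)) (h2 : ∀ ω, 0 < P ω → X₂ ω ⊆ K (Z ω)) :
    ent P (fun ω => ((X₁ ω, X₂ ω), Z ω)) - ent P Z ≤
      Real.log 4 * ecard P (fun ω => K (Z ω)) := by
  refine le_trans (cond_ent_le_card hP (fun ω => (X₁ ω, X₂ ω)) Z
    (fun z => (K z).powerset ×ˢ (K z).powerset)
    (fun ω hω => Finset.mem_product.mpr ⟨Finset.mem_powerset.mpr (h1 ω hω),
      Finset.mem_powerset.mpr (h2 ω hω)⟩)) (le_of_eq ?_)
  unfold ecard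
  rw [Finset.mul_sum]
  apply Finset.sum_congr rfl
  intro ω _
  rw [Finset.card_product, Finset.card_powerset, ← mul_pow]
  push_cast
  rw [Real.log_pow]
  ring

end gibbs

/-! ### Shannon inequalities in conditional form -/

section shannon

variable {Ω : Type*} [Fintype Ω] {P : Ω → ℝ} {S₁ S₂ S₃ S₄ : Type*}

lemma ent_le_ent_pair_right (hP : IsProb P) (X : Ω → S₁) (Z : Ω → S₂) :
    ent P Z ≤ ent P (fun ω => (X ω, Z ω)) :=
  ent_mono hP.nonneg (by intro a b h; exact (Prod.mk.inj h).2)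

lemma ent_le_ent_pair_left (hP : IsProb P) (X : Ω → S₁) (Z : Ω → S₂) :
    ent P X ≤ ent P (fun ω => (X ω, Z ω)) :=
  ent_mono hP.nonneg (by intro a b h; exact (Prod.mk.inj h).1)

/-- subadditivity -/
lemma ent_subadd (hP : IsProb P) (X : Ω → S₁) (Y : Ω → S₂) :
    ent P (fun ω => (X ω, Y ω)) ≤ ent P X + ent P Y := by
  have h := ent_submod hP X Y (fun _ => ())
  rw [ent_const hP] at h
  have h1 : ent P (fun ω => (X ω, Y ω, ())) = ent P (fun ω => (X ω, Y ω)) :=
    ent_congr (by intro a b; simp)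
  have h2 : ent P (fun ω => (X ω, ())) = ent P X := ent_congr (by intro a b; simp)
  have h3 : ent P (fun ω => (Y ω, ())) = ent P Y := ent_congr (by intro a b; simp)
  rw [h1, h2, h3] at h
  linarith

/-- conditional subadditivity: `H(X,Y|Z) ≤ H(X|Z) + H(Y|Z)` -/
lemma cond_subadd (hP : IsProb P) (X : Ω → S₁) (Y : Ω → S₂) (Z : Ω → S₃) :
    ent P (fun ω => ((X ω, Y ω), Z ω)) - ent P Z ≤
      (ent P (fun ω => (X ω, Z ω)) - ent P Z) + (ent P (fun ω => (Y ω, Z ω)) - ent P Z) := by
  have h := ent_submod hP X Y Z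
  have h1 : ent P (fun ω => ((X ω, Y ω), Z ω)) = ent P (fun ω => (X ω, Y ω, Z ω)) :=
    ent_congr (by intro a b; simp [and_assoc])
  rw [h1]
  linarith

/-- conditioning reduces entropy: `H(X|Y,Z) ≤ H(X|Z)` -/
lemma cond_reduce (hP : IsProb P) (X : Ω → S₁) (Y : Ω → S₂) (Z : Ω → S₃) :
    ent P (fun ω => (X ω, (Y ω, Z ω))) - ent P (fun ω => (Y ω, Z ω)) ≤
      ent P (fun ω => (X ω, Z ω)) - ent P Z := by
  have h := ent_submod hP X Y Z
  linarith

/-- a flexible form: if `Z` is a function of `W` then `H(X|W) ≤ H(X|Z)`. -/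
lemma cond_reduce' (hP : IsProb P) (X : Ω → S₁) (W : Ω → S₂) (Z : Ω → S₃)
    (hZ : ∀ ω ω', W ω' = W ω → Z ω' = Z ω) :
    ent P (fun ω => (X ω, W ω)) - ent P W ≤ ent P (fun ω => (X ω, Z ω)) - ent P Z := by
  have h := cond_reduce hP X W Z
  have h1 : ent P (fun ω => (X ω, (W ω, Z ω))) = ent P (fun ω => (X ω, W ω)) := by
    apply ent_congr
    intro a b
    simp only [Prod.mk.injEq]
    constructor
    · rintro ⟨h1, h2, _⟩; exact ⟨h1, h2⟩
    · rintro ⟨h1, h2⟩; exact ⟨h1, h2, hZ _ _ h2⟩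
  have h2 : ent P (fun ω => (W ω, Z ω)) = ent P W := by
    apply ent_congr
    intro a b
    simp only [Prod.mk.injEq]
    constructor
    · rintro ⟨h1, _⟩; exact h1
    · intro h1; exact ⟨h1, hZ _ _ h1⟩
  rw [h1, h2] at h
  exact h

/-- monotonicity in the first argument: if `Y` is a function of `(X, Z)` then
`H(Y|Z) ≤ H(X|Z)`. -/
lemma cond_mono (hP : IsProb P) (X : Ω → S₁) (Y : Ω → S₂) (Z : Ω → S₃)
    (hY : ∀ ω ω', X ω' = X ω → Z ω' = Z ω → Y ω' = Y ω) :
    ent P (fun ω => (Y ω, Z ω)) - ent P Z ≤ ent P (fun ω => (X ω, Z ω)) - ent P Z := by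
  have : ent P (fun ω => (Y ω, Z ω)) ≤ ent P (fun ω => (X ω, Z ω)) := by
    apply ent_mono hP.nonneg
    intro a b h
    simp only [Prod.mk.injEq] at h ⊢
    exact ⟨hY _ _ h.1 h.2, h.2⟩
  linarith

/-- chain rule, as an identity of the definition: `H(X,Y|Z) = H(Y|Z) + H(X|Y,Z)`. -/
lemma cond_chain (X : Ω → S₁) (Y : Ω → S₂) (Z : Ω → S₃) :
    ent P (fun ω => ((X ω, Y ω), Z ω)) - ent P Z =
      (ent P (fun ω => (Y ω, Z ω)) - ent P Z)
        + (ent P (fun ω => (X ω, (Y ω, Z ω))) - ent P (fun ω => (Y ω, Z ω))) := by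
  have h1 : ent P (fun ω => ((X ω, Y ω), Z ω)) = ent P (fun ω => (X ω, (Y ω, Z ω))) :=
    ent_congr (by intro a b; simp [and_assoc])
  rw [h1]
  ring

end shannon

/-! ### symmetrisation -/

section symmetrisation

variable {G : Type*} [Group G] [Fintype G] {S' S : Type*} [Fintype S'] [Fintype S]
  [MulAction G S'] [MulAction G S]

lemma Pushes.symm {φ : S' → S} {w' : S' → ℝ} {w : S → ℝ} (h : Pushes φ w' w)
    (hφ : ∀ (g : G) (s : S'), φ (g • s) = g • φ s) :
    Pushes φ (Crest.Agent.R055.symm G w') (Crest.Agent.R055.symm G w) := by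
  classical
  intro s
  unfold Crest.Agent.R055.symm
  have h1 : ∀ s', (if φ s' = s then (∑ g : G, w' (g⁻¹ • s')) / (Fintype.card G : ℝ) else 0)
      = (∑ g : G, if φ s' = s then w' (g⁻¹ • s') else 0) / (Fintype.card G : ℝ) := by
    intro s'
    split_ifs
    · rfl
    · simp
  simp_rw [h1]
  rw [← Finset.sum_div, Finset.sum_comm]
  congr 1
  apply Finset.sum_congr rfl
  intro g _
  rw [← h (g⁻¹ • s)]
  rw [← Equiv.sum_comp (MulAction.toPerm (g⁻¹ : G))
    (fun s' => if φ s' = g⁻¹ • s then w' s' else 0)]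
  apply Finset.sum_congr rfl
  intro s' _
  simp only [MulAction.toPerm_apply, hφ, smul_left_cancel_iff]

omit [Fintype S'] [MulAction G S'] in
lemma symm_isProb {w : S → ℝ} (h : IsProb w) : IsProb (Crest.Agent.R055.symm G w) := by
  have hG : (0 : ℝ) < Fintype.card G := by exact_mod_cast Fintype.card_pos
  constructor
  · intro s
    unfold Crest.Agent.R055.symm
    exact div_nonneg (Finset.sum_nonneg (fun g _ => h.nonneg _)) hG.le
  · unfold Crest.Agent.R055.symm
    rw [← Finset.sum_div, Finset.sum_comm]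
    have : ∀ g : G, ∑ s, w (g⁻¹ • s) = 1 := by
      intro g
      rw [← h.sum_eq]
      exact Equiv.sum_comp (MulAction.toPerm (g⁻¹ : G)) w
    simp_rw [this]
    simp

omit [Fintype S'] [MulAction G S'] [Fintype S] in
/-- the symmetrised weight is invariant. -/
lemma symm_smul (w : S → ℝ) (g : G) (s : S) :
    Crest.Agent.R055.symm G w (g • s) = Crest.Agent.R055.symm G w s := by
  unfold Crest.Agent.R055.symm
  congr 1
  rw [← Equiv.sum_comp (Equiv.mulLeft g) (fun x : G => w (x⁻¹ • g • s))]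
  apply Finset.sum_congr rfl
  intro x _
  simp [mul_smul]

omit [Fintype S'] [MulAction G S'] in
/-- expectation of an invariant function under the symmetrised weight. -/
lemma symm_sum_mul (w : S → ℝ) (f : S → ℝ) (hf : ∀ (g : G) (s : S), f (g • s) = f s) :
    ∑ s, Crest.Agent.R055.symm G w s * f s = ∑ s, w s * f s := by
  have hG : (Fintype.card G : ℝ) ≠ 0 := by exact_mod_cast Fintype.card_ne_zero
  unfold Crest.Agent.R055.symm
  simp_rw [div_mul_eq_mul_div, Finset.sum_mul]
  rw [← Finset.sum_div, Finset.sum_comm]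
  have : ∀ g : G, ∑ s, w (g⁻¹ • s) * f s = ∑ s, w s * f s := by
    intro g
    rw [← Equiv.sum_comp (MulAction.toPerm (g⁻¹ : G)) (fun s => w s * f s)]
    apply Finset.sum_congr rfl
    intro s _
    simp only [MulAction.toPerm_apply, hf]
  simp_rw [this]
  simp only [Finset.sum_const, Finset.card_univ, nsmul_eq_mul]
  field_simp

end symmetrisation

/-! ### products -/

lemma hl_prod {S S' : Type*} [Fintype S] [Fintype S'] {w : S → ℝ} {w' : S' → ℝ}
    (h : IsProb w) (h' : IsProb w') :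
    hl (fun x : S × S' => w x.1 * w' x.2) = hl w + hl w' := by
  unfold hl
  rw [Fintype.sum_prod_type]
  simp only [Real.negMulLog_mul]
  simp_rw [Finset.sum_add_distrib, ← Finset.mul_sum, ← Finset.sum_mul]
  rw [h'.sum_eq, h.sum_eq]
  ring

/-! ### morphisms of blocks -/

section blocks

variable {G : Type} [Group G] [Fintype G] {E : Type} [Fintype E] [DecidableEq E]
    [MulAction G E] {H : Finset E}

/-- an equivariant measure-preserving map of blocks (the finsets `U` are not involved). -/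
structure PushB (B C : Blk G H) (φ : B.T → C.T) : Prop where
  equi : ∀ (g : G) (t : B.T), φ (g • t) = g • φ t
  push : Pushes φ B.μ C.μ

namespace PushB

variable {B C D B' C' B'' : Blk G H}

/-- the laws `gβ` are also pushed. -/
lemma law {φ : B.T → C.T} (h : PushB B C φ) : Pushes φ B.law C.law := h.push.symm h.equi

lemma id (B : Blk G H) : PushB B B (fun x => x) := ⟨fun _ _ => rfl, Pushes.id⟩

lemma comp {φ : B.T → C.T} {ψ : C.T → D.T} (h : PushB B C φ) (h' : PushB C D ψ) :
    PushB B D (fun x => ψ (φ x)) :=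
  ⟨fun g t => by rw [h.equi, h'.equi], h.push.comp h'.push⟩

lemma fst (B B' : Blk G H) : PushB (B.prod B') B (fun x => x.1) := by
  refine ⟨fun _ _ => rfl, Pushes.of_dec ?_⟩
  intro t
  change ∑ x : B.T × B'.T, (if x.1 = t then B.μ x.1 * B'.μ x.2 else 0) = B.μ t
  rw [Fintype.sum_prod_type]
  have : ∀ s : B.T, ∑ s' : B'.T, (if s = t then B.μ s * B'.μ s' else 0)
      = if s = t then B.μ s else 0 := by
    intro s
    split_ifs
    · rw [← Finset.mul_sum, B'.prob.sum_eq, mul_one]
    · simp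
  simp_rw [this]
  simp

lemma snd (B B' : Blk G H) : PushB (B.prod B') B' (fun x => x.2) := by
  refine ⟨fun _ _ => rfl, Pushes.of_dec ?_⟩
  intro t
  change ∑ x : B.T × B'.T, (if x.2 = t then B.μ x.1 * B'.μ x.2 else 0) = B'.μ t
  rw [Fintype.sum_prod_type, Finset.sum_comm]
  have : ∀ s : B'.T, ∑ s' : B.T, (if s = t then B.μ s' * B'.μ s else 0)
      = if s = t then B'.μ s else 0 := by
    intro s
    split_ifs
    · rw [← Finset.sum_mul, B.prob.sum_eq, one_mul]
    · simp
  simp_rw [this]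
  simp

lemma map {φ : B.T → C.T} {φ' : B'.T → C'.T} (h : PushB B C φ) (h' : PushB B' C' φ') :
    PushB (B.prod B') (C.prod C') (fun x => (φ x.1, φ' x.2)) := by
  classical
  refine ⟨fun g t => ?_, ?_⟩
  · change (φ (g • t.1), φ' (g • t.2)) = (g • φ t.1, g • φ' t.2)
    rw [h.equi, h'.equi]
  intro t
  change ∑ x : B.T × B'.T, (if (φ x.1, φ' x.2) = t then B.μ x.1 * B'.μ x.2 else 0)
    = C.μ t.1 * C'.μ t.2
  rw [← h.push t.1, ← h'.push t.2, Finset.sum_mul_sum, Fintype.sum_prod_type]
  apply Finset.sum_congr rfl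
  intro s _
  apply Finset.sum_congr rfl
  intro s' _
  by_cases h1 : φ s = t.1
  · by_cases h2 : φ' s' = t.2
    · rw [if_pos h1, if_pos h2, if_pos]
      exact Prod.ext h1 h2
    · rw [if_neg h2, if_neg]
      · ring
      · intro hcon; exact h2 (congrArg Prod.snd hcon)
  · rw [if_neg h1, if_neg]
    · ring
    · intro hcon; exact h1 (congrArg Prod.fst hcon)

lemma of_equiv (e : B.T ≃ C.T) (he : ∀ (g : G) (t : B.T), e (g • t) = g • e t)
    (hμ : ∀ t, C.μ (e t) = B.μ t) : PushB B C e :=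
  ⟨he, Pushes.of_equiv e hμ⟩

lemma swap (B B' : Blk G H) : PushB (B.prod B') (B'.prod B) (fun x => (x.2, x.1)) := by
  refine of_equiv (B := B.prod B') (C := B'.prod B) (Equiv.prodComm B.T B'.T)
    (fun _ _ => rfl) ?_
  intro t
  exact mul_comm (B'.μ t.2) (B.μ t.1)

lemma assoc (B B' B'' : Blk G H) :
    PushB ((B.prod B').prod B'') (B.prod (B'.prod B'')) (fun x => (x.1.1, (x.1.2, x.2))) := by
  refine of_equiv (B := (B.prod B').prod B'') (C := B.prod (B'.prod B''))
    (Equiv.prodAssoc B.T B'.T B''.T) (fun _ _ => rfl) ?_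
  intro t
  exact (mul_assoc (B.μ t.1.1) (B'.μ t.1.2) (B''.μ t.2)).symm

lemma assoc' (B B' B'' : Blk G H) :
    PushB (B.prod (B'.prod B'')) ((B.prod B').prod B'') (fun x => ((x.1, x.2.1), x.2.2)) := by
  refine of_equiv (B := B.prod (B'.prod B'')) (C := (B.prod B').prod B'')
    (Equiv.prodAssoc B.T B'.T B''.T).symm (fun _ _ => rfl) ?_
  intro t
  exact mul_assoc (B.μ t.1) (B'.μ t.2.1) (B''.μ t.2.2)

end PushB

lemma Blk.law_isProb (B : Blk G H) : IsProb B.law := symm_isProb B.prob

lemma Blk.law_smul (B : Blk G H) (g : G) (t : B.T) : B.law (g • t) = B.law t :=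
  symm_smul B.μ g t

lemma Blk.card_U_smul (B : Blk G H) (g : G) (t : B.T) : (B.U (g • t)).card = (B.U t).card := by
  rw [B.equi, Finset.card_smul_finset]

lemma Blk.ecard_law (B : Blk G H) : ecard B.law B.U = ecard B.μ B.U :=
  symm_sum_mul (G := G) B.μ (fun t => ((B.U t).card : ℝ)) (fun g t => by rw [B.card_U_smul])

/-- equivalence of blocks, including the finsets -/
structure EquivB (B C : Blk G H) where
  e : B.T ≃ C.T
  equi : ∀ (g : G) (t : B.T), e (g • t) = g • e t
  mu : ∀ t, C.μ (e t) = B.μ t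
  U : ∀ t, C.U (e t) = B.U t

namespace EquivB

variable {B C D B' C' : Blk G H}

lemma push (h : EquivB B C) : PushB B C h.e := PushB.of_equiv h.e h.equi h.mu

lemma law_eq (h : EquivB B C) (t : B.T) : C.law (h.e t) = B.law t := by
  unfold Blk.law Crest.Agent.R055.symm
  congr 1
  apply Finset.sum_congr rfl
  intro g _
  rw [← h.equi, h.mu]

lemma F_eq (h : EquivB B C) (l Ψ : ℝ) : B.F l Ψ = C.F l Ψ := by
  unfold Blk.F Dv
  have h1 : hl (Crest.Agent.R055.symm G B.μ) = hl (Crest.Agent.R055.symm G C.μ) := by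
    rw [← hl_equiv h.e (Crest.Agent.R055.symm G C.μ)]
    congr 1
    funext t
    exact (h.law_eq t).symm
  have h2 : hl B.μ = hl C.μ := by
    rw [← hl_equiv h.e C.μ]
    congr 1
    funext t
    exact (h.mu t).symm
  have h3 : ecard B.μ B.U = ecard C.μ C.U := by
    rw [← h.push.push.ecard_eq C.U]
    unfold ecard
    apply Finset.sum_congr rfl
    intro t _
    simp only [h.U]
  rw [h1, h2, h3]

/-- reflexivity -/
def refl (B : Blk G H) : EquivB B B := ⟨Equiv.refl _, fun _ _ => rfl, fun _ => rfl, fun _ => rfl⟩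

/-- transitivity -/
def trans (h : EquivB B C) (h' : EquivB C D) : EquivB B D :=
  ⟨h.e.trans h'.e, fun g t => by simp [h.equi, h'.equi], fun t => by simp [h'.mu, h.mu],
    fun t => by simp [h'.U, h.U]⟩

/-- symmetry -/
def symm (h : EquivB B C) : EquivB C B :=
  ⟨h.e.symm, fun g t => by
      rw [Equiv.symm_apply_eq, h.equi, Equiv.apply_symm_apply],
    fun t => by rw [← h.mu, Equiv.apply_symm_apply],
    fun t => by rw [← h.U, Equiv.apply_symm_apply]⟩

/-- products of equivalences -/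
def prod (h : EquivB B C) (h' : EquivB B' C') : EquivB (B.prod B') (C.prod C') :=
  ⟨Equiv.prodCongr h.e h'.e,
    fun g t => by
      change (h.e (g • t.1), h'.e (g • t.2)) = (g • h.e t.1, g • h'.e t.2)
      rw [h.equi, h'.equi],
    fun t => by
      change C.μ (h.e t.1) * C'.μ (h'.e t.2) = B.μ t.1 * B'.μ t.2
      rw [h.mu, h'.mu],
    fun t => by
      change C.U (h.e t.1) ∪ C'.U (h'.e t.2) = B.U t.1 ∪ B'.U t.2
      rw [h.U, h'.U]⟩

/-- commutativity -/
def comm (B B' : Blk G H) : EquivB (B.prod B') (B'.prod B) :=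
  ⟨Equiv.prodComm B.T B'.T, fun _ _ => rfl,
    fun t => by
      exact mul_comm (B'.μ t.2) (B.μ t.1),
    fun t => by
      change B'.U t.2 ∪ B.U t.1 = B.U t.1 ∪ B'.U t.2
      rw [Finset.union_comm]⟩

/-- associativity -/
def assoc (B B' B'' : Blk G H) : EquivB ((B.prod B').prod B'') (B.prod (B'.prod B'')) :=
  ⟨Equiv.prodAssoc B.T B'.T B''.T, fun _ _ => rfl,
    fun t => by
      exact (mul_assoc (B.μ t.1.1) (B'.μ t.1.2) (B''.μ t.2)).symm,
    fun t => by
      change B.U t.1.1 ∪ (B'.U t.1.2 ∪ B''.U t.2) = (B.U t.1.1 ∪ B'.U t.1.2) ∪ B''.U t.2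
      rw [Finset.union_assoc]⟩

end EquivB

lemma F_comm (B B' : Blk G H) (l Ψ : ℝ) : (B.prod B').F l Ψ = (B'.prod B).F l Ψ :=
  (EquivB.comm B B').F_eq l Ψ

lemma F_assoc (B B' B'' : Blk G H) (l Ψ : ℝ) :
    ((B.prod B').prod B'').F l Ψ = (B.prod (B'.prod B'')).F l Ψ :=
  (EquivB.assoc B B' B'').F_eq l Ψ

/-- four blocks: `B × (B × (B × B))` versus `(B × B) × (B × B)`. -/
lemma F_four_right (B : Blk G H) (l Ψ : ℝ) :
    (B.prod (B.prod (B.prod B))).F l Ψ = ((B.prod B).prod (B.prod B)).F l Ψ :=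
  (F_assoc B B (B.prod B) l Ψ).symm

/-- four blocks: `B × ((B × B) × B)` versus `(B × B) × (B × B)`. -/
lemma F_four_mid (B : Blk G H) (l Ψ : ℝ) :
    (B.prod ((B.prod B).prod B)).F l Ψ = ((B.prod B).prod (B.prod B)).F l Ψ := by
  rw [← F_four_right]
  exact ((EquivB.refl B).prod (EquivB.assoc B B B)).F_eq l Ψ

lemma F_three (B : Blk G H) (l Ψ : ℝ) :
    ((B.prod B).prod B).F l Ψ = (B.prod (B.prod B)).F l Ψ := F_assoc B B B l Ψ

/-! ### four blocks: coordinate selections -/

/-- the four-block space `(B × B) × (B × B)` -/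
noncomputable abbrev four (B : Blk G H) : Blk G H := (B.prod B).prod (B.prod B)

/-- the coordinates of a point of the four-block space -/
def coord {T : Type*} (i : Fin 4) (x : (T × T) × (T × T)) : T :=
  ![x.1.1, x.1.2, x.2.1, x.2.2] i

/-- the four-block space as functions on `Fin 4` -/
def fourEquiv (T : Type*) : (T × T) × (T × T) ≃ (Fin 4 → T) where
  toFun x := fun i => coord i x
  invFun f := ((f 0, f 1), (f 2, f 3))
  left_inv x := rfl
  right_inv f := by
    funext i
    fin_cases i <;> rfl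

lemma four_mu (B : Blk G H) (x : (four B).T) : (four B).μ x = ∏ i, B.μ (coord i x) := by
  rw [Fin.prod_univ_four]
  change (B.μ x.1.1 * B.μ x.1.2) * (B.μ x.2.1 * B.μ x.2.2) =
    B.μ x.1.1 * B.μ x.1.2 * B.μ x.2.1 * B.μ x.2.2
  ring

/-- permutations of the four coordinates -/
lemma PushB.perm (B : Blk G H) (σ : Equiv.Perm (Fin 4)) :
    PushB (four B) (four B)
      (fun x => ((coord (σ 0) x, coord (σ 1) x), (coord (σ 2) x, coord (σ 3) x))) := by
  have h := PushB.of_equiv (B := four B) (C := four B)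
    (((fourEquiv B.T).trans (Equiv.arrowCongr σ.symm (Equiv.refl B.T))).trans
      (fourEquiv B.T).symm) ?_ ?_
  · exact h
  · intro g t
    change ((coord (σ 0) (g • t), coord (σ 1) (g • t)), (coord (σ 2) (g • t), coord (σ 3) (g • t)))
      = g • ((coord (σ 0) t, coord (σ 1) t), (coord (σ 2) t, coord (σ 3) t))
    have hc : ∀ i : Fin 4, coord i (g • t) = g • coord i t := by
      intro i
      fin_cases i <;> rfl
    rw [hc, hc, hc, hc]
    rfl
  · intro t
    rw [four_mu, four_mu]
    have : ∀ i : Fin 4, coord i (((fourEquiv B.T).trans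
        (Equiv.arrowCongr σ.symm (Equiv.refl B.T))).trans (fourEquiv B.T).symm t)
        = coord (σ i) t := by
      intro i
      fin_cases i <;> rfl
    rw [← Equiv.prod_comp σ (fun i => B.μ (coord i t))]
    apply Finset.prod_congr rfl
    intro i _
    rw [← this i]
    rfl

lemma PushB.perm4 (B : Blk G H) (i j l m : Fin 4) (h : [i, j, l, m].Nodup) :
    PushB (four B) (four B) (fun x => ((coord i x, coord j x), (coord l x, coord m x))) := by
  have hinj : Function.Injective ![i, j, l, m] := by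
    revert i j l m
    decide
  have := PushB.perm B (Equiv.ofBijective _ (Finite.injective_iff_bijective.mp hinj))
  exact this

lemma PushB.pair (B : Blk G H) (i j : Fin 4) (h : [i, j].Nodup) :
    PushB (four B) (B.prod B) (fun x => (coord i x, coord j x)) := by
  have h' : ∃ l m : Fin 4, [i, j, l, m].Nodup := by
    revert i j
    decide
  obtain ⟨l, m, h'⟩ := h'
  exact (PushB.perm4 B i j l m h').comp (PushB.fst (B.prod B) (B.prod B))

lemma PushB.single (B : Blk G H) (i : Fin 4) :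
    PushB (four B) B (fun x => coord i x) := by
  have h' : ∃ j : Fin 4, [i, j].Nodup := by
    revert i
    decide
  obtain ⟨j, h'⟩ := h'
  exact (PushB.pair B i j h').comp (PushB.fst B B)

/-- `(x_i, (x_j, x_l))` -/
lemma PushB.triple (B : Blk G H) (i j l : Fin 4) (h : [i, j, l].Nodup) :
    PushB (four B) (B.prod (B.prod B)) (fun x => (coord i x, (coord j x, coord l x))) := by
  have h' : ∃ m : Fin 4, [i, j, l, m].Nodup := by
    revert i j l
    decide
  obtain ⟨m, h'⟩ := h'
  exact ((PushB.perm4 B i j l m h').comp (PushB.map (PushB.id (B.prod B)) (PushB.fst B B))).comp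
    (PushB.assoc B B B)

/-- `((x_i, x_j), x_l)` -/
lemma PushB.triple' (B : Blk G H) (i j l : Fin 4) (h : [i, j, l].Nodup) :
    PushB (four B) ((B.prod B).prod B) (fun x => ((coord i x, coord j x), coord l x)) :=
  (PushB.triple B i j l h).comp (PushB.assoc' B B B)

/-- `(x_i, (x_j, (x_l, x_m)))` -/
lemma PushB.quad (B : Blk G H) (i j l m : Fin 4) (h : [i, j, l, m].Nodup) :
    PushB (four B) (B.prod (B.prod (B.prod B)))
      (fun x => (coord i x, (coord j x, (coord l x, coord m x)))) :=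
  (PushB.perm4 B i j l m h).comp (PushB.assoc B B (B.prod B))

/-- `(x_i, ((x_j, x_l), x_m))` -/
lemma PushB.quad' (B : Blk G H) (i j l m : Fin 4) (h : [i, j, l, m].Nodup) :
    PushB (four B) (B.prod ((B.prod B).prod B))
      (fun x => (coord i x, ((coord j x, coord l x), coord m x))) :=
  (PushB.quad B i j l m h).comp (PushB.map (PushB.id B) (PushB.assoc' B B B))

section example_use

/-- sample: `m` computed on the four-block space from the coordinates `i ≠ j`. -/
lemma Blk.m_eq (B : Blk G H) (i j : Fin 4) (h : [i, j].Nodup) :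
    B.m = ent (four B).law (fun x => (B.U (coord i x) ∩ B.U (coord j x), coord i x))
      - ent (four B).law (fun x => coord i x) := by
  unfold Blk.m
  rw [← (PushB.pair B i j h).law.ent_eq (fun x => (B.U x.1 ∩ B.U x.2, x.1)),
    ← (PushB.pair B i j h).law.ent_eq (fun x => x.1)]

lemma Blk.k_eq (B : Blk G H) (i j : Fin 4) (h : [i, j].Nodup) :
    B.k = ecard (four B).law (fun x => B.U (coord i x) ∩ B.U (coord j x)) := by
  unfold Blk.k
  rw [← (PushB.pair B i j h).law.ecard_eq (fun x => B.U x.1 ∩ B.U x.2)]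

example (B : Blk G H) : B.m = ent (four B).law (fun x => (B.U x.1.2 ∩ B.U x.2.1, x.1.2))
      - ent (four B).law (fun x => x.1.2) := B.m_eq 1 2 (by decide)

end example_use

/-! ### `F` of a product -/

/-- `hl` of the law of a block is the entropy of the identity. -/
lemma Blk.ent_law_id (B : Blk G H) : ent B.law (fun t => t) = hl B.law := ent_self _

/-- `f(β) + f(β') - f(β,β') = I(β;β') - l E|U ∩ U'| + Ψ`. -/
lemma F_add_sub (B B' : Blk G H) (l Ψ : ℝ) :
    B.F l Ψ + B'.F l Ψ - (B.prod B').F l Ψ =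
      (ent (B.prod B').law (fun x => x.1) + ent (B.prod B').law (fun x => x.2)
        - ent (B.prod B').law (fun x => x))
      - l * ecard (B.prod B').law (fun x => B.U x.1 ∩ B'.U x.2) + Ψ := by
  have h1 : ent (B.prod B').law (fun x => x.1) = hl B.law := by
    rw [(PushB.fst B B').law.ent_eq (fun t => t), ent_self]
  have h2 : ent (B.prod B').law (fun x => x.2) = hl B'.law := by
    rw [(PushB.snd B B').law.ent_eq (fun t => t), ent_self]
  have h3 : ent (B.prod B').law (fun x => x) = hl (B.prod B').law := ent_self _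
  have h4 : hl (B.prod B').μ = hl B.μ + hl B'.μ := hl_prod B.prob B'.prob
  have h5 : ecard B.μ B.U = ecard (B.prod B').law (fun x => B.U x.1) := by
    rw [(PushB.fst B B').law.ecard_eq B.U, B.ecard_law]
  have h6 : ecard B'.μ B'.U = ecard (B.prod B').law (fun x => B'.U x.2) := by
    rw [(PushB.snd B B').law.ecard_eq B'.U, B'.ecard_law]
  have h7 : ecard (B.prod B').μ (B.prod B').U = ecard (B.prod B').law (fun x => B.U x.1)
      + ecard (B.prod B').law (fun x => B'.U x.2)
      - ecard (B.prod B').law (fun x => B.U x.1 ∩ B'.U x.2) := by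
    rw [← (B.prod B').ecard_law]
    unfold ecard
    rw [← Finset.sum_add_distrib, ← Finset.sum_sub_distrib]
    apply Finset.sum_congr rfl
    intro x _
    have h8 : (((B.prod B').U x).card : ℝ) + ((B.U x.1 ∩ B'.U x.2).card : ℝ)
        = ((B.U x.1).card : ℝ) + ((B'.U x.2).card : ℝ) := by
      have := Finset.card_union_add_card_inter (B.U x.1) (B'.U x.2)
      exact_mod_cast this
    linear_combination ((B.prod B').law x) * h8
  unfold Blk.F Dv
  rw [h1, h2, h3, h7, h4, h5, h6]
  unfold Blk.law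
  ring

end blocks

end Crest.Agent.R055
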