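import Mathlib
import Crest.Agent.R055.Ent
import Crest.Agent.R055.Defs
import Crest.Agent.R055.Law
import Crest.Agent.R055.DataProc

/-! Row 55: the equivariant kernel. -/

set_option autoImplicit false
set_option linter.unusedSectionVars false
open Finset Real
open scoped Pointwise

namespace Crest.Agent.R055

section kernel
variable (G : Type*) [Group G] [Fintype G] {T Y : Type*} [Fintype T] [Fintype Y]
  [MulAction G T] [MulAction G Y]

/-- resampled joint weight `Q(b,y) = μ(b) * R(b,y)/(symm μ)(b)` -/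
noncomputable def resamp (μ : T → ℝ) (R : T × Y → ℝ) : T × Y → ℝ :=
  fun x => μ x.1 * (R x / symm G μ x.1)

variable {μ : T → ℝ} {R : T × Y → ℝ}

lemma symm_pos {t : T} (hμ : IsProb μ) (h : μ t ≠ 0) : 0 < symm G μ t := by
  unfold symm
  apply div_pos
  · have h1 : μ ((1 : G)⁻¹ • t) ≤ ∑ g : G, μ (g⁻¹ • t) :=
      Finset.single_le_sum (f := fun g : G => μ (g⁻¹ • t)) (fun g _ => hμ.nonneg _)
        (Finset.mem_univ (1 : G))
    have h2 : 0 < μ ((1 : G)⁻¹ • t) := by
      simpa using lt_of_le_of_ne (hμ.nonneg t) (Ne.symm h)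
    linarith
  · exact_mod_cast Fintype.card_pos

lemma resamp_nonneg (hμ : IsProb μ) (hR : ∀ x, 0 ≤ R x) (x : T × Y) : 0 ≤ resamp G μ R x := by
  unfold resamp
  exact mul_nonneg (hμ.nonneg _) (div_nonneg (hR _) (symm_nonneg G hμ.nonneg _))

lemma resamp_sum (hμ : IsProb μ) (hR1 : ∀ t, ∑ y, R (t, y) = symm G μ t) (b : T) :
    ∑ y, resamp G μ R (b, y) = μ b := by
  unfold resamp
  simp only
  rw [← Finset.mul_sum, ← Finset.sum_div, hR1]
  by_cases h : μ b = 0
  · rw [h, zero_mul]
  · rw [div_self (symm_pos G hμ h).ne', mul_one]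

lemma isProb_resamp (hμ : IsProb μ) (hR : ∀ x, 0 ≤ R x)
    (hR1 : ∀ t, ∑ y, R (t, y) = symm G μ t) : IsProb (resamp G μ R) := by
  constructor
  · exact resamp_nonneg G hμ hR
  · rw [Fintype.sum_prod_type]
    simp_rw [resamp_sum G hμ hR1]
    exact hμ.sum_eq

lemma R_eq_zero (hR : ∀ x, 0 ≤ R x) (hR1 : ∀ t, ∑ y, R (t, y) = symm G μ t) {t : T}
    (h : symm G μ t = 0) (y : Y) : R (t, y) = 0 := by
  have h1 := hR1 t
  rw [h] at h1
  exact (Finset.sum_eq_zero_iff_of_nonneg (fun y _ => hR (t, y))).mp h1 y (Finset.mem_univ y)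

lemma symm_resamp (hR : ∀ x, 0 ≤ R x)
    (hR1 : ∀ t, ∑ y, R (t, y) = symm G μ t) (hinv : ∀ (g : G) x, R (g • x) = R x) :
    symm G (resamp G μ R) = R := by
  funext x
  obtain ⟨t, y⟩ := x
  have h1 : ∀ g : G, resamp G μ R (g⁻¹ • (t, y)) = μ (g⁻¹ • t) * (R (t, y) / symm G μ t) := by
    intro g
    unfold resamp
    rw [hinv]
    have : (g⁻¹ • (t, y)).1 = g⁻¹ • t := rfl
    rw [this, symm_apply_smul]
  have h2 : symm G (resamp G μ R) (t, y) = symm G μ t * (R (t, y) / symm G μ t) := by
    conv_lhs => unfold symm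
    simp_rw [h1]
    rw [← Finset.sum_mul]
    conv_rhs => rw [show symm G μ t = (∑ g : G, μ (g⁻¹ • t)) / (Fintype.card G : ℝ) from rfl]
    simp only [symm]
    ring
  rw [h2]
  by_cases h : symm G μ t = 0
  · rw [h, zero_mul, R_eq_zero G hR hR1 h]
  · rw [mul_div_cancel₀ _ h]

/-- `H_Q(y|b) = H_R(y|t)` -/
lemma hl_resamp (hμ : IsProb μ) (hR : ∀ x, 0 ≤ R x)
    (hR1 : ∀ t, ∑ y, R (t, y) = symm G μ t) (hinv : ∀ (g : G) x, R (g • x) = R x) :
    hl (resamp G μ R) - hl μ = hl R - hl (symm G μ) := by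
  set h : T → ℝ := fun t => ∑ y, Real.negMulLog (R (t, y) / symm G μ t) with hh
  have hinvh : ∀ (g : G) t, h (g • t) = h t := by
    intro g t
    simp only [hh]
    rw [← Equiv.sum_comp (MulAction.toPerm g) (fun y => Real.negMulLog (R (g • t, y) / symm G μ (g • t)))]
    apply Finset.sum_congr rfl
    intro y _
    have : R (g • t, (MulAction.toPerm g) y) = R (t, y) := hinv g (t, y)
    rw [this, symm_apply_smul]
  have e1 : hl (resamp G μ R) = hl μ + ∑ t, μ t * h t := by
    unfold hl resamp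
    rw [Fintype.sum_prod_type]
    simp only
    simp_rw [Real.negMulLog_mul, Finset.sum_add_distrib]
    congr 1
    · apply Finset.sum_congr rfl
      intro b _
      rw [← Finset.sum_mul]
      by_cases hb : μ b = 0
      · simp [hb]
      · rw [← Finset.sum_div, hR1, div_self (symm_pos G hμ hb).ne', one_mul]
    · apply Finset.sum_congr rfl
      intro b _
      rw [← Finset.mul_sum]
  have e2 : hl R = hl (symm G μ) + ∑ t, symm G μ t * h t := by
    have hRe : R = fun x => symm G μ x.1 * (R x / symm G μ x.1) := by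
      funext x
      obtain ⟨t, y⟩ := x
      by_cases h0 : symm G μ t = 0
      · rw [R_eq_zero G hR hR1 h0]; simp
      · rw [mul_div_cancel₀ _ h0]
    conv_lhs => rw [hRe]
    unfold hl
    rw [Fintype.sum_prod_type]
    simp only
    simp_rw [Real.negMulLog_mul, Finset.sum_add_distrib]
    congr 1
    · apply Finset.sum_congr rfl
      intro b _
      rw [← Finset.sum_mul]
      by_cases hb : symm G μ b = 0
      · simp [hb]
      · rw [← Finset.sum_div, hR1, div_self hb, one_mul]
    · apply Finset.sum_congr rfl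
      intro b _
      rw [← Finset.mul_sum]
  rw [e1, e2, sum_symm_mul G μ h hinvh]
  ring

end kernel

end Crest.Agent.R055
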