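import Mathlib
import Crest.Agent.R055.Ent
import Crest.Agent.R055.Defs
import Crest.Agent.R055.Stmts
import Crest.Agent.R055.Law
import Crest.Agent.R055.DataProc
import Crest.Agent.R055.Kernel
import Crest.Agent.R055.Energy

/-! Row 55: the GAIN inequality. -/

set_option autoImplicit false
set_option linter.unusedSectionVars false
open Finset Real
open scoped Pointwise

namespace Crest.Agent.R055

section
variable {G : Type} [Group G] [Fintype G] {E : Type} [Fintype E] [DecidableEq E]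
    [MulAction G E] {H : Finset E}

lemma card_smul_eq (g : G) (A : Finset E) : ((g • A).card : ℝ) = (A.card : ℝ) := by
  rw [Finset.card_smul_finset]

lemma energy_nonneg (w : Finset E → ℝ) : 0 ≤ energy w := by
  unfold energy
  exact Finset.sum_nonneg (fun e _ => sq_nonneg _)

lemma push_ne_zero {S S' : Type*} [Fintype S] {φ : S → S'} {w : S → ℝ} {s' : S'}
    (h : push φ w s' ≠ 0) : ∃ s, φ s = s' ∧ w s ≠ 0 := by
  classical
  unfold push at h
  obtain ⟨s, -, hs⟩ := Finset.exists_ne_zero_of_sum_ne_zero h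
  by_cases h1 : φ s = s'
  · exact ⟨s, h1, by simpa [h1] using hs⟩
  · simp [h1] at hs

/-- averaged extremality: `lam * κ ≤ H(gb) + H(y) - H(b,y) - l E|U| + Ψ`. -/
lemma avg_extremal {l lam Ψ : ℝ} (hE : ExtremalHom G H l lam Ψ) (B : Blk G H)
    {Y : Type} [Fintype Y] (Q : B.T × Y → ℝ) (hQ : IsProb Q)
    (hQ1 : ∀ b, ∑ y, Q (b, y) = B.μ b) :
    lam * (∑ y, ∑ e, (∑ b, if e ∈ B.U b then Q (b, y) else 0) ^ 2 / ∑ b, Q (b, y)) ≤
      hl (symm G B.μ) + hl (fun y => ∑ b, Q (b, y)) - hl Q - l * ecard B.μ B.U + Ψ := by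
  classical
  -- per `y`
  set w : Y → Finset E → ℝ := fun y => push B.U (fun b => Q (b, y)) with hw
  have hsum : ∀ y, ∑ A, w y A = ∑ b, Q (b, y) := fun y => sum_push _ _
  have hen : ∀ y, energy (w y) = ∑ e, (∑ b, if e ∈ B.U b then Q (b, y) else 0) ^ 2 := by
    intro y
    unfold energy
    apply Finset.sum_congr rfl
    intro e _
    congr 1
    have h1 : ∀ A, (if e ∈ A then w y A else 0) = w y A * (if e ∈ A then 1 else 0) := by
      intro A; split_ifs <;> simp
    simp_rw [h1]
    rw [hw]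
    simp only
    rw [sum_push_mul B.U (fun b => Q (b, y)) (fun A => if e ∈ A then (1 : ℝ) else 0)]
    apply Finset.sum_congr rfl
    intro b _
    split_ifs <;> simp
  have hec : ∀ y, ecard (w y) (fun A => A) = ∑ b, Q (b, y) * ((B.U b).card : ℝ) := by
    intro y
    rw [hw]
    simp only
    rw [ecard_push]
    rfl
  have hdv : ∀ y, Dv G (w y) ≤ Dv G (fun b => Q (b, y)) := by
    intro y
    exact Dv_push_le G B.equi (fun b => hQ.nonneg _)
  have h1 : ∀ y, lam * ((∑ e, (∑ b, if e ∈ B.U b then Q (b, y) else 0) ^ 2) / ∑ b, Q (b, y)) ≤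
      Dv G (fun b => Q (b, y)) - l * (∑ b, Q (b, y) * ((B.U b).card : ℝ)) + Ψ * ∑ b, Q (b, y) := by
    intro y
    have := hE (w y) (push_nonneg (fun b => hQ.nonneg _)) (by
      intro A hA
      obtain ⟨b, hb, hb'⟩ := push_ne_zero hA
      rw [← hb]
      apply B.supp
      intro h0
      have h2 := hQ1 b
      rw [h0] at h2
      exact hb' ((Finset.sum_eq_zero_iff_of_nonneg (fun y _ => hQ.nonneg (b, y))).mp h2 y
        (Finset.mem_univ y)))
    rw [hsum, hen, hec] at this
    linarith [hdv y]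
  -- sum over y
  have h2 : lam * (∑ y, ∑ e, (∑ b, if e ∈ B.U b then Q (b, y) else 0) ^ 2 / ∑ b, Q (b, y)) =
      ∑ y, lam * ((∑ e, (∑ b, if e ∈ B.U b then Q (b, y) else 0) ^ 2) / ∑ b, Q (b, y)) := by
    rw [Finset.mul_sum]
    apply Finset.sum_congr rfl
    intro y _
    rw [Finset.sum_div]
  rw [h2]
  refine le_trans (Finset.sum_le_sum (fun y _ => h1 y)) ?_
  rw [Finset.sum_add_distrib, Finset.sum_sub_distrib, ← Finset.mul_sum, ← Finset.mul_sum]
  have h3 : ∑ y, ∑ b, Q (b, y) = 1 := by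
    rw [← hQ.sum_eq, Fintype.sum_prod_type_right]
  have h4 : ∑ y, ∑ b, Q (b, y) * ((B.U b).card : ℝ) = ecard B.μ B.U := by
    rw [Finset.sum_comm]
    unfold ecard
    apply Finset.sum_congr rfl
    intro b _
    rw [← Finset.sum_mul, hQ1]
  have h5 : ∑ y, Dv G (fun b => Q (b, y)) ≤
      hl (symm G B.μ) + hl (fun y => ∑ b, Q (b, y)) - hl Q := by
    set W : B.T × Y → ℝ := fun x => symm G (fun b => Q (b, x.2)) x.1 with hW
    have hWp : IsProb W := by
      constructor
      · intro x; exact symm_nonneg G (fun b => hQ.nonneg _) _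
      · rw [Fintype.sum_prod_type_right]
        simp only [hW]
        simp_rw [sum_symm_eq]
        exact h3
    have h6 := hl_prod_le hWp
    have h7 : (fun a => ∑ b, W (a, b)) = symm G B.μ := by
      funext t
      simp only [hW, symm]
      rw [← Finset.sum_div, Finset.sum_comm]
      congr 1
      apply Finset.sum_congr rfl
      intro g _
      exact hQ1 _
    have h8 : (fun b => ∑ a, W (a, b)) = fun y => ∑ b, Q (b, y) := by
      funext y
      simp only [hW]
      rw [sum_symm_eq]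
    rw [h7, h8] at h6
    have h9 : ∑ y, Dv G (fun b => Q (b, y)) = hl W - hl Q := by
      unfold Dv
      rw [Finset.sum_sub_distrib]
      congr 1
      · unfold hl
        rw [Fintype.sum_prod_type_right]
      · unfold hl
        rw [Fintype.sum_prod_type_right]
    linarith
  rw [h3, h4]
  linarith

/-- GAIN. -/
theorem gain {l lam rho Ψ : ℝ} (hlam : 0 < lam) (hrho : 0 < rho)
    (hE : ExtremalHom G H l lam Ψ) : GainStmt G H l lam rho Ψ := by
  classical
  intro B B' n K hKsub hKeq hKun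
  set Kt : B.T × B'.T → (Fin n → Finset E) := fun x i => K i x with hKt
  have hKteq : ∀ (g : G) (x : B.T × B'.T), Kt (g • x) = g • Kt x := by
    intro g x; funext i; exact hKeq i g x
  set μ2 : B.T × B'.T → ℝ := fun x => B.μ x.1 * B'.μ x.2 with hμ2
  have hμ2p : IsProb μ2 := (B.prod B').prob
  set P : B.T × B'.T → ℝ := symm G μ2 with hPdef
  have hP : IsProb P := isProb_symm G hμ2p
  have hPlaw : (B.prod B').law = P := rfl
  have hP0 := hP.nonneg
  set μ := B.μ with hμdef
  have hμ : IsProb μ := B.prob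
  -- joint law of (β, K)
  set R : B.T × (Fin n → Finset E) → ℝ := push (fun x : B.T × B'.T => (x.1, Kt x)) P with hR
  have hReq : ∀ (g : G) (x : B.T × B'.T),
      (fun x : B.T × B'.T => (x.1, Kt x)) (g • x) = g • (fun x : B.T × B'.T => (x.1, Kt x)) x := by
    intro g x
    simp only [hKteq]
    rfl
  have hR0 : ∀ x, 0 ≤ R x := push_nonneg hP0
  have hRinv : ∀ (g : G) x, R (g • x) = R x := by
    intro g x
    rw [hR, hPdef, push_symm G hReq, symm_apply_smul]
  -- marginals of P
  have hm1 : push (fun x : B.T × B'.T => x.1) P = symm G μ := by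
    rw [hPdef, push_symm G (φ := fun x : B.T × B'.T => x.1) (fun g x => rfl)]
    congr 1
    funext t
    have := push_fst μ2 t
    rw [show (fun x : B.T × B'.T => x.1) = Prod.fst from rfl, this]
    simp only [hμ2]
    rw [← Finset.mul_sum, B'.prob.sum_eq, mul_one]
  have hm2 : push (fun x : B.T × B'.T => x.2) P = symm G B'.μ := by
    rw [hPdef, push_symm G (φ := fun x : B.T × B'.T => x.2) (fun g x => rfl)]
    congr 1
    funext t
    have := push_snd μ2 t
    rw [show (fun x : B.T × B'.T => x.2) = Prod.snd from rfl, this]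
    simp only [hμ2]
    rw [← Finset.sum_mul, B.prob.sum_eq, one_mul]
  have hR1 : ∀ t, ∑ y, R (t, y) = symm G μ t := by
    intro t
    rw [← push_fst R t, hR, push_push, ← hm1]
  set Q : B.T × (Fin n → Finset E) → ℝ := resamp G μ R with hQdef
  have hQ : IsProb Q := isProb_resamp G hμ hR0 hR1
  have hQ1 : ∀ b, ∑ y, Q (b, y) = μ b := resamp_sum G hμ hR1
  have hQsymm : symm G Q = R := symm_resamp G hR0 hR1 hRinv
  have hQent : hl Q - hl μ = hl R - hl (symm G μ) := hl_resamp G hμ hR0 hR1 hRinv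
  set Qy : (Fin n → Finset E) → ℝ := fun y => ∑ b, Q (b, y) with hQy
  have hQyp : Qy = push Prod.snd Q := by
    funext y; rw [push_snd]
  have hQyprob : IsProb Qy := by rw [hQyp]; exact isProb_push hQ
  have hQysymm : symm G Qy = push Kt P := by
    rw [hQyp, ← push_symm G (φ := Prod.snd) (fun g x => rfl), hQsymm, hR, push_push]
  -- supports
  have hRsupp : ∀ b y, R (b, y) ≠ 0 → ∀ i, y i ⊆ B.U b := by
    intro b y hne i
    obtain ⟨x, hx, -⟩ := push_ne_zero hne
    simp only [Prod.mk.injEq] at hx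
    rw [← hx.1, ← hx.2]
    exact hKsub i x
  have hQsupp : ∀ b y, Q (b, y) ≠ 0 → (∀ i, y i ⊆ B.U b) ∧ μ b ≠ 0 := by
    intro b y hne
    have h1 : μ b ≠ 0 := by
      intro h0; apply hne; simp only [hQdef, resamp, h0, zero_mul]
    have h2 : R (b, y) ≠ 0 := by
      intro h0; apply hne; simp only [hQdef, resamp, h0, zero_div, mul_zero]
    exact ⟨hRsupp b y h2, h1⟩
  -- energy lemma
  have hen := energy_lemma B.U (fun b y => Q (b, y)) (fun b y => hQ.nonneg _)
    (by rw [← Fintype.sum_prod_type]; exact hQ.sum_eq)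
    (fun b y hne => (hQsupp b y hne).1) rho hrho
  -- averaged extremality
  have hav := avg_extremal hE B Q hQ hQ1
  set κ : ℝ := ∑ y, ∑ e, (∑ b, if e ∈ B.U b then Q (b, y) else 0) ^ 2 / ∑ b, Q (b, y) with hκ
  have e1 : ∑ b, ∑ y, Real.negMulLog (Q (b, y)) = hl Q := by
    unfold hl; rw [Fintype.sum_prod_type]
  have e2 : ∑ b, Real.negMulLog (∑ y, Q (b, y)) = hl μ := by
    unfold hl; simp_rw [hQ1]
  have e3 : ∑ y, Real.negMulLog (∑ b, Q (b, y)) = hl Qy := rfl
  -- expectation of ∑ |y_i|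
  have e4 : ∑ b, ∑ y, Q (b, y) * ∑ i, ((y i).card : ℝ) = ∑ i, ecard P (K i) := by
    have h1 : ∑ b, ∑ y, Q (b, y) * ∑ i, ((y i).card : ℝ)
        = ∑ x, Q x * (fun x : B.T × (Fin n → Finset E) => ∑ i, ((x.2 i).card : ℝ)) x := by
      rw [Fintype.sum_prod_type]
    rw [h1, ← sum_symm_mul G Q _ (by
      intro g x
      apply Finset.sum_congr rfl
      intro i _
      exact card_smul_eq g (x.2 i)), hQsymm, hR, sum_push_mul]
    simp only [ecard, Finset.mul_sum]
    rw [Finset.sum_comm]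
  rw [e1, e2, e3, e4] at hen
  -- the law of the union
  set V : Finset E → ℝ := push (fun y : Fin n → Finset E => Finset.univ.biUnion y) Qy with hV
  have hVeq : ∀ (g : G) (y : Fin n → Finset E),
      Finset.univ.biUnion (g • y) = g • Finset.univ.biUnion y := by
    intro g y
    ext e
    simp only [Finset.mem_biUnion, Finset.mem_univ, true_and, Pi.smul_apply]
    constructor
    · rintro ⟨i, hi⟩
      obtain ⟨e', he', rfl⟩ := Finset.mem_smul_finset.mp hi
      exact Finset.mem_smul_finset.mpr ⟨e', Finset.mem_biUnion.mpr ⟨i, Finset.mem_univ _, he'⟩, rfl⟩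
    · intro h
      obtain ⟨e', he', rfl⟩ := Finset.mem_smul_finset.mp h
      obtain ⟨i, -, hi⟩ := Finset.mem_biUnion.mp he'
      exact ⟨i, Finset.mem_smul_finset.mpr ⟨e', hi, rfl⟩⟩
  have hVp : IsProb V := isProb_push hQyprob
  have hVsupp : ∀ A, V A ≠ 0 → A ⊆ H := by
    intro A hA
    obtain ⟨y, hy, hy'⟩ := push_ne_zero hA
    obtain ⟨b, -, hb⟩ := Finset.exists_ne_zero_of_sum_ne_zero hy'
    have h1 := hQsupp b y hb
    rw [← hy]
    intro e he
    obtain ⟨i, -, hi⟩ := Finset.mem_biUnion.mp he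
    exact B.supp b h1.2 (h1.1 i hi)
  have hVext := hE V hVp.nonneg hVsupp
  have hVdp : Dv G V ≤ Dv G Qy := Dv_push_le G hVeq hQyprob.nonneg
  have hVcard : ecard V (fun A => A) = ecard P (fun x => B.U x.1 ∩ B'.U x.2) := by
    rw [hV, ecard_push]
    have h1 : ecard Qy (fun s => Finset.univ.biUnion s)
        = ecard (symm G Qy) (fun s => Finset.univ.biUnion s) := by
      unfold ecard
      rw [sum_symm_mul G Qy (fun s => ((Finset.univ.biUnion s).card : ℝ))]
      intro g s
      rw [hVeq, card_smul_eq]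
    rw [h1, hQysymm, ecard_push]
    congr 1
    funext x
    exact hKun x
  have hVnn : 0 ≤ Dv G V - l * ecard P (fun x => B.U x.1 ∩ B'.U x.2) + Ψ := by
    rw [hVcard, hVp.sum_eq, div_one, mul_one] at hVext
    have := mul_nonneg hlam.le (energy_nonneg V)
    linarith
  -- `Dv Qy`
  have hDQy : Dv G Qy = ent P Kt - hl Qy := by
    unfold Dv
    rw [hQysymm, ← ent_eq_hl]
  -- entropies under P
  have f1 : ent P (fun x : B.T × B'.T => (Kt x, x.1)) = hl R := by
    rw [hR, ← ent_eq_hl]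
    apply ent_congr
    intro x y
    simp only [Prod.mk.injEq]
    exact and_comm
  have f2 : ent P (fun x : B.T × B'.T => x.1) = hl (symm G μ) := by
    rw [ent_eq_hl, hm1]
  have f3 : ent P (fun x : B.T × B'.T => x.2) = hl (symm G B'.μ) := by
    rw [ent_eq_hl, hm2]
  have hsub := ent_submod hP (fun x : B.T × B'.T => x.1) (fun x => x.2) Kt
  have f4 : ent P (fun x : B.T × B'.T => (x.1, x.2, Kt x)) = hl P := by
    rw [← ent_id P]
    apply ent_congr
    intro x y
    constructor
    · intro h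
      simp only [Prod.mk.injEq] at h
      exact Prod.ext h.1 h.2.1
    · intro h; rw [h]
  have f5 : ent P (fun x : B.T × B'.T => (x.1, Kt x)) = hl R := by
    rw [ent_eq_hl, hR]
  have f6 : ent P (fun x : B.T × B'.T => (x.2, Kt x)) = ent P (fun x : B.T × B'.T => (Kt x, x.2)) := by
    apply ent_congr
    intro x y
    simp only [Prod.mk.injEq]
    exact and_comm
  rw [f4, f5, f6] at hsub
  -- F's
  have hc : ecard μ2 (fun x => B.U x.1 ∪ B'.U x.2) =
      ecard μ B.U + ecard B'.μ B'.U - ecard P (fun x => B.U x.1 ∩ B'.U x.2) := by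
    have h1 : ecard P (fun x => B.U x.1 ∩ B'.U x.2) = ecard μ2 (fun x => B.U x.1 ∩ B'.U x.2) := by
      unfold ecard
      rw [hPdef]
      apply sum_symm_mul
      intro g x
      have h2 : B.U (g • x).1 = g • B.U x.1 := B.equi g x.1
      have h3 : B'.U (g • x).2 = g • B'.U x.2 := B'.equi g x.2
      change ((B.U (g • x).1 ∩ B'.U (g • x).2).card : ℝ) = ((B.U x.1 ∩ B'.U x.2).card : ℝ)
      rw [h2, h3, ← Finset.smul_finset_inter, card_smul_eq]
    rw [h1]
    have h4 : ecard μ B.U = ∑ x : B.T × B'.T, μ2 x * ((B.U x.1).card : ℝ) := by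
      unfold ecard
      rw [Fintype.sum_prod_type]
      apply Finset.sum_congr rfl
      intro b _
      simp only [hμ2]
      rw [← Finset.sum_mul, ← Finset.mul_sum, B'.prob.sum_eq, mul_one]
    have h5 : ecard B'.μ B'.U = ∑ x : B.T × B'.T, μ2 x * ((B'.U x.2).card : ℝ) := by
      unfold ecard
      rw [Fintype.sum_prod_type_right]
      apply Finset.sum_congr rfl
      intro b _
      simp only [hμ2]
      rw [← Finset.sum_mul, ← Finset.sum_mul, B.prob.sum_eq, one_mul]
    rw [h4, h5]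
    unfold ecard
    rw [← Finset.sum_add_distrib, ← Finset.sum_sub_distrib]
    apply Finset.sum_congr rfl
    intro x _
    have h6 : (((B.U x.1 ∪ B'.U x.2).card : ℝ)) + ((B.U x.1 ∩ B'.U x.2).card : ℝ)
        = ((B.U x.1).card : ℝ) + ((B'.U x.2).card : ℝ) := by
      exact_mod_cast Finset.card_union_add_card_inter (B.U x.1) (B'.U x.2)
    linear_combination μ2 x * h6
  have hprodhl : hl μ2 = hl μ + hl B'.μ := hl_mul hμ.sum_eq B'.prob.sum_eq
  have hF : B.F l Ψ = hl (symm G μ) - hl μ - l * ecard μ B.U + Ψ := rfl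
  have hF' : B'.F l Ψ = hl (symm G B'.μ) - hl B'.μ - l * ecard B'.μ B'.U + Ψ := rfl
  have hF2 : (B.prod B').F l Ψ = hl P - hl μ2 - l * ecard μ2 (fun x => B.U x.1 ∪ B'.U x.2) + Ψ := rfl
  rw [hPlaw]
  change ent P (fun x : B.T × B'.T => (Kt x, x.1)) - ent P (fun x : B.T × B'.T => x.1) ≤
      (1 + n / (lam * rho)) * (B.F l Ψ + B'.F l Ψ - (B.prod B').F l Ψ
        + (ent P (fun x : B.T × B'.T => (Kt x, x.2)) - ent P (fun x : B.T × B'.T => x.2)))
      + n / (lam * rho) * B.F l Ψ + Real.log rho * ∑ i, ecard P (K i)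
  rw [f1, f2, f3]
  set hK2 : ℝ := ent P (fun x : B.T × B'.T => (Kt x, x.2)) - hl (symm G B'.μ) with hK2def
  set IQ : ℝ := hl μ + hl Qy - hl Q with hIQ
  set L : ℝ := Real.log rho * ∑ i, ecard P (K i) with hLdef
  -- κ bound
  have hκb : lam * κ ≤ B.F l Ψ + IQ := by
    rw [hF]
    linarith
  -- gain lower bound
  have hGlb : IQ ≤ B.F l Ψ + B'.F l Ψ - (B.prod B').F l Ψ + hK2 := by
    rw [hF, hF', hF2, hc, hprodhl]
    linarith
  have hn : (0 : ℝ) ≤ (n : ℝ) / rho := div_nonneg (Nat.cast_nonneg _) hrho.le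
  have hκb2 : (n : ℝ) / rho * κ ≤ n / (lam * rho) * (B.F l Ψ + IQ) := by
    have h1 : κ ≤ (B.F l Ψ + IQ) / lam := by
      rw [le_div_iff₀ hlam]; linarith
    calc (n : ℝ) / rho * κ ≤ n / rho * ((B.F l Ψ + IQ) / lam) :=
          mul_le_mul_of_nonneg_left h1 hn
      _ = n / (lam * rho) * (B.F l Ψ + IQ) := by
          field_simp
  have hε : (0 : ℝ) ≤ (n : ℝ) / (lam * rho) :=
    div_nonneg (Nat.cast_nonneg _) (mul_pos hlam hrho).le
  have hfin : hl R - hl (symm G μ) ≤ (1 + n / (lam * rho)) * IQ + n / (lam * rho) * B.F l Ψ + L := by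
    have : hl Q - hl μ ≤ IQ + L + (n : ℝ) / rho * κ := by
      rw [hIQ]; linarith
    rw [← hQent]
    linarith
  have := mul_le_mul_of_nonneg_left hGlb (by linarith : (0 : ℝ) ≤ 1 + n / (lam * rho))
  linarith

end

end Crest.Agent.R055
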