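import Crest.Agent.R055.Defs
import Crest.Agent.R055.CountBlk

/-!
Row 55 (S0076): push-forwards of weights, transport of entropies, n-block laws (helper212).
-/

set_option autoImplicit false

namespace Crest.Agent.R055.Ch

open Finset Real
open scoped Pointwise
set_option linter.unusedSectionVars false

section push

variable {Ω Ω' : Type*} [Fintype Ω] [Fintype Ω']

open Classical in
/-- `P'` is the push-forward of `P` under `q`. -/
def IsPush (P : Ω → ℝ) (P' : Ω' → ℝ) (q : Ω → Ω') : Prop :=
  ∀ ω', P' ω' = ∑ ω, if q ω = ω' then P ω else 0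

variable {P : Ω → ℝ} {P' : Ω' → ℝ} {q : Ω → Ω'}

theorem IsPush.sum_mul (h : IsPush P P' q) (f : Ω' → ℝ) :
    ∑ ω', P' ω' * f ω' = ∑ ω, P ω * f (q ω) := by
  classical
  have : ∀ ω', P' ω' * f ω' = ∑ ω, (if q ω = ω' then P ω * f (q ω) else 0) := by
    intro ω'
    rw [h ω', Finset.sum_mul]
    apply Finset.sum_congr rfl
    intro ω _
    by_cases hh : q ω = ω'
    · simp [hh]
    · simp [hh]
  simp only [this]
  rw [Finset.sum_comm]
  apply Finset.sum_congr rfl
  intro ω _
  simp

theorem IsPush.cls {S : Type*} (h : IsPush P P' q) (X : Ω' → S) (ω : Ω) :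
    cls P' X (q ω) = cls P (fun ω => X (q ω)) ω := by
  classical
  have h1 := h.sum_mul (fun ω' => if X ω' = X (q ω) then 1 else 0)
  unfold R055.cls
  calc (∑ ω', if X ω' = X (q ω) then P' ω' else 0)
      = ∑ ω', P' ω' * (if X ω' = X (q ω) then 1 else 0) := by
        apply Finset.sum_congr rfl; intro ω' _; split_ifs <;> simp
    _ = ∑ ω₁, P ω₁ * (if X (q ω₁) = X (q ω) then 1 else 0) := h1
    _ = ∑ ω', if X (q ω') = X (q ω) then P ω' else 0 := by
        apply Finset.sum_congr rfl; intro ω' _; split_ifs <;> simp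

theorem IsPush.ent {S : Type*} (h : IsPush P P' q) (X : Ω' → S) :
    ent P' X = ent P (fun ω => X (q ω)) := by
  unfold R055.ent
  rw [h.sum_mul]
  apply Finset.sum_congr rfl
  intro ω _
  rw [h.cls]

theorem IsPush.ecard {E : Type} [Fintype E] [DecidableEq E] (h : IsPush P P' q)
    (U : Ω' → Finset E) : ecard P' U = ecard P (fun ω => U (q ω)) := by
  unfold R055.ecard
  exact h.sum_mul _

theorem IsPush.symm {G : Type*} [Group G] [Fintype G] [MulAction G Ω] [MulAction G Ω']
    (hq : ∀ (g : G) (ω : Ω), q (g • ω) = g • q ω) (h : IsPush P P' q) :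
    IsPush (symm G P) (symm G P') q := by
  classical
  intro ω'
  unfold R055.symm
  have h1 : ∀ g : G, P' (g⁻¹ • ω') = ∑ ω, if q ω = ω' then P (g⁻¹ • ω) else 0 := by
    intro g
    rw [h]
    refine Fintype.sum_equiv (MulAction.toPerm (g : G)) _ _ (fun ω => ?_)
    simp only [MulAction.toPerm_apply]
    rw [inv_smul_smul, hq]
    by_cases hh : q ω = g⁻¹ • ω'
    · rw [if_pos hh, if_pos (by rw [hh, smul_inv_smul])]
    · rw [if_neg hh, if_neg]
      intro h'
      exact hh (by rw [← h', inv_smul_smul])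
  simp only [h1]
  rw [Finset.sum_comm, Finset.sum_div]
  apply Finset.sum_congr rfl
  intro ω _
  split_ifs
  · rfl
  · simp

theorem IsPush.comp {Ω'' : Type*} [Fintype Ω''] {P'' : Ω'' → ℝ} {q' : Ω' → Ω''}
    (h : IsPush P P' q) (h' : IsPush P' P'' q') : IsPush P P'' (fun ω => q' (q ω)) := by
  classical
  intro ω''
  rw [h' ω'']
  have h1 := h.sum_mul (fun ω' => if q' ω' = ω'' then 1 else 0)
  calc (∑ ω', if q' ω' = ω'' then P' ω' else 0)
      = ∑ ω', P' ω' * (if q' ω' = ω'' then 1 else 0) := by
        apply Finset.sum_congr rfl; intro ω' _; split_ifs <;> simp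
    _ = ∑ ω₁, P ω₁ * (if q' (q ω₁) = ω'' then 1 else 0) := h1
    _ = ∑ ω', if q' (q ω') = ω'' then P ω' else 0 := by
        apply Finset.sum_congr rfl; intro ω' _; split_ifs <;> simp

theorem IsPush.of_equiv (e : Ω ≃ Ω') (h : ∀ ω, P' (e ω) = P ω) : IsPush P P' e := by
  classical
  intro ω'
  have : ∀ ω, (if e ω = ω' then P ω else 0) = if ω = e.symm ω' then P' ω' else 0 := by
    intro ω
    by_cases hh : e ω = ω'
    · rw [if_pos hh, if_pos (by rw [← hh, Equiv.symm_apply_apply]), ← hh, h]
    · rw [if_neg hh, if_neg]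
      intro h'
      exact hh (by rw [h', Equiv.apply_symm_apply])
  simp only [this]
  simp

end push

section nblock

variable {T : Type*} [Fintype T]

/-- product weight -/
def piW (μ : T → ℝ) (n : ℕ) : (Fin n → T) → ℝ := fun x => ∏ i, μ (x i)

theorem piW_isProb {μ : T → ℝ} (h : IsProb μ) (n : ℕ) : IsProb (piW μ n) := by
  classical
  constructor
  · intro x; exact Finset.prod_nonneg (fun i _ => h.nonneg _)
  · unfold piW
    have h1 := Finset.prod_univ_sum (fun _ : Fin n => (Finset.univ : Finset T)) (fun _ t => μ t)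
    rw [Fintype.piFinset_univ] at h1
    rw [← h1]
    simp [h.sum_eq]

/-- marginals of a product weight -/
theorem piW_push {μ : T → ℝ} (h : IsProb μ) {k n : ℕ} (σ : Fin k → Fin n)
    (hσ : Function.Injective σ) : IsPush (piW μ n) (piW μ k) (fun x => x ∘ σ) := by
  classical
  intro y
  have h1 : ∀ x : Fin n → T, (if x ∘ σ = y then piW μ n x else 0)
      = ∏ i, (if ∀ j, σ j = i → x i = y j then μ (x i) else 0) := by
    intro x
    by_cases hx : x ∘ σ = y
    · rw [if_pos hx]
      unfold piW
      apply Finset.prod_congr rfl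
      intro i _
      rw [if_pos]
      intro j hj
      rw [← hx, ← hj]; rfl
    · rw [if_neg hx]
      have : ∃ j, x (σ j) ≠ y j := by
        by_contra hcon
        push Not at hcon
        exact hx (funext hcon)
      obtain ⟨j, hj⟩ := this
      symm
      apply Finset.prod_eq_zero (Finset.mem_univ (σ j))
      rw [if_neg]
      intro hcon
      exact hj (hcon j rfl)
  have h2 : ∑ x : Fin n → T, ∏ i, (if ∀ j, σ j = i → x i = y j then μ (x i) else 0)
      = ∏ i, ∑ t : T, (if ∀ j, σ j = i → t = y j then μ t else 0) := by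
    rw [Finset.prod_univ_sum]
    simp
  have h7 : (∑ x : Fin n → T, @ite ℝ ((fun x : Fin n → T => x ∘ σ) x = y)
      (Classical.propDecidable _) (piW μ n x) 0)
      = ∑ x : Fin n → T, ∏ i, (if ∀ j, σ j = i → x i = y j then μ (x i) else 0) := by
    apply Finset.sum_congr rfl
    intro x _
    rw [← h1 x]
    by_cases hx : x ∘ σ = y
    · rw [if_pos hx, if_pos hx]
    · rw [if_neg hx, if_neg hx]
  rw [h7, h2]
  have h3 : ∀ i, (∑ t : T, if ∀ j, σ j = i → t = y j then μ t else 0)
      = ∏ j, (if σ j = i then μ (y j) else 1) := by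
    intro i
    by_cases hi : ∃ j, σ j = i
    · obtain ⟨j, rfl⟩ := hi
      have h4 : ∀ t, (∀ j', σ j' = σ j → t = y j') ↔ t = y j := by
        intro t
        constructor
        · intro hh; exact hh j rfl
        · rintro rfl j' hj'
          rw [hσ hj']
      simp only [h4]
      rw [Finset.sum_ite_eq' Finset.univ (y j) μ, if_pos (Finset.mem_univ _)]
      symm
      rw [Finset.prod_eq_single j]
      · rw [if_pos rfl]
      · intro j' _ hj'
        rw [if_neg]
        intro hcon
        exact hj' (hσ hcon)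
      · intro hcon; exact absurd (Finset.mem_univ _) hcon
    · have h5 : ∀ t, (∀ j, σ j = i → t = y j) := fun t j hj => absurd ⟨j, hj⟩ hi
      have h8 : ∀ t, (if ∀ j, σ j = i → t = y j then μ t else 0) = μ t :=
        fun t => if_pos (h5 t)
      have h6 : ∀ j, (if σ j = i then μ (y j) else 1) = 1 := fun j => if_neg (fun hj => hi ⟨j, hj⟩)
      rw [Finset.sum_congr rfl (fun t _ => h8 t), Finset.prod_congr rfl (fun j _ => h6 j),
        h.sum_eq, Finset.prod_const_one]
  simp only [h3]
  rw [Finset.prod_comm]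
  unfold piW
  apply Finset.prod_congr rfl
  intro j _
  simp

end nblock

end Crest.Agent.R055.Ch
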