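import Mathlib
import Crest.Prelude.Def_FinProb

/-! Spread lemma (Park--Pham / Tran--Vu style), constant `8`. -/

set_option autoImplicit false
set_option linter.unusedSectionVars false

namespace Crest.Agent.R055

open Finset

section Spread
variable {X : Type*} [Fintype X] [DecidableEq X]

/-- product weight of the subset `W` -/
noncomputable def wt (q : ℝ) (W : Finset X) : ℝ :=
  q ^ W.card * (1 - q) ^ (Fintype.card X - W.card)

lemma wt_nonneg {q : ℝ} (h0 : 0 ≤ q) (h1 : q ≤ 1) (W : Finset X) : 0 ≤ wt q W :=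
  mul_nonneg (pow_nonneg h0 _) (pow_nonneg (by linarith) _)

lemma sum_wt (q : ℝ) : ∑ W : Finset X, wt q W = 1 := by
  have h := Finset.sum_pow_mul_eq_add_pow q (1 - q) (Finset.univ : Finset X)
  simp only [Finset.powerset_univ, Finset.card_univ] at h
  unfold wt
  rw [h]; simp

/-- probability that a random set contains no member of `T` -/
noncomputable def failP (q : ℝ) (T : Finset (Finset X)) : ℝ :=
  ∑ W : Finset X, if ∀ S ∈ T, ¬ S ⊆ W then wt q W else 0

lemma failP_nonneg {q : ℝ} (h0 : 0 ≤ q) (h1 : q ≤ 1) (T : Finset (Finset X)) :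
    0 ≤ failP q T := by
  unfold failP
  refine Finset.sum_nonneg fun W _ => ?_
  split_ifs
  · exact wt_nonneg h0 h1 W
  · exact le_rfl

lemma failP_le_one {q : ℝ} (h0 : 0 ≤ q) (h1 : q ≤ 1) (T : Finset (Finset X)) :
    failP q T ≤ 1 := by
  rw [← sum_wt (X := X) q]
  unfold failP
  refine Finset.sum_le_sum fun W _ => ?_
  split_ifs
  · exact le_rfl
  · exact wt_nonneg h0 h1 W

lemma inner_union (b : ℝ) {W W1 : Finset X} (h : W1 ⊆ W) :
    ∑ W2 : Finset X, (if W1 ∪ W2 = W then wt b W2 else 0)
      = b ^ (W \ W1).card * (1 - b) ^ (Fintype.card X - W.card) := by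
  rw [← Finset.sum_filter]
  have : ∑ W2 ∈ (Finset.univ : Finset (Finset X)).filter (fun W2 => W1 ∪ W2 = W), wt b W2
      = ∑ Z ∈ W1.powerset, wt b ((W \ W1) ∪ Z) := by
    refine Finset.sum_bij' (fun W2 _ => W2 ∩ W1) (fun Z _ => (W \ W1) ∪ Z) ?_ ?_ ?_ ?_ ?_
    · intro W2 _
      simp
    · intro Z hZ
      simp only [Finset.mem_powerset] at hZ
      simp only [Finset.mem_filter, Finset.mem_univ, true_and]
      ext x
      simp only [Finset.mem_union, Finset.mem_sdiff]
      constructor
      · rintro (hx | ⟨hx, _⟩ | hx)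
        · exact h hx
        · exact hx
        · exact h (hZ hx)
      · intro hx
        by_cases hx1 : x ∈ W1
        · exact Or.inl hx1
        · exact Or.inr (Or.inl ⟨hx, hx1⟩)
    · intro W2 hW2
      simp only [Finset.mem_filter, Finset.mem_univ, true_and] at hW2
      ext x
      simp only [Finset.mem_union, Finset.mem_sdiff, Finset.mem_inter]
      rw [← hW2]
      simp only [Finset.mem_union]
      tauto
    · intro Z hZ
      simp only [Finset.mem_powerset] at hZ
      ext x
      simp only [Finset.mem_union, Finset.mem_sdiff, Finset.mem_inter]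
      constructor
      · rintro ⟨⟨_, h1⟩ | h1, h2⟩
        · exact absurd h2 h1
        · exact h1
      · intro hx
        exact ⟨Or.inr hx, hZ hx⟩
    · intro W2 hW2
      simp only [Finset.mem_filter, Finset.mem_univ, true_and] at hW2
      congr 1
      ext x
      simp only [Finset.mem_union, Finset.mem_sdiff, Finset.mem_inter]
      rw [← hW2]
      simp only [Finset.mem_union]
      tauto
  rw [this]
  have hcard : ∀ Z ∈ W1.powerset, wt b ((W \ W1) ∪ Z)
      = (b ^ (W \ W1).card * (1 - b) ^ (Fintype.card X - W.card)) *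
        (b ^ Z.card * (1 - b) ^ (W1.card - Z.card)) := by
    intro Z hZ
    simp only [Finset.mem_powerset] at hZ
    have hd : Disjoint (W \ W1) Z :=
      Finset.disjoint_of_subset_right hZ Finset.sdiff_disjoint
    unfold wt
    rw [Finset.card_union_of_disjoint hd]
    have h1 : (W \ W1).card = W.card - W1.card := Finset.card_sdiff_of_subset h
    have h2 : W1.card ≤ W.card := Finset.card_le_card h
    have h3 : W.card ≤ Fintype.card X := Finset.card_le_univ W
    have h4 : Z.card ≤ W1.card := Finset.card_le_card hZ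
    have h5 : Fintype.card X - ((W \ W1).card + Z.card)
        = (Fintype.card X - W.card) + (W1.card - Z.card) := by omega
    rw [h5, pow_add, pow_add]
    ring
  rw [Finset.sum_congr rfl hcard, ← Finset.mul_sum, Finset.sum_pow_mul_eq_add_pow]
  simp

lemma sum_union (a b : ℝ) (f : Finset X → ℝ) :
    ∑ W1 : Finset X, ∑ W2 : Finset X, wt a W1 * wt b W2 * f (W1 ∪ W2)
      = ∑ W : Finset X, wt (1 - (1 - a) * (1 - b)) W * f W := by
  have h1 : ∀ W1 W2 : Finset X, wt a W1 * wt b W2 * f (W1 ∪ W2)
      = ∑ W : Finset X, wt a W1 * (if W1 ∪ W2 = W then wt b W2 else 0) * f W := by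
    intro W1 W2
    rw [Finset.sum_eq_single (W1 ∪ W2)]
    · simp
    · intro W _ hW
      rw [if_neg (Ne.symm hW)]
      simp
    · simp
  simp_rw [h1]
  calc ∑ W1 : Finset X, ∑ W2 : Finset X, ∑ W : Finset X,
        wt a W1 * (if W1 ∪ W2 = W then wt b W2 else 0) * f W
      = ∑ W : Finset X, ∑ W1 : Finset X, ∑ W2 : Finset X,
        wt a W1 * (if W1 ∪ W2 = W then wt b W2 else 0) * f W := by
        symm
        rw [Finset.sum_comm]
        refine Finset.sum_congr rfl fun W1 _ => ?_
        rw [Finset.sum_comm]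
    _ = _ := by
        refine Finset.sum_congr rfl fun W _ => ?_
        have h2 : ∀ W1 : Finset X, ∑ W2 : Finset X,
            wt a W1 * (if W1 ∪ W2 = W then wt b W2 else 0) * f W
            = if W1 ∈ W.powerset then
                (a ^ W1.card * ((1 - a) * b) ^ (W.card - W1.card)) *
                (((1 - a) * (1 - b)) ^ (Fintype.card X - W.card) * f W) else 0 := by
          intro W1
          rw [← Finset.sum_mul, ← Finset.mul_sum]
          by_cases hs : W1 ⊆ W
          · rw [inner_union b hs, if_pos (Finset.mem_powerset.2 hs)]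
            have h1 : (W \ W1).card = W.card - W1.card := Finset.card_sdiff_of_subset hs
            have h2 : W1.card ≤ W.card := Finset.card_le_card hs
            have h3 : W.card ≤ Fintype.card X := Finset.card_le_univ W
            have h4 : Fintype.card X - W1.card
              = (Fintype.card X - W.card) + (W.card - W1.card) := by omega
            unfold wt
            rw [h1, h4, pow_add, mul_pow, mul_pow]
            ring
          · rw [if_neg (fun h => hs (Finset.mem_powerset.1 h))]
            have : ∑ W2 : Finset X, (if W1 ∪ W2 = W then wt b W2 else 0) = 0 := by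
              refine Finset.sum_eq_zero fun W2 _ => ?_
              rw [if_neg]
              intro h
              exact hs (h ▸ Finset.subset_union_left)
            rw [this]; simp
        simp_rw [h2]
        rw [← Finset.sum_filter, Finset.filter_mem_eq_inter, Finset.univ_inter,
          ← Finset.sum_mul, Finset.sum_pow_mul_eq_add_pow]
        unfold wt
        have : a + (1 - a) * b = 1 - (1 - a) * (1 - b) := by ring
        rw [this]
        have : 1 - (1 - (1 - a) * (1 - b)) = (1 - a) * (1 - b) := by ring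
        rw [this]
        ring

/-- a decreasing family: monotonicity in `q` -/
lemma failP_union_le {a b : ℝ} (ha0 : 0 ≤ a) (ha1 : a ≤ 1) (hb0 : 0 ≤ b) (hb1 : b ≤ 1)
    (T : Finset (Finset X)) :
    failP (1 - (1 - a) * (1 - b)) T ≤ failP a T := by
  have h := sum_union (X := X) a b (fun W => if ∀ S ∈ T, ¬ S ⊆ W then (1 : ℝ) else 0)
  have e1 : failP (1 - (1 - a) * (1 - b)) T
      = ∑ W : Finset X, wt (1 - (1 - a) * (1 - b)) W *
        (if ∀ S ∈ T, ¬ S ⊆ W then (1 : ℝ) else 0) := by
    unfold failP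
    refine Finset.sum_congr rfl fun W _ => ?_
    split_ifs <;> simp
  rw [e1, ← h]
  unfold failP
  refine Finset.sum_le_sum fun W1 _ => ?_
  split_ifs with h1
  · calc ∑ W2 : Finset X, wt a W1 * wt b W2 *
          (if ∀ S ∈ T, ¬ S ⊆ W1 ∪ W2 then (1 : ℝ) else 0)
        ≤ ∑ W2 : Finset X, wt a W1 * wt b W2 := by
          refine Finset.sum_le_sum fun W2 _ => ?_
          have := mul_nonneg (wt_nonneg ha0 ha1 W1) (wt_nonneg hb0 hb1 W2)
          split_ifs
          · simp
          · simpa using this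
      _ = wt a W1 := by rw [← Finset.mul_sum, sum_wt, mul_one]
  · refine le_of_eq (Finset.sum_eq_zero fun W2 _ => ?_)
    rw [if_neg]
    · simp
    · intro h2
      exact h1 fun S hS hSW => h2 S hS (hSW.trans Finset.subset_union_left)

lemma failP_anti {a q : ℝ} (ha0 : 0 ≤ a) (haq : a ≤ q) (hq : q ≤ 1)
    (T : Finset (Finset X)) : failP q T ≤ failP a T := by
  rcases eq_or_lt_of_le (haq.trans hq) with h1 | h1
  · have : q = a := le_antisymm (h1 ▸ hq) haq
    rw [this]
  · have h2 : 0 < 1 - a := by linarith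
    have := failP_union_le (a := a) (b := (q - a) / (1 - a)) ha0 (haq.trans hq)
      (div_nonneg (by linarith) h2.le) ((div_le_one h2).2 (by linarith)) T
    have h3 : 1 - (1 - a) * (1 - (q - a) / (1 - a)) = q := by
      field_simp
      ring
    rwa [h3] at this

/-- inclusion-minimal elements of `{S \ W : S ∈ T}` -/
def frags (T : Finset (Finset X)) (W : Finset X) : Finset (Finset X) :=
  (T.image (fun S => S \ W)).filter (fun A => ∀ S ∈ T, S \ W ⊆ A → S \ W = A)

lemma frags_cover (T : Finset (Finset X)) (W : Finset X) {S : Finset X} (hS : S ∈ T) :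
    ∃ A ∈ frags T W, A ⊆ S := by
  obtain ⟨A, hA, hmin⟩ := Finset.exists_le_minimal (T.image (fun S => S \ W))
    (Finset.mem_image_of_mem (fun S => S \ W) hS)
  refine ⟨A, ?_, ?_⟩
  · unfold frags
    rw [Finset.mem_filter]
    refine ⟨hmin.1, fun S' hS' hsub => ?_⟩
    exact le_antisymm hsub (hmin.2 (Finset.mem_image_of_mem (fun S => S \ W) hS') hsub)
  · exact (show A ⊆ S \ W from hA).trans Finset.sdiff_subset

lemma frags_disjoint {T : Finset (Finset X)} {W A : Finset X} (h : A ∈ frags T W) :
    Disjoint W A := by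
  unfold frags at h
  rw [Finset.mem_filter, Finset.mem_image] at h
  obtain ⟨⟨S, _, rfl⟩, _⟩ := h
  exact Finset.disjoint_sdiff

lemma frags_mem {T : Finset (Finset X)} {W A : Finset X} (h : A ∈ frags T W) :
    ∃ S ∈ T, S \ W = A := by
  unfold frags at h
  rw [Finset.mem_filter, Finset.mem_image] at h
  exact h.1

/-- a chosen member of `T` inside `Z` -/
noncomputable def pick (T : Finset (Finset X)) (Z : Finset X) : Finset X :=
  open Classical in if h : ∃ S ∈ T, S ⊆ Z then h.choose else ∅

lemma pick_card_le {T : Finset (Finset X)} {l : ℕ} (hl : ∀ S ∈ T, S.card ≤ l)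
    (Z : Finset X) : (pick T Z).card ≤ l := by
  unfold pick
  split_ifs with h
  · exact hl _ h.choose_spec.1
  · simp

lemma frags_subset_pick {T : Finset (Finset X)} {W A : Finset X} (h : A ∈ frags T W) :
    A ⊆ pick T (W ∪ A) := by
  obtain ⟨S, hS, hSA⟩ := frags_mem h
  have hex : ∃ S ∈ T, S ⊆ W ∪ A := by
    refine ⟨S, hS, ?_⟩
    rw [← hSA]
    intro x hx
    simp only [Finset.mem_union, Finset.mem_sdiff]
    tauto
  unfold pick
  rw [dif_pos hex]
  have h1 := hex.choose_spec.1
  have h2 := hex.choose_spec.2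
  unfold frags at h
  rw [Finset.mem_filter] at h
  have h3 : hex.choose \ W ⊆ A := by
    intro x hx
    rw [Finset.mem_sdiff] at hx
    rcases Finset.mem_union.1 (h2 hx.1) with h4 | h4
    · exact absurd h4 hx.2
    · exact h4
  have h4 := h.2 _ h1 h3
  intro x hx
  have h5 : x ∈ hex.choose \ W := by rw [h4]; exact hx
  exact Finset.sdiff_subset h5

/-- the tail `∑_{l' < j ≤ l} (l choose j) x ^ j` -/
noncomputable def bnd (l l' : ℕ) (x : ℝ) : ℝ :=
  ∑ j ∈ Finset.range (l + 1), (l.choose j : ℝ) * (if l' < j then x ^ j else 0)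

lemma bnd_mono {l k : ℕ} (h : k ≤ l) (l' : ℕ) {x : ℝ} (hx : 0 ≤ x) :
    bnd k l' x ≤ bnd l l' x := by
  unfold bnd
  calc ∑ j ∈ Finset.range (k + 1), (k.choose j : ℝ) * (if l' < j then x ^ j else 0)
      ≤ ∑ j ∈ Finset.range (k + 1), (l.choose j : ℝ) * (if l' < j then x ^ j else 0) := by
        refine Finset.sum_le_sum fun j _ => ?_
        refine mul_le_mul_of_nonneg_right ?_ ?_
        · exact_mod_cast Nat.choose_le_choose j h
        · split_ifs <;> positivity
    _ ≤ _ := by
        refine Finset.sum_le_sum_of_subset_of_nonneg ?_ ?_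
        · intro j
          simp only [Finset.mem_range]
          omega
        · intro j _ _
          refine mul_nonneg (Nat.cast_nonneg _) ?_
          split_ifs <;> positivity

lemma sum_powerset_tail (P : Finset X) (l' : ℕ) (x : ℝ) :
    ∑ A ∈ P.powerset, (if l' < A.card then x ^ A.card else 0) = bnd P.card l' x := by
  unfold bnd
  rw [Finset.sum_powerset_apply_card (fun j => if l' < j then x ^ j else 0)]
  refine Finset.sum_congr rfl fun j _ => ?_
  rw [nsmul_eq_mul]

/-- the fragment counting inequality -/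
lemma frag_count {r q : ℝ} (hr : 0 ≤ r) (hq0 : 0 < q) (hq1 : q ≤ 1)
    (T : Finset (Finset X)) {l : ℕ} (hl : ∀ S ∈ T, S.card ≤ l) (l' : ℕ) :
    ∑ W : Finset X, wt q W *
        (∑ A ∈ (frags T W).filter (fun A => l' < A.card), r ^ A.card)
      ≤ bnd l l' (r / q) := by
  classical
  set x : ℝ := r / q with hxdef
  have hx : 0 ≤ x := div_nonneg hr hq0.le
  let g : Finset X × Finset X → ℝ := fun z => wt q z.1 * x ^ z.2.card
  let φ : Finset X × Finset X → Finset X × Finset X := fun z => (z.1 ∪ z.2, z.2)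
  let s : Finset (Finset X × Finset X) :=
    Finset.univ.filter (fun z => z.2 ∈ frags T z.1 ∧ l' < z.2.card)
  let t : Finset (Finset X × Finset X) :=
    Finset.univ.filter (fun z => z.2 ⊆ pick T z.1 ∧ l' < z.2.card)
  have hinj : Set.InjOn φ (s : Set (Finset X × Finset X)) := by
    rintro ⟨W, A⟩ h1 ⟨W', A'⟩ h2 h
    simp only [s, Finset.coe_filter, Finset.mem_univ, true_and, Set.mem_ofPred_eq] at h1 h2
    simp only [φ, Prod.mk.injEq] at h
    obtain ⟨h3, rfl⟩ := h
    have d1 := frags_disjoint h1.1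
    have d2 := frags_disjoint h2.1
    have : W = W' := by
      have e1 : (W ∪ A) \ A = W := by
        rw [Finset.union_sdiff_right]
        exact Finset.sdiff_eq_self_of_disjoint d1
      have e2 : (W' ∪ A) \ A = W' := by
        rw [Finset.union_sdiff_right]
        exact Finset.sdiff_eq_self_of_disjoint d2
      rw [← e1, ← e2, h3]
    rw [this]
  have hmap : ∀ z ∈ s, φ z ∈ t := by
    rintro ⟨W, A⟩ h1
    simp only [s, t, φ, Finset.mem_filter, Finset.mem_univ, true_and] at h1 ⊢
    exact ⟨frags_subset_pick h1.1, h1.2⟩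
  have hterm : ∀ z ∈ s, wt q z.1 * r ^ z.2.card ≤ g (φ z) := by
    rintro ⟨W, A⟩ h1
    simp only [s, Finset.mem_filter, Finset.mem_univ, true_and] at h1
    have d1 := frags_disjoint h1.1
    simp only [g, φ]
    unfold wt
    rw [Finset.card_union_of_disjoint d1, hxdef, div_pow, pow_add]
    have h5 : W.card + A.card ≤ Fintype.card X := by
      rw [← Finset.card_union_of_disjoint d1]
      exact Finset.card_le_univ _
    have h6 : Fintype.card X - W.card = (Fintype.card X - (W.card + A.card)) + A.card := by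
      omega
    rw [h6, pow_add]
    have h7 : (1 - q) ^ A.card ≤ 1 := pow_le_one₀ (by linarith) (by linarith)
    have h8 : 0 ≤ q ^ W.card * (1 - q) ^ (Fintype.card X - (W.card + A.card)) * r ^ A.card := by
      have : 0 ≤ 1 - q := by linarith
      positivity
    have h9 : q ^ A.card ≠ 0 := pow_ne_zero _ hq0.ne'
    calc q ^ W.card * ((1 - q) ^ (Fintype.card X - (W.card + A.card)) * (1 - q) ^ A.card) *
          r ^ A.card
        = (q ^ W.card * (1 - q) ^ (Fintype.card X - (W.card + A.card)) * r ^ A.card) *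
          (1 - q) ^ A.card := by ring
      _ ≤ (q ^ W.card * (1 - q) ^ (Fintype.card X - (W.card + A.card)) * r ^ A.card) * 1 :=
          mul_le_mul_of_nonneg_left h7 h8
      _ = _ := by field_simp
  have hg : ∀ z, 0 ≤ g z := fun z =>
    mul_nonneg (wt_nonneg hq0.le hq1 _) (pow_nonneg hx _)
  calc ∑ W : Finset X, wt q W *
        (∑ A ∈ (frags T W).filter (fun A => l' < A.card), r ^ A.card)
      = ∑ z ∈ s, wt q z.1 * r ^ z.2.card := by
        simp only [s]
        rw [Finset.sum_filter, ← Finset.univ_product_univ, Finset.sum_product]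
        refine Finset.sum_congr rfl fun W _ => ?_
        rw [Finset.mul_sum, ← Finset.sum_filter]
        refine Finset.sum_congr ?_ fun _ _ => rfl
        ext A
        simp
    _ ≤ ∑ z ∈ s, g (φ z) := Finset.sum_le_sum hterm
    _ = ∑ z ∈ s.image φ, g z := (Finset.sum_image hinj).symm
    _ ≤ ∑ z ∈ t, g z := by
        refine Finset.sum_le_sum_of_subset_of_nonneg ?_ fun z _ _ => hg z
        intro z hz
        obtain ⟨y, hy, rfl⟩ := Finset.mem_image.1 hz
        exact hmap y hy
    _ = ∑ Z : Finset X, wt q Z *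
          ∑ A ∈ (pick T Z).powerset, (if l' < A.card then x ^ A.card else 0) := by
        simp only [t, g]
        rw [Finset.sum_filter, ← Finset.univ_product_univ, Finset.sum_product]
        refine Finset.sum_congr rfl fun Z _ => ?_
        rw [Finset.mul_sum, ← Finset.sum_filter]
        have : (pick T Z).powerset = (Finset.univ : Finset (Finset X)).filter
          (fun A => A ⊆ pick T Z) := by
          ext A; simp
        rw [this, Finset.sum_filter, Finset.sum_filter]
        refine Finset.sum_congr rfl fun A _ => ?_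
        by_cases h1 : A ⊆ pick T Z <;> by_cases h2 : l' < A.card <;> simp [h1, h2]
    _ ≤ ∑ Z : Finset X, wt q Z * bnd l l' x := by
        refine Finset.sum_le_sum fun Z _ => ?_
        refine mul_le_mul_of_nonneg_left ?_ (wt_nonneg hq0.le hq1 _)
        rw [sum_powerset_tail]
        exact bnd_mono (pick_card_le hl Z) l' hx
    _ = bnd l l' x := by rw [← Finset.sum_mul, sum_wt, one_mul]

/-- the inductive statement -/
def Good (X : Type*) [Fintype X] [DecidableEq X] (r : ℝ) (l : ℕ) (q c : ℝ) : Prop :=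
  ∀ (T : Finset (Finset X)) (κ : ℝ), (∀ S ∈ T, S.card ≤ l) →
    (∀ G : Finset (Finset X), (∀ S ∈ T, ∃ A ∈ G, A ⊆ S) → κ ≤ ∑ A ∈ G, r ^ A.card) →
    failP q T * κ ≤ c

lemma good_zero (r : ℝ) {q : ℝ} (h0 : 0 ≤ q) (h1 : q ≤ 1) : Good X r 0 q 0 := by
  intro T κ hT hκ
  by_cases he : ∅ ∈ T
  · have : failP q T = 0 := by
      unfold failP
      refine Finset.sum_eq_zero fun W _ => ?_
      rw [if_neg]
      intro h
      exact h ∅ he (Finset.empty_subset _)
    rw [this, zero_mul]
  · have hT0 : T = ∅ := by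
      by_contra hne
      obtain ⟨S, hS⟩ := Finset.nonempty_iff_ne_empty.2 hne
      have := hT S hS
      have : S = ∅ := Finset.card_eq_zero.1 (by omega)
      exact he (this ▸ hS)
    have h2 : κ ≤ 0 := by
      have := hκ ∅ (by simp [hT0])
      simpa using this
    exact mul_nonpos_of_nonneg_of_nonpos (failP_nonneg h0 h1 T) h2

lemma good_step {r : ℝ} (hr : 0 ≤ r) {l l' : ℕ} {q1 q2 c' : ℝ} (hq1 : 0 < q1) (hq1' : q1 ≤ 1)
    (hq2 : 0 ≤ q2) (hq2' : q2 ≤ 1) (hc' : 0 ≤ c') (h : Good X r l' q2 c') :
    Good X r l (1 - (1 - q1) * (1 - q2)) (c' + bnd l l' (r / q1)) := by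
  classical
  intro T κ hT hκ
  have hx : 0 ≤ r / q1 := div_nonneg hr hq1.le
  have hb : 0 ≤ bnd l l' (r / q1) := by
    unfold bnd
    refine Finset.sum_nonneg fun j _ => mul_nonneg (Nat.cast_nonneg _) ?_
    split_ifs <;> positivity
  have hq0 : 0 ≤ 1 - (1 - q1) * (1 - q2) := by nlinarith
  have hq1'' : 1 - (1 - q1) * (1 - q2) ≤ 1 := by
    have := mul_nonneg (show (0:ℝ) ≤ 1 - q1 by linarith) (show (0:ℝ) ≤ 1 - q2 by linarith)
    linarith
  by_cases hκ0 : κ ≤ 0
  · exact (mul_nonpos_of_nonneg_of_nonpos (failP_nonneg hq0 hq1'' T) hκ0).trans (by linarith)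
  push Not at hκ0
  have e0 := sum_union (X := X) q1 q2 (fun W => if ∀ S ∈ T, ¬ S ⊆ W then (1 : ℝ) else 0)
  have e1 : failP (1 - (1 - q1) * (1 - q2)) T
      = ∑ W : Finset X, wt (1 - (1 - q1) * (1 - q2)) W *
        (if ∀ S ∈ T, ¬ S ⊆ W then (1 : ℝ) else 0) := by
    unfold failP
    refine Finset.sum_congr rfl fun W _ => ?_
    split_ifs <;> simp
  rw [e1, ← e0]
  -- inner bound
  have key : ∀ W1 : Finset X,
      (∑ W2 : Finset X, wt q2 W2 * (if ∀ S ∈ T, ¬ S ⊆ W1 ∪ W2 then (1 : ℝ) else 0)) * κ
      ≤ c' + ∑ A ∈ (frags T W1).filter (fun A => l' < A.card), r ^ A.card := by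
    intro W1
    set T' := (frags T W1).filter (fun A => A.card ≤ l') with hT'
    set U := (frags T W1).filter (fun A => l' < A.card) with hU
    set cU := ∑ A ∈ U, r ^ A.card with hcU
    have hcU0 : 0 ≤ cU := Finset.sum_nonneg fun A _ => pow_nonneg hr _
    have h1 : ∑ W2 : Finset X, wt q2 W2 * (if ∀ S ∈ T, ¬ S ⊆ W1 ∪ W2 then (1 : ℝ) else 0)
        ≤ failP q2 T' := by
      unfold failP
      refine Finset.sum_le_sum fun W2 _ => ?_
      by_cases h2 : ∀ S ∈ T, ¬ S ⊆ W1 ∪ W2
      · have h3 : ∀ A ∈ T', ¬ A ⊆ W2 := by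
          intro A hA hAW
          obtain ⟨S, hS, hSA⟩ := frags_mem (Finset.mem_filter.1 hA).1
          refine h2 S hS ?_
          intro x hx
          by_cases hx1 : x ∈ W1
          · exact Finset.mem_union_left _ hx1
          · refine Finset.mem_union_right _ (hAW ?_)
            rw [← hSA]
            exact Finset.mem_sdiff.2 ⟨hx, hx1⟩
        rw [if_pos h2, if_pos h3, mul_one]
      · rw [if_neg h2, mul_zero]
        split_ifs
        · exact wt_nonneg hq2 hq2' W2
        · exact le_rfl
    have h2 : failP q2 T' * (κ - cU) ≤ c' := by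
      refine h T' (κ - cU) (fun S hS => (Finset.mem_filter.1 hS).2) ?_
      intro G hG
      have h3 := hκ (G ∪ U) ?_
      · have h4 : ∑ A ∈ G ∪ U, r ^ A.card ≤ ∑ A ∈ G, r ^ A.card + cU := by
          have := Finset.sum_union_inter (s₁ := G) (s₂ := U) (f := fun A => r ^ A.card)
          have h5 : 0 ≤ ∑ A ∈ G ∩ U, r ^ A.card :=
            Finset.sum_nonneg fun A _ => pow_nonneg hr _
          linarith
        linarith
      · intro S hS
        obtain ⟨A, hA, hAS⟩ := frags_cover T W1 hS
        by_cases hAl : A.card ≤ l'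
        · obtain ⟨B, hB, hBA⟩ := hG A (Finset.mem_filter.2 ⟨hA, hAl⟩)
          exact ⟨B, Finset.mem_union_left _ hB, hBA.trans hAS⟩
        · exact ⟨A, Finset.mem_union_right _ (Finset.mem_filter.2 ⟨hA, by omega⟩), hAS⟩
    have h3 := failP_le_one hq2 hq2' T'
    have h4 := failP_nonneg hq2 hq2' T'
    calc _ ≤ failP q2 T' * κ := mul_le_mul_of_nonneg_right h1 hκ0.le
      _ ≤ c' + cU := by nlinarith
  calc (∑ W1 : Finset X, ∑ W2 : Finset X, wt q1 W1 * wt q2 W2 *
        (if ∀ S ∈ T, ¬ S ⊆ W1 ∪ W2 then (1 : ℝ) else 0)) * κ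
      = ∑ W1 : Finset X, wt q1 W1 * ((∑ W2 : Finset X, wt q2 W2 *
        (if ∀ S ∈ T, ¬ S ⊆ W1 ∪ W2 then (1 : ℝ) else 0)) * κ) := by
        rw [Finset.sum_mul]
        refine Finset.sum_congr rfl fun W1 _ => ?_
        rw [← mul_assoc, Finset.mul_sum]
        congr 1
        refine Finset.sum_congr rfl fun W2 _ => ?_
        ring
    _ ≤ ∑ W1 : Finset X, wt q1 W1 *
        (c' + ∑ A ∈ (frags T W1).filter (fun A => l' < A.card), r ^ A.card) := by
        refine Finset.sum_le_sum fun W1 _ => ?_
        exact mul_le_mul_of_nonneg_left (key W1) (wt_nonneg hq1.le hq1' _)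
    _ = c' + ∑ W1 : Finset X, wt q1 W1 *
        (∑ A ∈ (frags T W1).filter (fun A => l' < A.card), r ^ A.card) := by
        simp_rw [mul_add]
        rw [Finset.sum_add_distrib, ← Finset.sum_mul, sum_wt, one_mul]
    _ ≤ c' + bnd l l' (r / q1) := by
        have := frag_count hr hq1 hq1' T hT l'
        linarith

lemma sum_choose_tail_odd (m : ℕ) :
    ∑ j ∈ Finset.range (2 * m + 1 + 1), (if m < j then ((2 * m + 1).choose j) else 0) = 4 ^ m := by
  have h1 := Nat.sum_range_choose_halfway m
  have h2 := Nat.sum_range_choose (2 * m + 1)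
  have h3 : ∑ j ∈ Finset.range (2 * m + 1 + 1), (2 * m + 1).choose j
      = ∑ j ∈ Finset.range (m + 1), (2 * m + 1).choose j
        + ∑ j ∈ Finset.range (2 * m + 1 + 1), (if m < j then ((2 * m + 1).choose j) else 0) := by
    rw [← Finset.sum_filter_add_sum_filter_not (Finset.range (2 * m + 1 + 1)) (fun j => j < m + 1)]
    congr 1
    · refine Finset.sum_congr ?_ fun _ _ => rfl
      ext j
      simp only [Finset.mem_filter, Finset.mem_range]
      omega
    · rw [Finset.sum_filter]
      refine Finset.sum_congr rfl fun j _ => ?_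
      by_cases h : m < j
      · rw [if_pos h, if_pos (by omega)]
      · rw [if_neg h, if_neg (by omega)]
  have h4 : (2 : ℕ) ^ (2 * m + 1) = 2 * 4 ^ m := by
    rw [pow_succ, pow_mul]; norm_num; ring
  omega

lemma bnd_le (l : ℕ) {x : ℝ} (hx0 : 0 ≤ x) (hx1 : x ≤ 1) :
    bnd l (l / 2) x ≤ x ^ (l / 2 + 1) * 4 ^ (l / 2) := by
  set m := l / 2 with hm
  have hl : l ≤ 2 * m + 1 := by omega
  refine (bnd_mono hl m hx0).trans ?_
  unfold bnd
  calc ∑ j ∈ Finset.range (2 * m + 1 + 1), ((2 * m + 1).choose j : ℝ) *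
          (if m < j then x ^ j else 0)
      ≤ ∑ j ∈ Finset.range (2 * m + 1 + 1), x ^ (m + 1) *
          ((if m < j then ((2 * m + 1).choose j) else 0 : ℕ) : ℝ) := by
        refine Finset.sum_le_sum fun j _ => ?_
        by_cases h : m < j
        · rw [if_pos h, if_pos h, mul_comm]
          exact mul_le_mul_of_nonneg_right (pow_le_pow_of_le_one hx0 hx1 (by omega))
            (Nat.cast_nonneg _)
        · rw [if_neg h, if_neg h]; simp
    _ = x ^ (m + 1) * 4 ^ m := by
        rw [← Finset.mul_sum, ← Nat.cast_sum, sum_choose_tail_odd]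
        push_cast
        ring

/-- number of rounds -/
def rounds (l : ℕ) : ℕ := if l = 0 then 0 else Nat.log 2 l + 1

lemma rounds_succ {l : ℕ} (hl : l ≠ 0) : rounds l = rounds (l / 2) + 1 := by
  unfold rounds
  rw [if_neg hl]
  rcases Nat.lt_or_ge l 2 with h | h
  · have : l = 1 := by omega
    subst this
    simp
  · rw [if_neg (by omega), Nat.log_of_one_lt_of_le (by norm_num) h]

lemma good_iter {r q1 : ℝ} (hr : 0 ≤ r) (hq1 : 0 < q1) (hq1' : q1 ≤ 1) (h8 : r / q1 ≤ 1 / 8)
    (l : ℕ) :
    Good X r l (1 - (1 - q1) ^ rounds l) ((1 - (1 / 2 : ℝ) ^ l) / 4) := by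
  induction l using Nat.strong_induction_on with
  | _ l ih =>
    rcases Nat.eq_zero_or_pos l with h0 | hpos
    · subst h0
      have : rounds 0 = 0 := by simp [rounds]
      rw [this]
      norm_num
      exact good_zero r le_rfl zero_le_one
    · have hlt : l / 2 < l := Nat.div_lt_self hpos (by norm_num)
      have h1 := ih (l / 2) hlt
      have hp0 : 0 ≤ (1 - q1) ^ rounds (l / 2) := pow_nonneg (by linarith) _
      have hp1 : (1 - q1) ^ rounds (l / 2) ≤ 1 := pow_le_one₀ (by linarith) (by linarith)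
      have hh0 : (0:ℝ) ≤ (1 / 2 : ℝ) ^ (l / 2) := by positivity
      have hh1 : (1 / 2 : ℝ) ^ (l / 2) ≤ 1 := pow_le_one₀ (by norm_num) (by norm_num)
      have h2 := good_step (X := X) hr (l := l) hq1 hq1' (q2 := 1 - (1 - q1) ^ rounds (l / 2))
        (by linarith) (by linarith) (c' := (1 - (1 / 2 : ℝ) ^ (l / 2)) / 4) (by linarith) h1
      have h3 : 1 - (1 - q1) * (1 - (1 - (1 - q1) ^ rounds (l / 2)))
          = 1 - (1 - q1) ^ rounds l := by
        rw [rounds_succ (Nat.pos_iff_ne_zero.1 hpos), pow_succ]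
        ring
      rw [h3] at h2
      intro T κ hT hκ
      refine (h2 T κ hT hκ).trans ?_
      have hx0 : 0 ≤ r / q1 := div_nonneg hr hq1.le
      have h4 := bnd_le l hx0 (h8.trans (by norm_num))
      have h5 : (r / q1) ^ (l / 2 + 1) * 4 ^ (l / 2)
          ≤ (1 / 8 : ℝ) ^ (l / 2 + 1) * 4 ^ (l / 2) :=
        mul_le_mul_of_nonneg_right (pow_le_pow_left₀ hx0 h8 _) (by positivity)
      have h6 : (1 / 8 : ℝ) ^ (l / 2 + 1) * 4 ^ (l / 2) = (1 / 8) * (1 / 2 : ℝ) ^ (l / 2) := by
        rw [pow_succ]
        have : (1 / 2 : ℝ) ^ (l / 2) = (1 / 8) ^ (l / 2) * 4 ^ (l / 2) := by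
          rw [← mul_pow]; norm_num
        rw [this]; ring
      have h7 : (1 / 2 : ℝ) ^ l ≤ (1 / 2 : ℝ) ^ (l / 2 + 1) :=
        pow_le_pow_of_le_one (by norm_num) (by norm_num) (by omega)
      have h8 : (1 / 2 : ℝ) ^ (l / 2 + 1) = (1 / 2 : ℝ) ^ (l / 2) / 2 := by
        rw [pow_succ]; ring
      linarith

lemma bernoulliWeight_eq (q : ℝ) (ω : X → Bool) :
    Crest.FinProb.bernoulliWeight q ω = wt q (Finset.univ.filter (fun i => ω i = true)) := by
  unfold Crest.FinProb.bernoulliWeight wt
  rw [Finset.prod_ite, Finset.prod_const, Finset.prod_const]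
  congr 2
  have := Finset.card_filter_add_card_filter_not (s := (Finset.univ : Finset X))
    (fun i => ω i = true)
  rw [Finset.card_univ] at this
  omega

/-- `bernoulliProb` of containing a member of the family. -/
lemma bernoulliProb_eq (q : ℝ) (T : Finset (Finset X)) (E : Set (X → Bool))
    (hE : ∀ ω, ω ∈ E ↔ ∃ S ∈ T, ∀ x ∈ S, ω x = true) :
    Crest.FinProb.bernoulliProb q E = 1 - failP q T := by
  classical
  have hb : Crest.FinProb.bernoulliProb q E
      = ∑ ω : X → Bool, if ∃ S ∈ T, ∀ x ∈ S, ω x = true then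
          Crest.FinProb.bernoulliWeight q ω else 0 := by
    unfold Crest.FinProb.bernoulliProb
    rw [Finset.sum_filter]
    refine Finset.sum_congr rfl fun ω _ => ?_
    by_cases h : ∃ S ∈ T, ∀ x ∈ S, ω x = true
    · rw [if_pos h, if_pos ((hE ω).2 h)]
    · rw [if_neg h, if_neg (fun h' => h ((hE ω).1 h'))]
  have hc : ∑ ω : X → Bool, (if ∃ S ∈ T, ∀ x ∈ S, ω x = true then
          Crest.FinProb.bernoulliWeight q ω else 0)
      = ∑ W : Finset X, if ∃ S ∈ T, S ⊆ W then wt q W else 0 := by
    refine Finset.sum_bij' (fun ω _ => Finset.univ.filter (fun i => ω i = true))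
      (fun W _ => fun i => decide (i ∈ W)) ?_ ?_ ?_ ?_ ?_
    · intros; simp
    · intros; simp
    · intro ω _
      funext i
      simp
    · intro W _
      ext i
      simp
    · intro ω _
      rw [bernoulliWeight_eq]
      have : (∃ S ∈ T, ∀ x ∈ S, ω x = true) ↔
          ∃ S ∈ T, S ⊆ Finset.univ.filter (fun i => ω i = true) := by
        constructor
        · rintro ⟨S, hS, h⟩
          exact ⟨S, hS, fun x hx => by simpa using h x hx⟩
        · rintro ⟨S, hS, h⟩
          exact ⟨S, hS, fun x hx => by simpa using h hx⟩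
      by_cases h : ∃ S ∈ T, ∀ x ∈ S, ω x = true
      · rw [if_pos h, if_pos (this.1 h)]
      · rw [if_neg h, if_neg (fun h' => h (this.2 h'))]
  rw [hb, hc, ← sum_wt (X := X) q]
  unfold failP
  rw [← Finset.sum_sub_distrib]
  refine Finset.sum_congr rfl fun W _ => ?_
  by_cases h : ∃ S ∈ T, S ⊆ W
  · have h' : ¬ ∀ S ∈ T, ¬ S ⊆ W := by
      push Not; exact h
    rw [if_pos h, if_neg h', sub_zero]
  · have h' : ∀ S ∈ T, ¬ S ⊆ W := by
      push Not at h; exact h
    rw [if_neg h, if_pos h', sub_self]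

lemma bernoulliProb_mono {q : ℝ} (h0 : 0 ≤ q) (h1 : q ≤ 1) {E F : Set (X → Bool)}
    (h : ∀ ω, ω ∈ E → ω ∈ F) :
    Crest.FinProb.bernoulliProb q E ≤ Crest.FinProb.bernoulliProb q F := by
  classical
  unfold Crest.FinProb.bernoulliProb
  refine Finset.sum_le_sum_of_subset_of_nonneg ?_ ?_
  · intro ω hω
    simp only [Finset.mem_filter, Finset.mem_univ, true_and] at hω ⊢
    exact h ω hω
  · intro ω _ _
    rw [bernoulliWeight_eq]
    exact wt_nonneg h0 h1 _

/-- **Spread lemma.** -/
theorem spread_indexed {ι : Type*} [Fintype ι] [Nonempty ι] (S : ι → Finset X)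
    (h : ℕ) (hh : 1 ≤ h) (hS : ∀ i, (S i).card ≤ h) (r : ℝ) (hr : 0 ≤ r)
    (hspread : ∀ A : Finset X, A.Nonempty →
      ((Finset.univ.filter (fun i => A ⊆ S i)).card : ℝ) ≤ 2 * r ^ A.card * Fintype.card ι)
    (E : Set (X → Bool)) (hE : ∀ ω, (∃ i, ∀ x ∈ S i, ω x = true) → ω ∈ E) :
    (1 : ℝ) / 2 ≤ Crest.FinProb.bernoulliProb
      (min 1 (8 * r * (1 + Real.logb 2 (h : ℝ)))) E := by
  classical
  set q : ℝ := min 1 (8 * r * (1 + Real.logb 2 (h : ℝ))) with hq
  have hlog : 0 ≤ Real.logb 2 (h : ℝ) :=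
    Real.logb_nonneg (by norm_num) (by exact_mod_cast hh)
  have hq0 : 0 ≤ q := le_min zero_le_one (by positivity)
  have hq1 : q ≤ 1 := min_le_left _ _
  set T : Finset (Finset X) := Finset.univ.image S with hT
  have hcover : ∀ G : Finset (Finset X), (∀ A ∈ T, ∃ B ∈ G, B ⊆ A) →
      (1 / 2 : ℝ) ≤ ∑ A ∈ G, r ^ A.card := by
    intro G hG
    by_cases he : ∅ ∈ G
    · have : r ^ (∅ : Finset X).card ≤ ∑ A ∈ G, r ^ A.card :=
        Finset.single_le_sum (f := fun A : Finset X => r ^ A.card)
          (fun A _ => pow_nonneg hr _) he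
      simp at this
      linarith
    · have hcardpos : (0 : ℝ) < Fintype.card ι := by exact_mod_cast Fintype.card_pos
      have h1 : (Fintype.card ι : ℝ) ≤
          ∑ A ∈ G, ((Finset.univ.filter (fun i => A ⊆ S i)).card : ℝ) := by
        have h2 : (Finset.univ : Finset ι) ⊆
            G.biUnion (fun A => Finset.univ.filter (fun i => A ⊆ S i)) := by
          intro i _
          obtain ⟨B, hB, hBi⟩ := hG (S i) (Finset.mem_image_of_mem S (Finset.mem_univ i))
          rw [Finset.mem_biUnion]
          exact ⟨B, hB, by simpa using hBi⟩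
        have h3 := (Finset.card_le_card h2).trans Finset.card_biUnion_le
        rw [Finset.card_univ] at h3
        exact_mod_cast h3
      have h4 : ∑ A ∈ G, ((Finset.univ.filter (fun i => A ⊆ S i)).card : ℝ)
          ≤ ∑ A ∈ G, 2 * r ^ A.card * Fintype.card ι := by
        refine Finset.sum_le_sum fun A hA => ?_
        refine hspread A ?_
        rw [Finset.nonempty_iff_ne_empty]
        rintro rfl
        exact he hA
      rw [← Finset.sum_mul, ← Finset.mul_sum] at h4
      have h5 : (1 : ℝ) * Fintype.card ι ≤ (2 * ∑ A ∈ G, r ^ A.card) * Fintype.card ι := by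
        linarith
      have h6 := le_of_mul_le_mul_right h5 hcardpos
      linarith
  have hprob := bernoulliProb_eq q T {ω | ∃ A ∈ T, ∀ x ∈ A, ω x = true} (fun ω => Iff.rfl)
  have hmono : Crest.FinProb.bernoulliProb q {ω | ∃ A ∈ T, ∀ x ∈ A, ω x = true}
      ≤ Crest.FinProb.bernoulliProb q E := by
    refine bernoulliProb_mono hq0 hq1 ?_
    rintro ω ⟨A, hA, hω⟩
    obtain ⟨i, _, rfl⟩ := Finset.mem_image.1 hA
    exact hE ω ⟨i, hω⟩
  refine le_trans ?_ hmono
  rw [hprob]
  suffices hfail : failP q T ≤ 1 / 2 by linarith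
  have hne : T.Nonempty := by
    rw [hT]; exact Finset.univ_nonempty.image S
  by_cases hbig : 1 ≤ 8 * r * (1 + Real.logb 2 (h : ℝ))
  · have : q = 1 := min_eq_left hbig
    rw [this]
    have : failP 1 T = 0 := by
      unfold failP
      refine Finset.sum_eq_zero fun W _ => ?_
      by_cases hW : W = Finset.univ
      · rw [if_neg]
        obtain ⟨A, hA⟩ := hne
        intro h'
        exact h' A hA (hW ▸ Finset.subset_univ A)
      · have hlt : W.card < Fintype.card X := by
          rw [← Finset.card_univ]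
          exact Finset.card_lt_card (Finset.ssubset_univ_iff.2 hW)
        have : wt (1 : ℝ) W = 0 := by
          unfold wt
          rw [sub_self, zero_pow (by omega), mul_zero]
        rw [this]; simp
    rw [this]; norm_num
  · push Not at hbig
    have hqeq : q = 8 * r * (1 + Real.logb 2 (h : ℝ)) := min_eq_right hbig.le
    rcases eq_or_lt_of_le hr with hr0 | hrpos
    · -- r = 0
      obtain ⟨i⟩ := ‹Nonempty ι›
      have hSi : S i = ∅ := by
        by_contra hne'
        have h1 := hspread (S i) (Finset.nonempty_iff_ne_empty.2 hne')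
        rw [← hr0, zero_pow] at h1
        · have h2 : 0 < (Finset.univ.filter (fun j => S i ⊆ S j)).card :=
            Finset.card_pos.2 ⟨i, by simp⟩
          have h3 : (0 : ℝ) < ((Finset.univ.filter (fun j => S i ⊆ S j)).card : ℝ) := by
            exact_mod_cast h2
          linarith
        · intro h0
          exact hne' (Finset.card_eq_zero.1 h0)
      have hmem : ∅ ∈ T := by
        rw [← hSi]; exact Finset.mem_image_of_mem S (Finset.mem_univ i)
      have : failP q T = 0 := by
        unfold failP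
        refine Finset.sum_eq_zero fun W _ => ?_
        rw [if_neg]
        intro h'
        exact h' ∅ hmem (Finset.empty_subset _)
      rw [this]; norm_num
    · have hq1pos : 0 < 8 * r := by linarith
      have hq1le : 8 * r ≤ 8 * r * (1 + Real.logb 2 (h : ℝ)) :=
        le_mul_of_one_le_right hq1pos.le (by linarith)
      have hq1le1 : 8 * r ≤ 1 := by linarith
      have hdiv : r / (8 * r) ≤ 1 / 8 := by
        rw [div_le_div_iff₀ hq1pos (by norm_num)]
        linarith
      have hg := good_iter (X := X) hr hq1pos hq1le1 hdiv h T (1 / 2)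
        (by
          intro A hA
          obtain ⟨i, _, rfl⟩ := Finset.mem_image.1 hA
          exact hS i) hcover
      set Q : ℝ := 1 - (1 - 8 * r) ^ rounds h with hQ
      have hpw0 : 0 ≤ (1 - 8 * r) ^ rounds h := pow_nonneg (by linarith) _
      have hpw1 : (1 - 8 * r) ^ rounds h ≤ 1 := pow_le_one₀ (by linarith) (by linarith)
      have hQ0 : 0 ≤ Q := by rw [hQ]; linarith
      have hQq : Q ≤ q := by
        have h1 := one_add_mul_le_pow (a := -(8 * r)) (by linarith) (rounds h)
        have h2 : (rounds h : ℝ) ≤ 1 + Real.logb 2 (h : ℝ) := by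
          unfold rounds
          rw [if_neg (by omega)]
          push_cast
          have := Real.natLog_le_logb h 2
          push_cast at this
          linarith
        have h3 : 1 + -(8 * r) = 1 - 8 * r := by ring
        rw [h3] at h1
        have h4 : (rounds h : ℝ) * (8 * r) ≤ (1 + Real.logb 2 (h : ℝ)) * (8 * r) :=
          mul_le_mul_of_nonneg_right h2 hq1pos.le
        rw [hQ, hqeq]
        linarith
      have h5 := failP_anti hQ0 hQq hq1 T
      have h6 : (0:ℝ) ≤ (1 / 2 : ℝ) ^ h := by positivity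
      linarith

end Spread
end Crest.Agent.R055
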