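import Mathlib
import Crest.Prelude.Def_FinProb
import Crest.Prelude.Def_RandomGraph
import Crest.Agent.R055.Spread

/-! Reduction of S0076 to the counting lemma for finite group actions. -/

set_option autoImplicit false
set_option linter.unusedSectionVars false

namespace Crest.Agent.R055

open Finset Crest.CombinatoricsR.RandomGraph

/-- The counting lemma, with constant `C`. -/
def CountingLemma (C : ℝ) : Prop :=
  ∀ (G E : Type) [Group G] [Fintype G] [Fintype E] [DecidableEq E] [MulAction G E]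
    (H : Finset E) (p : ℝ), 0 < p → p ≤ 1 →
    (∀ A : Finset E, A ⊆ H →
      (1 : ℝ) / 2 ≤ ((Finset.univ.image (fun g : G => A.image (fun x => g • x))).card : ℝ)
        * p ^ A.card) →
    ∀ A : Finset E, A.Nonempty →
      ((Finset.univ.filter (fun g : G => A.image (fun x => g • x) ⊆ H)).card : ℝ)
        ≤ 2 * (C * p) ^ A.card * Fintype.card G

section
variable {n : ℕ}

/-- permutations of the vertices act on edge slots -/
def slotSmul (g : Equiv.Perm (Fin n)) (z : EdgeSlot n) : EdgeSlot n :=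
  ⟨Sym2.map g z.1, fun h => z.2 ((Sym2.isDiag_map g.injective).1 h)⟩

instance slotAction : MulAction (Equiv.Perm (Fin n)) (EdgeSlot n) where
  smul := slotSmul
  one_smul := by
    rintro ⟨z, hz⟩
    apply Subtype.ext
    show Sym2.map _ z = z
    induction z using Sym2.ind
    rfl
  mul_smul := by
    rintro g h ⟨z, hz⟩
    apply Subtype.ext
    show Sym2.map _ z = Sym2.map g (Sym2.map h z)
    induction z using Sym2.ind
    rfl

lemma smul_val (g : Equiv.Perm (Fin n)) (z : EdgeSlot n) : (g • z).1 = Sym2.map g z.1 := rfl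

lemma graphOf_adj (ω : EdgeSlot n → Bool) (a b : Fin n) :
    (graphOf ω).Adj a b ↔ ∃ h : ¬ (s(a, b) : Sym2 (Fin n)).IsDiag, ω ⟨s(a, b), h⟩ = true := by
  unfold graphOf
  rw [SimpleGraph.fromEdgeSet_adj]
  constructor
  · rintro ⟨h, _⟩
    exact h
  · intro h
    refine ⟨h, ?_⟩
    obtain ⟨h1, _⟩ := h
    simpa using h1

/-- probability that all coins in `B` are on -/
lemma sum_weight_subset {X : Type*} [Fintype X] [DecidableEq X] (p : ℝ) (B : Finset X) :
    ∑ ω : X → Bool, Crest.FinProb.bernoulliWeight p ω *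
      (if ∀ x ∈ B, ω x = true then (1 : ℝ) else 0) = p ^ B.card := by
  have h1 : ∀ ω : X → Bool, Crest.FinProb.bernoulliWeight p ω *
      (if ∀ x ∈ B, ω x = true then (1 : ℝ) else 0)
      = ∏ i, ((if ω i then p else 1 - p) * (if i ∈ B then (if ω i then 1 else 0) else 1)) := by
    intro ω
    rw [Finset.prod_mul_distrib]
    unfold Crest.FinProb.bernoulliWeight
    congr 1
    by_cases h : ∀ x ∈ B, ω x = true
    · rw [if_pos h]
      symm
      refine Finset.prod_eq_one fun i _ => ?_
      by_cases hi : i ∈ B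
      · simp [hi, h i hi]
      · simp [hi]
    · rw [if_neg h]
      push Not at h
      obtain ⟨x, hx, hω⟩ := h
      symm
      refine Finset.prod_eq_zero (Finset.mem_univ x) ?_
      simp [hx, hω]
  simp_rw [h1]
  have h2 := Finset.prod_univ_sum (fun _ : X => (Finset.univ : Finset Bool))
    (fun (i : X) (b : Bool) => ((if b then p else 1 - p) *
      (if i ∈ B then (if b then (1 : ℝ) else 0) else 1)))
  rw [Fintype.piFinset_univ] at h2
  rw [← h2]
  have h3 : ∀ i : X, ∑ b : Bool, ((if b then p else 1 - p) *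
      (if i ∈ B then (if b then (1 : ℝ) else 0) else 1)) = if i ∈ B then p else 1 := by
    intro i
    by_cases hi : i ∈ B
    · simp [hi]
    · simp [hi]
  simp_rw [h3]
  rw [Finset.prod_ite_mem]
  simp

/-- two injections from the same finite type differ by a permutation -/
lemma exists_perm {α β : Type*} [Fintype β] [DecidableEq β] (f g : α → β)
    (hf : Function.Injective f) (hg : Function.Injective g) :
    ∃ σ : Equiv.Perm β, ∀ a, σ (f a) = g a := by
  classical
  let e : {x // x ∈ Set.range f} ≃ {x // x ∈ Set.range g} :=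
    (Equiv.ofInjective f hf).symm.trans (Equiv.ofInjective g hg)
  refine ⟨e.extendSubtype, fun a => ?_⟩
  rw [Equiv.extendSubtype_apply_of_mem e (f a) ⟨a, rfl⟩]
  simp only [e, Equiv.trans_apply]
  have : (Equiv.ofInjective f hf).symm ⟨f a, ⟨a, rfl⟩⟩ = a := by
    rw [Equiv.symm_apply_eq]
    rfl
  rw [this]
  rfl

section main
variable {W : Type} [Fintype W] [DecidableEq W] (H : SimpleGraph W) (j : W ↪ Fin n)

/-- the standard copy of `H` -/
noncomputable def copyOf : Finset (EdgeSlot n) :=
  open Classical in Finset.univ.filter (fun z => ∃ a b, H.Adj a b ∧ z.1 = s(j a, j b))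

lemma mem_copyOf (z : EdgeSlot n) : z ∈ copyOf H j ↔ ∃ a b, H.Adj a b ∧ z.1 = s(j a, j b) := by
  classical
  unfold copyOf
  simp

lemma card_copyOf [DecidableRel H.Adj] : (copyOf H j).card = H.edgeFinset.card := by
  classical
  symm
  refine Finset.card_bij (fun e he => (⟨Sym2.map j e, ?_⟩ : EdgeSlot n)) ?_ ?_ ?_
  · rw [Sym2.isDiag_map j.injective]
    exact H.not_isDiag_of_mem_edgeFinset he
  · intro e he
    rw [mem_copyOf]
    induction e using Sym2.ind with
    | _ a b =>
      rw [SimpleGraph.mem_edgeFinset, SimpleGraph.mem_edgeSet] at he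
      exact ⟨a, b, he, rfl⟩
  · intro e he e' he' h
    rw [Subtype.mk.injEq] at h
    exact Sym2.map.injective j.injective h
  · intro z hz
    rw [mem_copyOf] at hz
    obtain ⟨a, b, hab, h⟩ := hz
    refine ⟨s(a, b), ?_, ?_⟩
    · rw [SimpleGraph.mem_edgeFinset, SimpleGraph.mem_edgeSet]; exact hab
    · apply Subtype.ext
      rw [h]
      rfl

lemma copyOf_adj {a b : W} {z : EdgeSlot n} (hz : z ∈ copyOf H j) (h : z.1 = s(j a, j b)) :
    H.Adj a b := by
  rw [mem_copyOf] at hz
  obtain ⟨c, d, hcd, h'⟩ := hz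
  rw [h, Sym2.eq_iff] at h'
  rcases h' with ⟨h1, h2⟩ | ⟨h1, h2⟩
  · rw [j.injective h1, j.injective h2]; exact hcd
  · rw [j.injective h1, j.injective h2]; exact hcd.symm

/-- the subgraph of `H` with edge set `A` and no isolated vertices -/
def subOf (A : Finset (EdgeSlot n)) (hA : A ⊆ copyOf H j) : H.Subgraph where
  verts := {a | ∃ b, ∃ z ∈ A, z.1 = s(j a, j b)}
  Adj a b := ∃ z ∈ A, z.1 = s(j a, j b)
  adj_sub := by
    rintro a b ⟨z, hz, h⟩
    exact copyOf_adj H j (hA hz) h
  edge_vert := by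
    rintro a b ⟨z, hz, h⟩
    exact ⟨b, z, hz, h⟩
  symm := ⟨by
    rintro a b ⟨z, hz, h⟩
    exact ⟨z, hz, by rw [h, Sym2.eq_swap]⟩⟩

/-- the edge slots of a subgraph -/
noncomputable def slotsOf {G : SimpleGraph (Fin n)} (G' : G.Subgraph) : Finset (EdgeSlot n) :=
  open Classical in Finset.univ.filter (fun z => z.1 ∈ G'.edgeSet)

lemma mem_slotsOf {G : SimpleGraph (Fin n)} (G' : G.Subgraph) (z : EdgeSlot n) :
    z ∈ slotsOf G' ↔ z.1 ∈ G'.edgeSet := by
  classical
  unfold slotsOf
  simp

lemma slots_toSubgraph (A : Finset (EdgeSlot n)) (hA : A ⊆ copyOf H j)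
    {G : SimpleGraph (Fin n)} (f : (subOf H j A hA).coe.Copy G) :
    ∃ g : Equiv.Perm (Fin n), A.image (fun x => g • x) = slotsOf f.toSubgraph := by
  classical
  obtain ⟨g, hg⟩ := exists_perm (fun a : (subOf H j A hA).verts => j a.1) (fun a => f a)
    (fun a b h => Subtype.ext (j.injective h)) f.injective
  refine ⟨g, ?_⟩
  ext z
  rw [mem_slotsOf, Finset.mem_image]
  constructor
  · rintro ⟨y, hy, rfl⟩
    have hy' := hA hy
    rw [mem_copyOf] at hy'
    obtain ⟨a, b, hab, h⟩ := hy'
    have ha : a ∈ (subOf H j A hA).verts := ⟨b, y, hy, h⟩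
    have hb : b ∈ (subOf H j A hA).verts := ⟨a, y, hy, by rw [h, Sym2.eq_swap]⟩
    have e1 := hg ⟨a, ha⟩
    have e2 := hg ⟨b, hb⟩
    simp only at e1 e2
    have : (g • y).1 = s(f ⟨a, ha⟩, f ⟨b, hb⟩) := by
      rw [smul_val, h, Sym2.map_mk]
      simp only [e1, e2]
    rw [this, SimpleGraph.Subgraph.mem_edgeSet]
    refine ⟨⟨a, ha⟩, ⟨b, hb⟩, ?_, rfl, rfl⟩
    exact ⟨y, hy, h⟩
  · intro hz
    obtain ⟨z, hzd⟩ := z
    induction z using Sym2.ind with
    | _ u v =>
      rw [SimpleGraph.Subgraph.mem_edgeSet] at hz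
      obtain ⟨a, b, hab, rfl, rfl⟩ := hz
      have hab' : (subOf H j A hA).coe.Adj a b := hab
      obtain ⟨y, hy, h⟩ := hab'
      refine ⟨y, hy, ?_⟩
      apply Subtype.ext
      rw [smul_val, h, Sym2.map_mk, hg a, hg b]
      rfl

lemma copyCount_le (A : Finset (EdgeSlot n)) (hA : A ⊆ copyOf H j) (ω : EdgeSlot n → Bool) :
    (graphOf ω).copyCount (subOf H j A hA).coe ≤
      ((Finset.univ.image (fun g : Equiv.Perm (Fin n) => A.image (fun x => g • x))).filter
        (fun B => ∀ x ∈ B, ω x = true)).card := by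
  classical
  have : Fintype {f : (subOf H j A hA).coe →g graphOf ω // Function.Injective f} :=
    Fintype.ofFinite _
  rw [SimpleGraph.copyCount_eq_card_image_copyToSubgraph]
  refine Finset.card_le_card_of_injOn (fun G' => slotsOf G') ?_ ?_
  · intro G' hG'
    rw [Finset.mem_coe, Finset.mem_image] at hG'
    obtain ⟨f, _, rfl⟩ := hG'
    obtain ⟨g, hg⟩ := slots_toSubgraph H j A hA f
    rw [Finset.mem_coe, Finset.mem_filter]
    refine ⟨?_, ?_⟩
    · show slotsOf f.toSubgraph ∈ _
      rw [← hg]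
      exact Finset.mem_image_of_mem (fun g : Equiv.Perm (Fin n) => A.image (fun x => g • x))
        (Finset.mem_univ g)
    · intro x hx
      rw [mem_slotsOf] at hx
      obtain ⟨x, hxd⟩ := x
      induction x using Sym2.ind with
      | _ u v =>
        rw [SimpleGraph.Subgraph.mem_edgeSet] at hx
        have := f.toSubgraph.adj_sub hx
        rw [graphOf_adj] at this
        exact this.2
  · intro G1 h1 G2 h2 h
    rw [Finset.mem_coe, Finset.mem_image] at h1 h2
    obtain ⟨f1, _, rfl⟩ := h1
    obtain ⟨f2, _, rfl⟩ := h2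
    simp only at h
    have hadj : ∀ u v, f1.toSubgraph.Adj u v ↔ f2.toSubgraph.Adj u v := by
      intro u v
      by_cases huv : (s(u, v) : Sym2 (Fin n)).IsDiag
      · have : u = v := by simpa using huv
        subst this
        exact ⟨fun h => absurd rfl h.ne, fun h => absurd rfl h.ne⟩
      · have e1 := mem_slotsOf f1.toSubgraph ⟨s(u, v), huv⟩
        have e2 := mem_slotsOf f2.toSubgraph ⟨s(u, v), huv⟩
        rw [SimpleGraph.Subgraph.mem_edgeSet] at e1 e2
        rw [← e1, ← e2, h]
    have hv : ∀ (f f' : (subOf H j A hA).coe.Copy (graphOf ω)),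
        (∀ u v, f.toSubgraph.Adj u v ↔ f'.toSubgraph.Adj u v) →
        ∀ v, v ∈ f.toSubgraph.verts → v ∈ f'.toSubgraph.verts := by
      intro f f' hff v hv
      obtain ⟨a, _, rfl⟩ := hv
      obtain ⟨a, b, z, hz, hzab⟩ := a
      have hb : b ∈ (subOf H j A hA).verts := ⟨a, z, hz, by rw [hzab, Sym2.eq_swap]⟩
      have h3 : f.toSubgraph.Adj (f ⟨a, ⟨b, z, hz, hzab⟩⟩) (f ⟨b, hb⟩) := by
        refine ⟨⟨a, ⟨b, z, hz, hzab⟩⟩, ⟨b, hb⟩, ?_, rfl, rfl⟩
        exact ⟨z, hz, hzab⟩
      exact f'.toSubgraph.edge_vert ((hff _ _).1 h3)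
    refine SimpleGraph.Subgraph.ext ?_ ?_
    · ext v
      exact ⟨hv f1 f2 hadj v, hv f2 f1 (fun u v => (hadj u v).symm) v⟩
    · funext u v
      exact propext (hadj u v)

lemma expect_le (p : ℝ) (hp0 : 0 ≤ p) (hp1 : p ≤ 1)
    (A : Finset (EdgeSlot n)) (hA : A ⊆ copyOf H j) :
    gnpExpect n p (fun G => (G.copyCount (subOf H j A hA).coe : ℝ)) ≤
      ((Finset.univ.image (fun g : Equiv.Perm (Fin n) => A.image (fun x => g • x))).card : ℝ)
        * p ^ A.card := by
  classical
  set O := Finset.univ.image (fun g : Equiv.Perm (Fin n) => A.image (fun x => g • x)) with hO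
  have hcard : ∀ B ∈ O, B.card = A.card := by
    intro B hB
    obtain ⟨g, _, rfl⟩ := Finset.mem_image.1 hB
    exact Finset.card_image_of_injective _ (MulAction.injective g)
  unfold gnpExpect
  calc ∑ ω : EdgeSlot n → Bool, Crest.FinProb.bernoulliWeight p ω *
        (((graphOf ω).copyCount (subOf H j A hA).coe : ℕ) : ℝ)
      ≤ ∑ ω : EdgeSlot n → Bool, Crest.FinProb.bernoulliWeight p ω *
        ∑ B ∈ O, (if ∀ x ∈ B, ω x = true then (1 : ℝ) else 0) := by
        refine Finset.sum_le_sum fun ω _ => ?_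
        refine mul_le_mul_of_nonneg_left ?_ ?_
        · have h1 := copyCount_le H j A hA ω
          have h2 : ∑ B ∈ O, (if ∀ x ∈ B, ω x = true then (1 : ℝ) else 0)
              = ((O.filter (fun B => ∀ x ∈ B, ω x = true)).card : ℝ) := by
            rw [← Finset.sum_filter]; simp
          rw [h2]
          exact_mod_cast h1
        · rw [bernoulliWeight_eq]
          exact wt_nonneg hp0 hp1 _
    _ = ∑ B ∈ O, p ^ B.card := by
        simp_rw [Finset.mul_sum]
        rw [Finset.sum_comm]
        exact Finset.sum_congr rfl fun B _ => sum_weight_subset p B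
    _ = (O.card : ℝ) * p ^ A.card := by
        rw [Finset.sum_congr rfl (fun B hB => by rw [hcard B hB]), Finset.sum_const,
          nsmul_eq_mul]

end main

/-- **Reduction**: the counting lemma with constant `C` gives the threshold with `8 C`. -/
theorem reduce {C : ℝ} (hC : 0 ≤ C) (hcount : CountingLemma C)
    (n : ℕ) (W : Type) [Fintype W] [DecidableEq W] (H : SimpleGraph W)
    [DecidableRel H.Adj] (hW : Fintype.card W ≤ n) (hH : 1 ≤ H.edgeFinset.card)
    (p : ℝ) (hp0 : 0 ≤ p) (hp1 : p ≤ 1)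
    (hE : ∀ F : H.Subgraph, (1 : ℝ) / 2 ≤
      gnpExpect n p (fun G => (G.copyCount F.coe : ℝ))) :
    (1 : ℝ) / 2 ≤ gnpProb n
      (min 1 (8 * (C * p) * (1 + Real.logb 2 (H.edgeFinset.card : ℝ))))
      {G | H.IsContained G} := by
  classical
  obtain ⟨j⟩ : Nonempty (W ↪ Fin n) := by
    refine Function.Embedding.nonempty_of_card_le ?_
    rw [Fintype.card_fin]; exact hW
  have hN : ∀ A : Finset (EdgeSlot n), A ⊆ copyOf H j →
      (1 : ℝ) / 2 ≤ ((Finset.univ.image
        (fun g : Equiv.Perm (Fin n) => A.image (fun x => g • x))).card : ℝ) * p ^ A.card :=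
    fun A hA => (hE (subOf H j A hA)).trans (expect_le H j p hp0 hp1 A hA)
  have hcard := card_copyOf H j
  have hp : 0 < p := by
    rcases eq_or_lt_of_le hp0 with h | h
    · exfalso
      have := hN (copyOf H j) (Finset.Subset.refl _)
      rw [← h, zero_pow (by omega)] at this
      norm_num at this
    · exact h
  have hc := hcount (Equiv.Perm (Fin n)) (EdgeSlot n) (copyOf H j) p hp hp1 hN
  unfold gnpProb
  refine spread_indexed (ι := Equiv.Perm (Fin n))
    (fun g => (copyOf H j).image (fun x => g • x)) H.edgeFinset.card hH ?_ (C * p)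
    (mul_nonneg hC hp0) ?_ _ ?_
  · intro g
    rw [← hcard]
    exact Finset.card_image_le
  · intro A hA
    have h1 := hc A hA
    have h2 : (Finset.univ.filter (fun g : Equiv.Perm (Fin n) =>
          A ⊆ (copyOf H j).image (fun x => g • x))).card
        = (Finset.univ.filter (fun g : Equiv.Perm (Fin n) =>
          A.image (fun x => g • x) ⊆ copyOf H j)).card := by
      refine Finset.card_bij' (fun g _ => g⁻¹) (fun g _ => g⁻¹) ?_ ?_ ?_ ?_
      · intro g hg
        simp only [Finset.mem_filter, Finset.mem_univ, true_and] at hg ⊢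
        intro y hy
        obtain ⟨x, hx, rfl⟩ := Finset.mem_image.1 hy
        obtain ⟨z, hz, rfl⟩ := Finset.mem_image.1 (hg hx)
        rw [inv_smul_smul]
        exact hz
      · intro g hg
        simp only [Finset.mem_filter, Finset.mem_univ, true_and] at hg ⊢
        intro x hx
        refine Finset.mem_image.2 ⟨g • x, hg (Finset.mem_image_of_mem _ hx), ?_⟩
        rw [inv_smul_smul]
      · intro g _; simp
      · intro g _; simp
    rw [h2]
    exact h1
  · rintro ω ⟨g, hg⟩
    show H.IsContained (graphOf ω)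
    refine ⟨⟨⟨fun a => g (j a), ?_⟩, ?_⟩⟩
    · intro a b hab
      rw [graphOf_adj]
      have hne : ¬ (s(j a, j b) : Sym2 (Fin n)).IsDiag := by
        rw [Sym2.mk_isDiag_iff]
        exact fun h => hab.ne (j.injective h)
      have hne' : ¬ (s(g (j a), g (j b)) : Sym2 (Fin n)).IsDiag := by
        rw [Sym2.mk_isDiag_iff]
        exact fun h => hab.ne (j.injective (g.injective h))
      refine ⟨hne', ?_⟩
      refine hg ⟨s(g (j a), g (j b)), hne'⟩ ?_
      refine Finset.mem_image.2 ⟨⟨s(j a, j b), hne⟩, ?_, ?_⟩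
      · rw [mem_copyOf]
        exact ⟨a, b, hab, rfl⟩
      · apply Subtype.ext
        rfl
    · intro a b hab
      exact j.injective (g.injective hab)

end

end Crest.Agent.R055
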