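import Mathlib

/-!
Row 55 (S0076): the sparse entropy bound and the final deduction of the counting lemma
(helper212).
-/

set_option autoImplicit false

namespace Crest.Agent.R055.Sparse

open Finset Real
set_option linter.unusedSectionVars false
open scoped Pointwise BigOperators

variable {G E : Type} [Group G] [Fintype G] [Fintype E] [DecidableEq E] [MulAction G E]

/-- The (finite) orbit of a subset of `E`. -/
noncomputable def orb (G : Type) {E : Type} [Group G] [Fintype G] [DecidableEq E] [MulAction G E]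
    (A : Finset E) : Finset (Finset E) :=
  Finset.univ.image (fun g : G => A.image (fun x => g • x))

theorem mem_orb (A S : Finset E) : S ∈ orb G A ↔ ∃ g : G, g • A = S := by
  simp only [orb, mem_image, mem_univ, true_and]
  rfl

theorem image_eq_smul (g : G) (A : Finset E) : A.image (fun x => g • x) = g • A := rfl

theorem orb_pos (A : Finset E) : 0 < (orb G A).card := by
  apply Finset.card_pos.mpr
  exact ⟨A, (mem_orb A A).mpr ⟨1, one_smul _ _⟩⟩

/-- `v S ≤ 1 / N` for an invariant law. -/
theorem orb_mul_le (v : Finset E → ℝ) (h0 : ∀ S, 0 ≤ v S) (h1 : ∑ S, v S = 1)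
    (hinv : ∀ (g : G) (S : Finset E), v (g • S) = v S) (S : Finset E) :
    ((orb G S).card : ℝ) * v S ≤ 1 := by
  have h : ∑ T ∈ orb G S, v T = ((orb G S).card : ℝ) * v S := by
    rw [← nsmul_eq_mul]
    apply Finset.sum_eq_card_nsmul
    intro T hT
    obtain ⟨g, rfl⟩ := (mem_orb S T).mp hT
    exact hinv g S
  rw [← h, ← h1]
  exact Finset.sum_le_sum_of_subset_of_nonneg (Finset.subset_univ _) (fun T _ _ => h0 T)

theorem orb_smul (g : G) (S : Finset E) : orb G (g • S) = orb G S := by
  ext T
  rw [mem_orb, mem_orb]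
  constructor
  · rintro ⟨h, rfl⟩
    exact ⟨h * g, mul_smul _ _ _⟩
  · rintro ⟨h, rfl⟩
    refine ⟨h * g⁻¹, ?_⟩
    rw [mul_smul, inv_smul_smul]

/-- **Sparse bound**: the entropy of a `G`-invariant law carried by translates of subsets of `H` is
at least `log(1/p) E|S| - log 2`. -/
theorem sparse_bound (H : Finset E) (p : ℝ) (hp : 0 < p)
    (hN : ∀ A, A ⊆ H →
      (1 : ℝ) / 2 ≤ ((Finset.univ.image (fun g : G => A.image (fun x => g • x))).card : ℝ)
        * p ^ A.card)
    (v : Finset E → ℝ) (h0 : ∀ S, 0 ≤ v S) (h1 : ∑ S, v S = 1)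
    (hinv : ∀ (g : G) (S : Finset E), v (g • S) = v S)
    (hs : ∀ S, v S ≠ 0 → ∃ g : G, g • S ⊆ H) :
    Real.log (1 / p) * (∑ S, v S * (S.card : ℝ)) - Real.log 2 ≤ ∑ S, Real.negMulLog (v S) := by
  have key : ∀ S, Real.log (1 / p) * (v S * (S.card : ℝ)) - v S * Real.log 2
      ≤ Real.negMulLog (v S) := by
    intro S
    by_cases hv : v S = 0
    · simp [hv]
    · have hvpos : 0 < v S := lt_of_le_of_ne (h0 S) (Ne.symm hv)
      obtain ⟨g, hg⟩ := hs S hv
      have h2 := hN (g • S) hg
      change (1 : ℝ) / 2 ≤ ((orb G (g • S)).card : ℝ) * p ^ (g • S).card at h2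
      rw [orb_smul, Finset.card_smul_finset] at h2
      have h3 := orb_mul_le v h0 h1 hinv S
      have hNpos : (0 : ℝ) < ((orb G S).card : ℝ) := by exact_mod_cast orb_pos (G := G) S
      have hple : 0 < p ^ S.card := pow_pos hp _
      -- v S ≤ 2 p^|S|
      have h4 : v S ≤ 2 * p ^ S.card := by
        have : v S ≤ 1 / ((orb G S).card : ℝ) := by
          rw [le_div_iff₀ hNpos]; linarith
        refine this.trans ?_
        rw [div_le_iff₀ hNpos]
        linarith
      have h5 : Real.log (v S) ≤ Real.log 2 + S.card * Real.log p := by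
        calc Real.log (v S) ≤ Real.log (2 * p ^ S.card) := Real.log_le_log hvpos h4
          _ = Real.log 2 + S.card * Real.log p := by
            rw [Real.log_mul (by norm_num) hple.ne', Real.log_pow]
      rw [Real.negMulLog, one_div, Real.log_inv]
      nlinarith [mul_le_mul_of_nonneg_left h5 hvpos.le]
  calc Real.log (1 / p) * (∑ S, v S * (S.card : ℝ)) - Real.log 2
      = ∑ S, (Real.log (1 / p) * (v S * (S.card : ℝ)) - v S * Real.log 2) := by
        rw [Finset.sum_sub_distrib, ← Finset.mul_sum, ← Finset.sum_mul, h1, one_mul]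
    _ ≤ ∑ S, Real.negMulLog (v S) := Finset.sum_le_sum (fun S _ => key S)

end Crest.Agent.R055.Sparse
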