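import Mathlib
import Crest.Agent.R055.Stmts
import Crest.Agent.R055.CountBlk
import Crest.Agent.R055.DataProc

/-!
# R055.SparseGain: inequality (7), the sparse gain bound
-/

set_option autoImplicit false
set_option linter.unusedSectionVars false
open Finset Real
open scoped Pointwise

namespace Crest.Agent.R055
namespace SG

variable {G : Type} [Group G] [Fintype G] {E : Type} [Fintype E] [DecidableEq E]
    [MulAction G E] {H : Finset E}

lemma push_fst_prod (B B' : Blk G H) :
    push (fun x : B.T × B'.T => x.1) (B.prod B').μ = B.μ := by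
  funext t
  have h : push (fun x : B.T × B'.T => x.1) (B.prod B').μ t = ∑ b, B.μ t * B'.μ b :=
    push_fst (fun x : B.T × B'.T => B.μ x.1 * B'.μ x.2) t
  rw [h, ← Finset.mul_sum, B'.prob.sum_eq, mul_one]

lemma push_snd_prod (B B' : Blk G H) :
    push (fun x : B.T × B'.T => x.2) (B.prod B').μ = B'.μ := by
  funext t
  have h : push (fun x : B.T × B'.T => x.2) (B.prod B').μ t = ∑ b, B.μ b * B'.μ t :=
    push_snd (fun x : B.T × B'.T => B.μ x.1 * B'.μ x.2) t
  rw [h, ← Finset.sum_mul, B.prob.sum_eq, one_mul]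

lemma ent_law_fst (B B' : Blk G H) :
    ent (B.prod B').law (fun x : B.T × B'.T => x.1) = hl (symm G B.μ) := by
  have h : push (fun x : B.T × B'.T => x.1) (symm G (B.prod B').μ) =
      symm G (push (fun x : B.T × B'.T => x.1) (B.prod B').μ) :=
    push_symm G (S := B.T × B'.T) (fun g s => rfl) _
  rw [push_fst_prod] at h
  rw [← h]
  exact ent_eq_hl (S := B.T × B'.T) _ _

lemma ent_law_snd (B B' : Blk G H) :
    ent (B.prod B').law (fun x : B.T × B'.T => x.2) = hl (symm G B'.μ) := by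
  have h : push (fun x : B.T × B'.T => x.2) (symm G (B.prod B').μ) =
      symm G (push (fun x : B.T × B'.T => x.2) (B.prod B').μ) :=
    push_symm G (S := B.T × B'.T) (fun g s => rfl) _
  rw [push_snd_prod] at h
  rw [← h]
  exact ent_eq_hl (S := B.T × B'.T) _ _

/-- the law of two copies of the same block is invariant under the swap -/
lemma push_swap_law (B : Blk G H) :
    push (fun x : B.T × B.T => (x.2, x.1)) (B.prod B).law = (B.prod B).law := by
  have h : push (fun x : B.T × B.T => (x.2, x.1)) (symm G (B.prod B).μ) =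
      symm G (push (fun x : B.T × B.T => (x.2, x.1)) (B.prod B).μ) :=
    push_symm G (S := B.T × B.T) (S' := B.T × B.T) (fun g s => rfl) _
  have h2 : push (fun x : B.T × B.T => (x.2, x.1)) (B.prod B).μ = (B.prod B).μ := by
    classical
    funext y
    unfold push
    rw [Finset.sum_eq_single ((y.2, y.1) : B.T × B.T)]
    · rw [if_pos rfl]
      exact mul_comm (B.μ y.2) (B.μ y.1)
    · intro b _ hb
      rw [if_neg]
      intro hby
      apply hb
      rw [← hby]
    · simp
  rw [h2] at h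
  exact h

lemma ent_law_swap (B : Blk G H) {R : Type*} [Fintype R] (X : B.T × B.T → R) :
    ent (B.prod B).law X = ent (B.prod B).law (fun x : B.T × B.T => X (x.2, x.1)) := by
  conv_lhs => rw [← push_swap_law B]
  exact ent_push (S := B.T × B.T) (S' := B.T × B.T) _ _ X

lemma ecard_law (B B' : Blk G H) :
    ecard (B.prod B').law (fun x : B.T × B'.T => B.U x.1 ∩ B'.U x.2) =
      ecard (B.prod B').μ (fun x : B.T × B'.T => B.U x.1 ∩ B'.U x.2) := by
  unfold ecard Blk.law
  refine sum_symm_mul G (S := B.T × B'.T) _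
    (fun x : B.T × B'.T => ((B.U x.1 ∩ B'.U x.2).card : ℝ)) (fun g x => ?_)
  have h : B.U (g • x).1 ∩ B'.U (g • x).2 = g • (B.U x.1 ∩ B'.U x.2) := by
    change B.U (g • x.1) ∩ B'.U (g • x.2) = _
    rw [B.equi, B'.equi, Finset.smul_finset_inter]
  rw [h, Finset.card_smul_finset]

lemma ecard_union (B B' : Blk G H) :
    ecard (B.prod B').μ (B.prod B').U = ecard B.μ B.U + ecard B'.μ B'.U -
      ecard (B.prod B').μ (fun x : B.T × B'.T => B.U x.1 ∩ B'.U x.2) := by
  have h1 : ∀ x : B.T × B'.T, (((B.U x.1 ∪ B'.U x.2).card : ℝ)) =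
      ((B.U x.1).card : ℝ) + ((B'.U x.2).card : ℝ) - ((B.U x.1 ∩ B'.U x.2).card : ℝ) := by
    intro x
    have := Finset.card_union_add_card_inter (B.U x.1) (B'.U x.2)
    rw [eq_sub_iff_add_eq]
    exact_mod_cast this
  have e1 : ∑ x : B.T × B'.T, B.μ x.1 * B'.μ x.2 * ((B.U x.1).card : ℝ) = ecard B.μ B.U := by
    rw [Fintype.sum_prod_type]
    unfold ecard
    refine Finset.sum_congr rfl fun a _ => ?_
    simp only
    rw [← Finset.sum_mul, ← Finset.mul_sum, B'.prob.sum_eq, mul_one]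
  have e2 : ∑ x : B.T × B'.T, B.μ x.1 * B'.μ x.2 * ((B'.U x.2).card : ℝ) = ecard B'.μ B'.U := by
    rw [Fintype.sum_prod_type_right]
    unfold ecard
    refine Finset.sum_congr rfl fun a _ => ?_
    simp only
    rw [← Finset.sum_mul, ← Finset.sum_mul, B.prob.sum_eq, one_mul]
  have e3 : ecard (B.prod B').μ (B.prod B').U = ∑ x : B.T × B'.T, B.μ x.1 * B'.μ x.2 *
      (((B.U x.1 ∪ B'.U x.2).card : ℝ)) := rfl
  have e4 : ecard (B.prod B').μ (fun x : B.T × B'.T => B.U x.1 ∩ B'.U x.2) =
    ∑ x : B.T × B'.T, B.μ x.1 * B'.μ x.2 * (((B.U x.1 ∩ B'.U x.2).card : ℝ)) := rfl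
  rw [e3, e4, ← e1, ← e2, ← Finset.sum_add_distrib, ← Finset.sum_sub_distrib]
  refine Finset.sum_congr rfl fun x _ => ?_
  rw [h1 x]
  ring

/-- the gain of two copies of a block -/
lemma gain_eq (B : Blk G H) (l Ψ : ℝ) : 2 * B.F l Ψ - (B.prod B).F l Ψ =
    2 * hl (symm G B.μ) - hl (B.prod B).law - l * B.k + Ψ := by
  have h1 : hl (B.prod B).μ = hl B.μ + hl B.μ := hl_mul B.prob.sum_eq B.prob.sum_eq
  have h2 := ecard_union B B
  have h3 : B.k = ecard (B.prod B).μ (fun x : B.T × B.T => B.U x.1 ∩ B.U x.2) := ecard_law B B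
  unfold Blk.F Dv
  rw [h1, h2, h3]
  have h4 : (B.prod B).law = symm G (B.prod B).μ := rfl
  rw [h4]
  ring

theorem sparseGainStmt (H : Finset E) (p l Ψ : ℝ) (hp : 0 < p)
    (hN : ∀ A : Finset E, A ⊆ H →
      (1 : ℝ) / 2 ≤ ((Finset.univ.image (fun g : G => A.image (fun x => g • x))).card : ℝ)
        * p ^ A.card) : SparseGainStmt G H l p Ψ := by
  intro B
  rw [gain_eq]
  obtain ⟨P, hPdef⟩ : ∃ P : B.T × B.T → ℝ, P = (B.prod B).law := ⟨_, rfl⟩
  have hprob : IsProb P := by
    rw [hPdef]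
    exact isProb_symm G (B.prod B).prob
  have hK : Real.log (1 / p) * B.k - Real.log 2 ≤
      ent P (fun x : B.T × B.T => B.U x.1 ∩ B.U x.2) := by
    rw [hPdef]
    exact Blk.ent_inter_ge B B p hp hN
  have hsub := ent_submod hprob (fun x : B.T × B.T => x.1) (fun x : B.T × B.T => x.2)
    (fun x : B.T × B.T => B.U x.1 ∩ B.U x.2)
  have e0 : hl (B.prod B).law = hl P := by rw [hPdef]; rfl
  have e1 : ent P (fun x : B.T × B.T => (x.1, x.2, B.U x.1 ∩ B.U x.2)) = hl P := by
    rw [← ent_id P]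
    apply ent_congr
    intro x y
    constructor
    · intro h
      simp only [Prod.mk.injEq] at h
      exact Prod.ext h.1 h.2.1
    · intro h
      rw [h]
  have e2 : ent P (fun x : B.T × B.T => (x.1, B.U x.1 ∩ B.U x.2)) =
      B.m + hl (symm G B.μ) := by
    have h1 : ent P (fun x : B.T × B.T => (x.1, B.U x.1 ∩ B.U x.2)) =
        ent P (fun x : B.T × B.T => (B.U x.1 ∩ B.U x.2, x.1)) := by
      apply ent_congr
      intro x y
      simp only [Prod.mk.injEq]
      tauto
    have h2 : ent P (fun x : B.T × B.T => x.1) = hl (symm G B.μ) := by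
      rw [hPdef]; exact ent_law_fst B B
    have h3 : B.m = ent P (fun x : B.T × B.T => (B.U x.1 ∩ B.U x.2, x.1)) -
      ent P (fun x : B.T × B.T => x.1) := by rw [hPdef]; rfl
    rw [h1, h3, h2]
    ring
  have e3 : ent P (fun x : B.T × B.T => (x.2, B.U x.1 ∩ B.U x.2)) =
      B.m + hl (symm G B.μ) := by
    rw [← e2]
    have h1 : ent P (fun x : B.T × B.T => (x.2, B.U x.1 ∩ B.U x.2)) =
        ent P (fun x : B.T × B.T => (x.1, B.U x.2 ∩ B.U x.1)) := by
      rw [hPdef]
      exact ent_law_swap B (fun x : B.T × B.T => (x.2, B.U x.1 ∩ B.U x.2))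
    rw [h1]
    apply ent_congr
    intro x y
    simp only [Prod.mk.injEq]
    rw [Finset.inter_comm (B.U x.2), Finset.inter_comm (B.U y.2)]
  rw [e1, e2, e3] at hsub
  rw [e0]
  nlinarith [hK, hsub]

end SG

end Crest.Agent.R055
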